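import Vale.Agent.P112.Defs
import Vale.Agent.P112.FT.TypeDefs

set_option linter.all false

namespace Vale.Agent.P112.SC

open MeasureTheory

/-! Shortcuts for instance search (plane). -/

@[reducible] noncomputable def i0 : MeasureSpace (EuclideanSpace ℝ (Fin 2)) := inferInstance
theorem i1 : SFinite (volume : Measure (EuclideanSpace ℝ (Fin 2))) := inferInstance
theorem i2 : ContinuousSMul ℝ (EuclideanSpace ℝ (Fin 2)) := inferInstance
theorem i3 : ContinuousSub (EuclideanSpace ℝ (Fin 2)) := inferInstance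
theorem i4 : ProperSpace (EuclideanSpace ℝ (Fin 2)) := inferInstance
theorem i5 : MeasurableAdd₂ (EuclideanSpace ℝ (Fin 2)) := inferInstance
theorem i6 : SigmaFinite (volume : Measure (EuclideanSpace ℝ (Fin 2))) := inferInstance
theorem i7 : T2Space (EuclideanSpace ℝ (Fin 2)) := inferInstance

end Vale.Agent.P112.SC

attribute [local instance] Vale.Agent.P112.SC.i0 Vale.Agent.P112.SC.i1 Vale.Agent.P112.SC.i2
  Vale.Agent.P112.SC.i3 Vale.Agent.P112.SC.i4 Vale.Agent.P112.SC.i5 Vale.Agent.P112.SC.i6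
  Vale.Agent.P112.SC.i7

section

/-! Task P112-FT06: the Cotlar–Stein lemma for finite families. -/

namespace Vale.Agent.P112

/-- Iterated sum over words of length `n` with letters in `s`. -/
def cotlarStein_sumL {ι M : Type*} [AddCommMonoid M] (s : Finset ι) : ℕ → (List ι → M) → M
  | 0, F => F []
  | n + 1, F => ∑ i ∈ s, cotlarStein_sumL s n (fun l => F (i :: l))

theorem cotlarStein_norm_sumL_le {ι M : Type*} [SeminormedAddCommGroup M] (s : Finset ι) (n : ℕ)
    (F : List ι → M) :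
    ‖cotlarStein_sumL s n F‖ ≤ cotlarStein_sumL s n (fun l => ‖F l‖) := by
  induction n generalizing F with
  | zero => exact le_rfl
  | succ n ih => exact (norm_sum_le _ _).trans (Finset.sum_le_sum fun i _ => ih _)

theorem cotlarStein_sumL_mono {ι : Type*} (s : Finset ι) (n : ℕ) (F G : List ι → ℝ)
    (h : ∀ l : List ι, l.length = n → (∀ x ∈ l, x ∈ s) → F l ≤ G l) :
    cotlarStein_sumL s n F ≤ cotlarStein_sumL s n G := by
  induction n generalizing F G with
  | zero => exact h [] rfl (fun x hx => absurd hx (List.not_mem_nil))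
  | succ n ih =>
    refine Finset.sum_le_sum fun i hi => ih _ _ fun l hl hls => h (i :: l) (by simp [hl]) ?_
    intro x hx
    rcases List.mem_cons.1 hx with rfl | hx
    · exact hi
    · exact hls x hx

theorem cotlarStein_sumL_mul {ι R : Type*} [NonUnitalNonAssocSemiring R] (s : Finset ι) (n : ℕ)
    (F : List ι → R) (X : R) :
    cotlarStein_sumL s n (fun l => X * F l) = X * cotlarStein_sumL s n F := by
  induction n generalizing F with
  | zero => rfl
  | succ n ih =>
    show ∑ i ∈ s, cotlarStein_sumL s n (fun l => X * F (i :: l)) =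
      X * ∑ i ∈ s, cotlarStein_sumL s n (fun l => F (i :: l))
    rw [Finset.mul_sum]
    exact Finset.sum_congr rfl fun i _ => ih _

/-- Alternating products along a word. -/
def cotlarStein_word {ι R : Type*} [Monoid R] (U V : ι → R) : List ι → R
  | [] => 1
  | i :: l => U i * cotlarStein_word V U l

/-- The product of the `γ` along a word. -/
def cotlarStein_path {ι : Type*} (γ : ι → ι → ℝ) : ι → List ι → ℝ
  | _, [] => 1
  | i, j :: l => γ i j * cotlarStein_path γ j l

/-- The crude bound. -/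
def cotlarStein_crude {ι : Type*} (γ : ι → ι → ℝ) (B : ℝ) : List ι → ℝ
  | [] => 1
  | [_] => B
  | i :: j :: l => γ i j ^ 2 * cotlarStein_crude γ B l

theorem cotlarStein_path_nonneg {ι : Type*} (γ : ι → ι → ℝ) (hγ : ∀ i j, 0 ≤ γ i j) (i : ι)
    (l : List ι) : 0 ≤ cotlarStein_path γ i l := by
  induction l generalizing i with
  | nil => exact zero_le_one
  | cons j l ih => exact mul_nonneg (hγ i j) (ih j)

theorem cotlarStein_crude_mul {ι : Type*} (γ : ι → ι → ℝ) (B : ℝ) (i : ι) (l : List ι) :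
    cotlarStein_crude γ B (i :: l) * cotlarStein_crude γ B l =
      B * cotlarStein_path γ i l ^ 2 := by
  induction l generalizing i with
  | nil => simp only [cotlarStein_crude, mul_one, cotlarStein_path, one_pow]
  | cons j l ih =>
    have h := ih j
    simp only [cotlarStein_crude, cotlarStein_path] at h ⊢
    calc γ i j ^ 2 * cotlarStein_crude γ B l * cotlarStein_crude γ B (j :: l)
        = γ i j ^ 2 * (cotlarStein_crude γ B (j :: l) * cotlarStein_crude γ B l) := by ring
      _ = B * (γ i j * cotlarStein_path γ j l) ^ 2 := by rw [h]; ring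

theorem cotlarStein_sumL_path_le {ι : Type*} (s : Finset ι) (γ : ι → ι → ℝ)
    (hγ : ∀ i j, 0 ≤ γ i j) (B : ℝ) (hB0 : 0 ≤ B) (hB : ∀ i ∈ s, ∑ j ∈ s, γ i j ≤ B) (n : ℕ)
    (i : ι) (hi : i ∈ s) :
    cotlarStein_sumL s n (fun l => cotlarStein_path γ i l) ≤ B ^ n := by
  induction n generalizing i with
  | zero => simp only [cotlarStein_sumL, cotlarStein_path, pow_zero, Std.le_refl]
  | succ n ih =>
    show ∑ j ∈ s, cotlarStein_sumL s n (fun l => γ i j * cotlarStein_path γ j l) ≤ B ^ (n + 1)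
    have h1 : ∀ j ∈ s, cotlarStein_sumL s n (fun l => γ i j * cotlarStein_path γ j l) ≤
        γ i j * B ^ n := by
      intro j hj
      rw [cotlarStein_sumL_mul]
      exact mul_le_mul_of_nonneg_left (ih j hj) (hγ i j)
    refine (Finset.sum_le_sum h1).trans ?_
    rw [← Finset.sum_mul, pow_succ']
    exact mul_le_mul_of_nonneg_right (hB i hi) (pow_nonneg hB0 n)

section Ring

variable {ι R : Type*} [NormedRing R] [NormOneClass R]

theorem cotlarStein_word_le_crude (s : Finset ι) (γ : ι → ι → ℝ) (B : ℝ) (n : ℕ) :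
    ∀ (l : List ι) (U V : ι → R), l.length ≤ n → (∀ x ∈ l, x ∈ s) →
      (∀ i ∈ s, ‖U i‖ ≤ B) → (∀ i ∈ s, ‖V i‖ ≤ B) →
      (∀ i ∈ s, ∀ j ∈ s, ‖U i * V j‖ ≤ γ i j ^ 2) →
      ‖cotlarStein_word U V l‖ ≤ cotlarStein_crude γ B l := by
  induction n with
  | zero =>
    intro l U V hl _ _ _ _
    have : l = [] := List.length_eq_zero_iff.1 (Nat.le_zero.1 hl)
    subst this
    simp only [cotlarStein_word, norm_one, cotlarStein_crude, Std.le_refl]
  | succ n ih =>
    intro l U V hl hls hU hV h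
    match l, hl, hls with
    | [], _, _ => simp only [cotlarStein_word, norm_one, cotlarStein_crude, Std.le_refl]
    | [i], _, hls =>
      simp only [cotlarStein_word, mul_one, cotlarStein_crude]
      exact hU i (hls i (by simp))
    | i :: j :: l, hl, hls =>
      simp only [cotlarStein_word, cotlarStein_crude]
      rw [← mul_assoc]
      refine (norm_mul_le _ _).trans ?_
      refine mul_le_mul (h i (hls i (by simp)) j (hls j (by simp))) ?_ (norm_nonneg _)
        (sq_nonneg _)
      refine ih l U V ?_ (fun x hx => hls x (by simp [hx])) hU hV h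
      simp only [List.length_cons] at hl
      omega

theorem cotlarStein_word_le (s : Finset ι) (γ : ι → ι → ℝ) (hγ : ∀ i j, 0 ≤ γ i j)
    (B : ℝ) (hB0 : 0 ≤ B) (i : ι) (l : List ι) (hi : i ∈ s) (hls : ∀ x ∈ l, x ∈ s)
    (U V : ι → R) (hU : ∀ i ∈ s, ‖U i‖ ≤ B) (hV : ∀ i ∈ s, ‖V i‖ ≤ B)
    (hUV : ∀ i ∈ s, ∀ j ∈ s, ‖U i * V j‖ ≤ γ i j ^ 2)
    (hVU : ∀ i ∈ s, ∀ j ∈ s, ‖V i * U j‖ ≤ γ i j ^ 2) :
    ‖cotlarStein_word U V (i :: l)‖ ≤ B * cotlarStein_path γ i l := by
  have hils : ∀ x ∈ i :: l, x ∈ s := by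
    intro x hx
    rcases List.mem_cons.1 hx with rfl | hx
    · exact hi
    · exact hls x hx
  have h1 := cotlarStein_word_le_crude s γ B _ (i :: l) U V le_rfl hils hU hV hUV
  have h2 : ‖cotlarStein_word U V (i :: l)‖ ≤ B * cotlarStein_crude γ B l := by
    show ‖U i * cotlarStein_word V U l‖ ≤ _
    refine (norm_mul_le _ _).trans (mul_le_mul (hU i hi) ?_ (norm_nonneg _) hB0)
    exact cotlarStein_word_le_crude s γ B _ l V U le_rfl hls hV hU hVU
  have h3 : ‖cotlarStein_word U V (i :: l)‖ ^ 2 ≤ (B * cotlarStein_path γ i l) ^ 2 := by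
    calc ‖cotlarStein_word U V (i :: l)‖ ^ 2
        = ‖cotlarStein_word U V (i :: l)‖ * ‖cotlarStein_word U V (i :: l)‖ := sq _
      _ ≤ cotlarStein_crude γ B (i :: l) * (B * cotlarStein_crude γ B l) :=
          mul_le_mul h1 h2 (norm_nonneg _) ((norm_nonneg _).trans h1)
      _ = B * (cotlarStein_crude γ B (i :: l) * cotlarStein_crude γ B l) := by ring
      _ = (B * cotlarStein_path γ i l) ^ 2 := by rw [cotlarStein_crude_mul]; ring
  exact (le_abs_self _).trans
    (abs_le_of_sq_le_sq h3 (mul_nonneg hB0 (cotlarStein_path_nonneg γ hγ i l)))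

omit [NormOneClass R] in
theorem cotlarStein_sumL_word (s : Finset ι) (U V : ι → R) (m : ℕ) :
    cotlarStein_sumL s (2 * m) (cotlarStein_word U V) =
      ((∑ i ∈ s, U i) * ∑ i ∈ s, V i) ^ m := by
  have hstep : ∀ (n : ℕ) (U V : ι → R), cotlarStein_sumL s (n + 1) (cotlarStein_word U V) =
      (∑ i ∈ s, U i) * cotlarStein_sumL s n (cotlarStein_word V U) := by
    intro n U V
    show ∑ i ∈ s, cotlarStein_sumL s n (fun l => U i * cotlarStein_word V U l) = _
    rw [Finset.sum_mul]
    exact Finset.sum_congr rfl fun i _ => cotlarStein_sumL_mul s n _ _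
  induction m with
  | zero => simp [cotlarStein_sumL, cotlarStein_word]
  | succ m ih =>
    show cotlarStein_sumL s (2 * m + 1 + 1) (cotlarStein_word U V) = _
    rw [hstep, hstep, ih, pow_succ', mul_assoc]

theorem cotlarStein_norm_pow_le (s : Finset ι) (γ : ι → ι → ℝ) (hγ : ∀ i j, 0 ≤ γ i j)
    (B : ℝ) (hB0 : 0 ≤ B) (hB : ∀ i ∈ s, ∑ j ∈ s, γ i j ≤ B)
    (U V : ι → R) (hU : ∀ i ∈ s, ‖U i‖ ≤ B) (hV : ∀ i ∈ s, ‖V i‖ ≤ B)
    (hUV : ∀ i ∈ s, ∀ j ∈ s, ‖U i * V j‖ ≤ γ i j ^ 2)
    (hVU : ∀ i ∈ s, ∀ j ∈ s, ‖V i * U j‖ ≤ γ i j ^ 2) (m : ℕ) (hm : 1 ≤ m) :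
    ‖((∑ i ∈ s, U i) * ∑ i ∈ s, V i) ^ m‖ ≤ s.card * B ^ (2 * m) := by
  rw [← cotlarStein_sumL_word]
  obtain ⟨n, hn⟩ : ∃ n, 2 * m = n + 1 := ⟨2 * m - 1, by omega⟩
  rw [hn]
  refine (cotlarStein_norm_sumL_le s (n + 1) _).trans ?_
  show ∑ i ∈ s, cotlarStein_sumL s n (fun l => ‖cotlarStein_word U V (i :: l)‖) ≤ _
  have h1 : ∀ i ∈ s, cotlarStein_sumL s n (fun l => ‖cotlarStein_word U V (i :: l)‖) ≤
      B ^ (n + 1) := by
    intro i hi
    refine (cotlarStein_sumL_mono s n _ (fun l => B * cotlarStein_path γ i l)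
      fun l _ hls => cotlarStein_word_le s γ hγ B hB0 i l hi hls U V hU hV hUV hVU).trans ?_
    rw [cotlarStein_sumL_mul, pow_succ']
    exact mul_le_mul_of_nonneg_left (cotlarStein_sumL_path_le s γ hγ B hB0 hB n i hi) hB0
  refine (Finset.sum_le_sum h1).trans ?_
  rw [Finset.sum_const, nsmul_eq_mul]

end Ring

theorem cotlarStein_norm_pow {H : Type*} [NormedAddCommGroup H] [InnerProductSpace ℝ H]
    [CompleteSpace H] (T : H →L[ℝ] H) (k : ℕ) (hT : IsSelfAdjoint T) :
    ‖T ^ 2 ^ k‖ = ‖T‖ ^ 2 ^ k := by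
  induction k with
  | zero => simp only [pow_zero, pow_one]
  | succ k ih =>
    have h1 : IsSelfAdjoint (T ^ 2 ^ k) := hT.pow _
    have h2 : ContinuousLinearMap.adjoint (T ^ 2 ^ k) = T ^ 2 ^ k := h1
    have h3 := ContinuousLinearMap.norm_adjoint_comp_self (T ^ 2 ^ k)
    rw [h2] at h3
    have h4 : T ^ 2 ^ (k + 1) = (T ^ 2 ^ k) ∘L (T ^ 2 ^ k) := by
      rw [pow_succ 2 k, pow_mul, sq]; rfl
    rw [h4, h3, ih, ← sq, ← pow_mul, ← pow_succ]

theorem cotlar_stein {H : Type*} [NormedAddCommGroup H] [InnerProductSpace ℝ H] [CompleteSpace H]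
    {ι : Type*} (s : Finset ι) (T : ι → H →L[ℝ] H) (γ : ι → ι → ℝ) (hγ : ∀ i j, 0 ≤ γ i j)
    (B : ℝ) (hB0 : 0 ≤ B)
    (h1 : ∀ i ∈ s, ∀ j ∈ s, ‖ContinuousLinearMap.adjoint (T i) ∘L T j‖ ≤ γ i j ^ 2)
    (h2 : ∀ i ∈ s, ∀ j ∈ s, ‖T i ∘L ContinuousLinearMap.adjoint (T j)‖ ≤ γ i j ^ 2)
    (hB : ∀ i ∈ s, ∑ j ∈ s, γ i j ≤ B) : ‖∑ i ∈ s, T i‖ ≤ B := by
  classical
  rcases subsingleton_or_nontrivial H with hH | hH
  · have h0 : ∑ i ∈ s, T i = 0 := by
      ext x
      exact Subsingleton.elim _ _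
    rw [h0, norm_zero]
    exact hB0
  have hT : ∀ i ∈ s, ‖T i‖ ≤ B := by
    intro i hi
    have e1 : ‖T i‖ * ‖T i‖ ≤ γ i i ^ 2 := by
      rw [← ContinuousLinearMap.norm_adjoint_comp_self (T i)]
      exact h1 i hi i hi
    have e2 : ‖T i‖ ≤ γ i i := by
      have e3 : ‖T i‖ ^ 2 ≤ γ i i ^ 2 := by rw [sq]; exact e1
      exact (le_abs_self _).trans (abs_le_of_sq_le_sq e3 (hγ i i))
    exact e2.trans ((Finset.single_le_sum (f := fun j => γ i j) (fun j _ => hγ i j) hi).trans
      (hB i hi))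
  have hT' : ∀ i ∈ s, ‖star (T i)‖ ≤ B := by
    intro i hi
    exact (LinearIsometryEquiv.norm_map ContinuousLinearMap.adjoint (T i)).le.trans (hT i hi)
  have hpow : ∀ k : ℕ, ‖∑ i ∈ s, T i‖ ^ (2 * 2 ^ k) ≤ s.card * B ^ (2 * 2 ^ k) := by
    intro k
    have e1 := cotlarStein_norm_pow_le s γ hγ B hB0 hB (fun i => star (T i)) T hT' hT
      (fun i hi j hj => h1 i hi j hj) (fun i hi j hj => h2 i hi j hj) (2 ^ k) Nat.one_le_two_pow
    have e2 : (∑ i ∈ s, star (T i)) = star (∑ i ∈ s, T i) := (star_sum s T).symm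
    rw [e2] at e1
    have e3 : IsSelfAdjoint (star (∑ i ∈ s, T i) * ∑ i ∈ s, T i) := IsSelfAdjoint.star_mul_self _
    have e5 : ‖star (∑ i ∈ s, T i) * ∑ i ∈ s, T i‖ = ‖∑ i ∈ s, T i‖ * ‖∑ i ∈ s, T i‖ :=
      ContinuousLinearMap.norm_adjoint_comp_self (∑ i ∈ s, T i)
    rw [cotlarStein_norm_pow _ k e3, e5, ← sq, ← pow_mul] at e1
    exact e1
  by_contra hcon
  rw [not_le] at hcon
  rcases hB0.eq_or_lt with hB1 | hB1
  · have h := hpow 0
    rw [← hB1] at h hcon
    simp only [pow_zero, mul_one] at h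
    have : 0 < ‖∑ i ∈ s, T i‖ ^ 2 := pow_pos hcon 2
    simp only [ne_eq, OfNat.ofNat_ne_zero, not_false_eq_true, zero_pow, mul_zero, sq_nonpos_iff, norm_eq_zero] at h
    rw [h] at hcon
    simp at hcon
  · have hr : 1 < ‖∑ i ∈ s, T i‖ / B := (one_lt_div hB1).2 hcon
    obtain ⟨n, hn⟩ := pow_unbounded_of_one_lt (s.card : ℝ) hr
    have h := hpow n
    have h3 : (‖∑ i ∈ s, T i‖ / B) ^ n ≤ (‖∑ i ∈ s, T i‖ / B) ^ (2 * 2 ^ n) := by
      refine pow_le_pow_right₀ hr.le ?_
      have : n < 2 ^ n := Nat.lt_two_pow_self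
      omega
    have h4 : (‖∑ i ∈ s, T i‖ / B) ^ (2 * 2 ^ n) ≤ s.card := by
      rw [div_pow, div_le_iff₀ (pow_pos hB1 _)]
      exact h
    linarith

end Vale.Agent.P112
end


section

open MeasureTheory Filter Topology

namespace Vale.Agent.P112

lemma schwartz_lip (f : SchwartzMap Plane ℂ) :
    ∃ M : ℝ, 0 ≤ M ∧ ∀ x y : Plane, ‖f x - f y‖ ≤ M * ‖x - y‖ := by
  obtain ⟨M, hM⟩ := f.decay 0 1
  refine ⟨M, hM.1.le, fun x y => ?_⟩
  refine Convex.norm_image_sub_le_of_norm_fderiv_le (𝕜 := ℝ) (s := Set.univ)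
    (fun z _ => f.differentiable z) (fun z _ => ?_) convex_univ (Set.mem_univ y) (Set.mem_univ x)
  have := hM.2 z
  rw [pow_zero, one_mul, norm_iteratedFDeriv_one] at this
  exact this

lemma truncSet_eq {ε a : ℝ} (hε : 0 < ε) :
    {t : ℝ | ε < |t| ∧ |t| < a} = Set.Ioo ε a ∪ Set.Ioo (-a) (-ε) := by
  ext t
  simp only [Set.mem_ofPred_eq, Set.mem_union, Set.mem_Ioo]
  constructor
  · rintro ⟨h1, h2⟩
    rcases le_total 0 t with ht | ht
    · rw [abs_of_nonneg ht] at h1 h2; exact Or.inl ⟨h1, h2⟩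
    · rw [abs_of_nonpos ht] at h1 h2; exact Or.inr ⟨by linarith only [h2], by linarith only [h1]⟩
  · rintro (⟨h1, h2⟩ | ⟨h1, h2⟩)
    · rw [abs_of_pos (by linarith only [hε, h1])]; exact ⟨h1, h2⟩
    · rw [abs_of_neg (by linarith only [hε, h2])]; exact ⟨by linarith only [h2], by linarith⟩

/-- The truncated integral as an integral of symmetric differences. -/
lemma truncHilbert_eq (F : ℝ → ℂ) (hF : Continuous F) {ε a : ℝ} (hε : 0 < ε) :
    ∫ t in {t : ℝ | ε < |t| ∧ |t| < a}, F t / (t : ℂ)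
      = ∫ t in Set.Ioo ε a, (F t - F (-t)) / (t : ℂ) := by
  have hcont : ContinuousOn (fun t : ℝ => F t / (t : ℂ)) {t : ℝ | t ≠ 0} := by
    refine hF.continuousOn.div (Complex.continuous_ofReal.continuousOn) ?_
    intro t ht
    simpa only [ne_eq, Complex.ofReal_eq_zero, Set.mem_ofPred_eq] using ht
  have hint1 : IntegrableOn (fun t : ℝ => F t / (t : ℂ)) (Set.Ioo ε a) := by
    refine (ContinuousOn.integrableOn_Icc (a := ε) (b := a) ?_).mono_set Set.Ioo_subset_Icc_self
    exact hcont.mono fun t ht => (lt_of_lt_of_le hε ht.1).ne'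
  have hint2 : IntegrableOn (fun t : ℝ => F t / (t : ℂ)) (Set.Ioo (-a) (-ε)) := by
    refine (ContinuousOn.integrableOn_Icc (a := -a) (b := -ε) ?_).mono_set Set.Ioo_subset_Icc_self
    exact hcont.mono fun t ht => (lt_of_le_of_lt ht.2 (by linarith : -ε < 0)).ne
  have hneg : ∫ t in Set.Ioo (-a) (-ε), F t / (t : ℂ)
      = ∫ t in Set.Ioo ε a, F (-t) / ((-t : ℝ) : ℂ) := by
    have h1 := (Measure.measurePreserving_neg (volume : Measure ℝ)).setIntegral_preimage_emb
      (MeasurableEquiv.neg ℝ).measurableEmbedding (fun t : ℝ => F t / (t : ℂ)) (Set.Ioo (-a) (-ε))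
    rw [← h1]
    simp only [Set.neg_preimage, Set.neg_Ioo, neg_neg, Complex.ofReal_neg]
  have hint3 : IntegrableOn (fun t : ℝ => F (-t) / ((-t : ℝ) : ℂ)) (Set.Ioo ε a) := by
    refine (ContinuousOn.integrableOn_Icc (a := ε) (b := a) ?_).mono_set Set.Ioo_subset_Icc_self
    refine (hF.comp continuous_neg).continuousOn.div
      (Complex.continuous_ofReal.comp continuous_neg).continuousOn ?_
    intro t ht
    have : t ≠ 0 := (lt_of_lt_of_le hε ht.1).ne'
    simpa using this
  rw [truncSet_eq hε, setIntegral_union ?_ measurableSet_Ioo hint1 hint2, hneg,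
    ← integral_add hint1 hint3]
  · refine integral_congr_ae (Eventually.of_forall fun t => ?_)
    simp only [Complex.ofReal_neg]
    rw [div_neg, sub_div, sub_eq_add_neg]
  · rw [Set.disjoint_left]
    intro t h1 h2
    linarith only [hε, h1.1, h2.2]

/-- Existence of the principal value. -/
lemma tendsto_truncHilbert (f : SchwartzMap Plane ℂ) (x w : Plane) {a : ℝ} (ha : 0 < a) :
    ∃ z : ℂ, Tendsto (fun ε : ℝ => ∫ t in {t : ℝ | ε < |t| ∧ |t| < a}, f (x - t • w) / (t : ℂ))
      (𝓝[>] (0 : ℝ)) (𝓝 z) := by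
  obtain ⟨M, hM0, hM⟩ := schwartz_lip f
  set F : ℝ → ℂ := fun t => f (x - t • w) with hFdef
  have hF : Continuous F := f.continuous.comp (by (clear * -; fun_prop))
  set D : ℝ → ℂ := fun t => (F t - F (-t)) / (t : ℂ) with hD
  set B : ℝ := M * (2 * ‖w‖) with hB
  have hB0 : 0 ≤ B := by (clear * - hM0; positivity)
  have hDb : ∀ t : ℝ, 0 < t → ‖D t‖ ≤ B := by
    intro t ht
    rw [hD]
    simp only
    rw [norm_div, Complex.norm_real, Real.norm_of_nonneg ht.le, div_le_iff₀ ht]
    refine le_trans (hM _ _) ?_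
    have : x - t • w - (x - -t • w) = -(2 * t) • w := by
      rw [neg_smul, neg_smul, mul_smul, two_smul]; abel
    rw [this, norm_smul, Real.norm_eq_abs, abs_neg, abs_of_pos (by (clear * - ht; positivity))]
    rw [hB]; (clear * -; linarith)
  have hint : IntegrableOn D (Set.Ioo 0 a) := by
    refine Measure.integrableOn_of_bounded (M := B) (by simp only [Real.volume_Ioo, sub_zero, ne_eq, ENNReal.ofReal_ne_top, not_false_eq_true]) ?_ ?_
    · refine Measurable.aestronglyMeasurable ?_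
      refine Measurable.div ?_ Complex.measurable_ofReal
      exact (hF.sub (hF.comp continuous_neg)).measurable
    · rw [ae_restrict_iff' measurableSet_Ioo]
      exact Eventually.of_forall fun t ht => hDb t ht.1
  refine ⟨∫ t in Set.Ioo 0 a, D t, ?_⟩
  rw [tendsto_iff_norm_sub_tendsto_zero]
  have hev : ∀ᶠ ε in 𝓝[>] (0 : ℝ),
      ‖(∫ t in {t : ℝ | ε < |t| ∧ |t| < a}, f (x - t • w) / (t : ℂ)) - ∫ t in Set.Ioo 0 a, D t‖
        ≤ B * ε := by
    filter_upwards [Ioo_mem_nhdsGT ha] with ε hε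
    have h1 := truncHilbert_eq F hF (ε := ε) (a := a) hε.1
    have h2 : Set.Ioo 0 a = Set.Ioc 0 ε ∪ Set.Ioo ε a := (Set.Ioc_union_Ioo_eq_Ioo hε.1.le hε.2).symm
    have h3 : ∫ t in Set.Ioo 0 a, D t = (∫ t in Set.Ioc 0 ε, D t) + ∫ t in Set.Ioo ε a, D t := by
      rw [h2]
      refine setIntegral_union ?_ measurableSet_Ioo ?_ ?_
      · rw [Set.disjoint_left]
        intro t h1 h2
        exact absurd h1.2 (not_le.2 h2.1)
      · exact hint.mono_set fun t ht => ⟨ht.1, lt_of_le_of_lt ht.2 hε.2⟩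
      · exact hint.mono_set fun t ht => ⟨lt_trans hε.1 ht.1, ht.2⟩
    have h4 : (∫ t in {t : ℝ | ε < |t| ∧ |t| < a}, f (x - t • w) / (t : ℂ))
        = ∫ t in Set.Ioo ε a, D t := h1
    rw [h4, h3]
    have h5 : (∫ t in Set.Ioo ε a, D t) - ((∫ t in Set.Ioc 0 ε, D t) + ∫ t in Set.Ioo ε a, D t)
        = - ∫ t in Set.Ioc 0 ε, D t := by ring
    rw [h5, norm_neg]
    refine le_trans (norm_setIntegral_le_of_norm_le_const (C := B) (by simp only [Real.volume_Ioc, sub_zero, ENNReal.ofReal_lt_top])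
      (fun t ht => hDb t ht.1)) ?_
    rw [Measure.real, Real.volume_Ioc, ENNReal.toReal_ofReal (by linarith only [hε.1]), sub_zero]
  refine squeeze_zero' (Eventually.of_forall fun _ => norm_nonneg _) hev ?_
  have : Tendsto (fun ε : ℝ => B * ε) (𝓝 0) (𝓝 (B * 0)) := tendsto_const_nhds.mul tendsto_id
  rw [mul_zero] at this
  exact this.mono_left nhdsWithin_le_nhds

lemma hilbert_tendsto (v : Plane → Plane) (f : SchwartzMap Plane ℂ) (x : Plane) {a : ℝ}
    (ha : 0 < a) :
    Tendsto (fun ε : ℝ => truncHilbert v ε a f x) (𝓝[>] (0 : ℝ)) (𝓝 (hilbert v a f x)) := by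
  obtain ⟨z, hz⟩ := tendsto_truncHilbert f x (v x) ha
  have h1 : Tendsto (fun ε : ℝ => truncHilbert v ε a f x) (𝓝[>] (0 : ℝ)) (𝓝 z) := hz
  have h2 : hilbert v a f x = z := h1.limUnder_eq
  rw [h2]; exact h1

/-- Changing the outer truncation. -/
lemma hilbert_sub (v : Plane → Plane) (f : SchwartzMap Plane ℂ) (x : Plane) {a b : ℝ}
    (ha : 0 < a) (hab : a ≤ b) :
    hilbert v b f x - hilbert v a f x
      = ∫ t in {t : ℝ | a ≤ |t| ∧ |t| < b}, f (x - t • v x) / (t : ℂ) := by
  have h1 := (hilbert_tendsto v f x (lt_of_lt_of_le ha hab)).sub (hilbert_tendsto v f x ha)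
  refine tendsto_nhds_unique h1 ?_
  refine tendsto_const_nhds.congr' ?_
  filter_upwards [Ioo_mem_nhdsGT ha] with ε hε
  have hset : {t : ℝ | ε < |t| ∧ |t| < b}
      = {t : ℝ | ε < |t| ∧ |t| < a} ∪ {t : ℝ | a ≤ |t| ∧ |t| < b} := by
    ext t
    constructor
    · rintro ⟨h1, h2⟩
      rcases lt_or_ge |t| a with h | h
      · exact Or.inl ⟨h1, h⟩
      · exact Or.inr ⟨h, h2⟩
    · rintro (⟨h1, h2⟩ | ⟨h1, h2⟩)
      · exact ⟨h1, lt_of_lt_of_le h2 hab⟩
      · exact ⟨lt_of_lt_of_le hε.2 h1, h2⟩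
  have hF : Continuous fun t : ℝ => f (x - t • v x) := f.continuous.comp (by fun_prop)
  have hint : IntegrableOn (fun t : ℝ => f (x - t • v x) / (t : ℂ)) {t : ℝ | ε < |t| ∧ |t| < b} := by
    have hsub : {t : ℝ | ε < |t| ∧ |t| < b} ⊆ Set.Icc ε b ∪ Set.Icc (-b) (-ε) := by
      rw [truncSet_eq hε.1]
      exact Set.union_subset_union Set.Ioo_subset_Icc_self Set.Ioo_subset_Icc_self
    refine IntegrableOn.mono_set ?_ hsub
    refine IntegrableOn.union ?_ ?_
    · refine ContinuousOn.integrableOn_Icc ?_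
      refine hF.continuousOn.div (Complex.continuous_ofReal.continuousOn) ?_
      intro t ht
      have : t ≠ 0 := (lt_of_lt_of_le hε.1 ht.1).ne'
      simpa using this
    · refine ContinuousOn.integrableOn_Icc ?_
      refine hF.continuousOn.div (Complex.continuous_ofReal.continuousOn) ?_
      intro t ht
      have : t ≠ 0 := (lt_of_le_of_lt ht.2 (by linarith only [hε.1] : -ε < 0)).ne
      simpa only [ne_eq, Complex.ofReal_eq_zero] using this
  have m1 : MeasurableSet {t : ℝ | a ≤ |t|} :=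
    measurableSet_le measurable_const (by fun_prop)
  have m2 : MeasurableSet {t : ℝ | |t| < b} :=
    measurableSet_lt (by fun_prop) measurable_const
  have hm : MeasurableSet {t : ℝ | a ≤ |t| ∧ |t| < b} := m1.inter m2
  have hdisj : Disjoint {t : ℝ | ε < |t| ∧ |t| < a} {t : ℝ | a ≤ |t| ∧ |t| < b} := by
    rw [Set.disjoint_left]
    intro t h1 h2
    exact absurd h2.1 (not_le.2 h1.2)
  simp only [truncHilbert]
  rw [hset, setIntegral_union hdisj hm (hint.mono_set (by rw [hset]; exact Set.subset_union_left))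
    (hint.mono_set (by rw [hset]; exact Set.subset_union_right))]
  ring

end Vale.Agent.P112
end

section

open MeasureTheory Filter Topology

namespace Vale.Agent.P112

lemma det_one_sub_smul_ge (L : Plane →L[ℝ] Plane) (hL : ‖L‖ ≤ 1) (e : Plane) (he : ‖e‖ = 1)
    (horth : ∀ z, inner ℝ e (L z) = 0) (t : ℝ) :
    1 - |t| ≤ (ContinuousLinearMap.id ℝ Plane - t • L).det := by
  have hinner : ∀ x y : Plane, inner ℝ x y = x 0 * y 0 + x 1 * y 1 := by
    intro x y
    rw [PiLp.inner_apply, Fin.sum_univ_two]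
    simp only [Fin.isValue, RCLike.inner_apply, Real.ringHom_apply, mul_comm]
  set b := (EuclideanSpace.basisFun (Fin 2) ℝ).toBasis with hb
  set e0 : Plane := EuclideanSpace.single 0 1 with he0
  set e1 : Plane := EuclideanSpace.single 1 1 with he1
  have hb0 : b 0 = e0 := by simp [hb, he0]
  have hb1 : b 1 = e1 := by simp only [hb, Fin.isValue, OrthonormalBasis.coe_toBasis, EuclideanSpace.basisFun_apply, he1]
  set p := e 0 with hp
  set q := e 1 with hq
  have hpq : p ^ 2 + q ^ 2 = 1 := by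
    have := EuclideanSpace.norm_sq_eq e
    rw [he, Fin.sum_univ_two] at this
    simp only [Real.norm_eq_abs, sq_abs] at this
    linarith only [this]
  have o0 : p * (L e0) 0 + q * (L e0) 1 = 0 := by rw [← hinner]; exact horth e0
  have o1 : p * (L e1) 0 + q * (L e1) 1 = 0 := by rw [← hinner]; exact horth e1
  -- determinant computation
  have hdet : (ContinuousLinearMap.id ℝ Plane - t • L).det
      = (1 - t * (L e0) 0) * (1 - t * (L e1) 1) - (- t * (L e1) 0) * (- t * (L e0) 1) := by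
    rw [ContinuousLinearMap.det, ← LinearMap.det_toMatrix b, Matrix.det_fin_two]
    simp only [LinearMap.toMatrix_apply, hb0, hb1]
    have hr : ∀ (z : Plane) (i : Fin 2), (b.repr z) i = z i := by
      intro z i; simp [hb]
    rw [hr, hr, hr, hr]
    simp [he0, he1]
  have hprod : (L e0) 0 * (L e1) 1 - (L e1) 0 * (L e0) 1 = 0 := by
    have h1 : p * ((L e0) 0 * (L e1) 1 - (L e1) 0 * (L e0) 1) = 0 := by
      linear_combination (L e1) 1 * o0 - (L e0) 1 * o1
    have h2 : q * ((L e0) 0 * (L e1) 1 - (L e1) 0 * (L e0) 1) = 0 := by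
      linear_combination (L e0) 0 * o1 - (L e1) 0 * o0
    have : (p ^ 2 + q ^ 2) * ((L e0) 0 * (L e1) 1 - (L e1) 0 * (L e0) 1) = 0 := by
      linear_combination p * h1 + q * h2
    rwa [hpq, one_mul] at this
  -- trace bound
  have htr : |(L e0) 0 + (L e1) 1| ≤ 1 := by
    set n : Plane := !₂[-q, p] with hn
    have hn_norm : ‖n‖ = 1 := by
      have := EuclideanSpace.norm_sq_eq n
      rw [Fin.sum_univ_two] at this
      simp only [hn, Real.norm_eq_abs, sq_abs, Matrix.cons_val_zero, Matrix.cons_val_one,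
        Matrix.cons_val_fin_one] at this
      have h3 : ‖n‖ ^ 2 = 1 := by rw [hn, this]; linarith only [hpq]
      have h4 : 0 ≤ ‖n‖ := norm_nonneg _
      nlinarith only [hpq, this, h4]
    have hLn : L n = (-q) • L e0 + p • L e1 := by
      have : n = (-q) • e0 + p • e1 := by
        ext i; fin_cases i <;> simp [hn, he0, he1]
      rw [this, map_add, map_smul, map_smul]
    have hin : inner ℝ n (L n) = (L e0) 0 + (L e1) 1 := by
      rw [hinner, hLn]
      simp only [hn, Matrix.cons_val_zero, Matrix.cons_val_one, Matrix.cons_val_fin_one,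
        PiLp.add_apply, PiLp.smul_apply, smul_eq_mul]
      linear_combination (-p) * o0 - q * o1 + ((L e0) 0 + (L e1) 1) * hpq
    rw [← hin]
    calc |inner ℝ n (L n)| ≤ ‖n‖ * ‖L n‖ := abs_real_inner_le_norm _ _
      _ ≤ 1 * (1 * 1) := by
          rw [hn_norm]
          have := L.le_opNorm n
          rw [hn_norm] at this
          linarith only [hL, this]
      _ = 1 := by ring
  rw [hdet]
  have : (1 - t * (L e0) 0) * (1 - t * (L e1) 1) - (- t * (L e1) 0) * (- t * (L e0) 1)
      = 1 - t * ((L e0) 0 + (L e1) 1) := by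
    linear_combination t ^ 2 * hprod
  rw [this]
  have h5 : |t * ((L e0) 0 + (L e1) 1)| ≤ |t| := by
    rw [abs_mul]
    nlinarith only [abs_nonneg t, htr]
  linarith only [h5, le_abs_self (t * ((L e0) 0 + (L e1) 1))]

lemma inner_fderiv_eq_zero {v : Plane → Plane} (hv : ∀ x, ‖v x‖ = 1) {x : Plane}
    (hd : DifferentiableAt ℝ v x) (z : Plane) : inner ℝ (v x) (fderiv ℝ v x z) = 0 := by
  have h1 := (hd.hasFDerivAt).inner ℝ (hd.hasFDerivAt)
  have h2 : (fun y => inner ℝ (v y) (v y)) = fun _ => (1 : ℝ) := by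
    funext y; rw [real_inner_self_eq_norm_sq, hv y]; norm_num
  rw [h2] at h1
  have h3 := h1.unique (hasFDerivAt_const (1 : ℝ) x)
  have h4 := congrArg (fun A => A z) h3
  simp only [ContinuousLinearMap.comp_apply, ContinuousLinearMap.prod_apply,
    fderivInnerCLM_apply, zero_apply] at h4
  have h5 : inner ℝ (fderiv ℝ v x z) (v x) = inner ℝ (v x) (fderiv ℝ v x z) :=
    real_inner_comm _ _
  linarith only [h4, h5]

/-- The change of variables inequality along a Lipschitz unit field. -/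
theorem lintegral_comp_line_le {v : Plane → Plane} (hv : ∀ x, ‖v x‖ = 1)
    (hL : LipschitzWith 1 v) {t : ℝ} (ht : |t| < 1) (g : Plane → ENNReal) :
    ENNReal.ofReal (1 - |t|) * ∫⁻ x, g (x - t • v x) ≤ ∫⁻ x, g x := by
  set s : Set Plane := {x | DifferentiableAt ℝ v x} with hs
  have hsm : MeasurableSet s := measurableSet_of_differentiableAt ℝ v
  have hae : ∀ᵐ x : Plane, x ∈ s := hL.ae_differentiableAt
  set Φ : Plane → Plane := fun x => x - t • v x with hΦ
  set Φ' : Plane → Plane →L[ℝ] Plane :=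
    fun x => ContinuousLinearMap.id ℝ Plane - t • fderiv ℝ v x with hΦ'
  have hder : ∀ x ∈ s, HasFDerivWithinAt Φ (Φ' x) s x := by
    intro x hx
    exact ((hasFDerivAt_id x).sub ((hx.hasFDerivAt).const_smul t)).hasFDerivWithinAt
  have hinj : Set.InjOn Φ s := by
    intro x _ y _ hxy
    have h1 : x - y = t • (v x - v y) := by
      have : x - t • v x = y - t • v y := hxy
      rw [smul_sub]
      have h2 : x - y - (t • v x - t • v y) = (x - t • v x) - (y - t • v y) := by abel
      rw [this, sub_self, sub_eq_zero] at h2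
      exact h2
    have h2 : ‖x - y‖ ≤ |t| * ‖x - y‖ := by
      conv_lhs => rw [h1]
      rw [norm_smul, Real.norm_eq_abs]
      have := hL.norm_sub_le x y
      rw [NNReal.coe_one, one_mul] at this
      (clear * - this; gcongr)
    have h3 : ‖x - y‖ = 0 := by
      have := norm_nonneg (x - y)
      nlinarith only [ht, h2, this]
    exact sub_eq_zero.1 (norm_eq_zero.1 h3)
  have key := lintegral_image_eq_lintegral_abs_det_fderiv_mul volume hsm hder hinj g
  calc ENNReal.ofReal (1 - |t|) * ∫⁻ x, g (x - t • v x)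
      = ENNReal.ofReal (1 - |t|) * ∫⁻ x in s, g (Φ x) := by
        rw [Measure.restrict_eq_self_of_ae_mem hae]
    _ = ∫⁻ x in s, ENNReal.ofReal (1 - |t|) * g (Φ x) := by
        rw [lintegral_const_mul' _ _ ENNReal.ofReal_ne_top]
    _ ≤ ∫⁻ x in s, ENNReal.ofReal |(Φ' x).det| * g (Φ x) := by
        refine setLIntegral_mono' hsm fun x hx => ?_
        gcongr
        refine le_trans ?_ (le_abs_self _)
        refine det_one_sub_smul_ge _ ?_ (v x) (hv x) ?_ t
        · simpa only [NNReal.coe_one] using norm_fderiv_le_of_lipschitz ℝ hL (x₀ := x)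
        · exact fun z => inner_fderiv_eq_zero hv hx z
    _ = ∫⁻ x in Φ '' s, g x := key.symm
    _ ≤ ∫⁻ x, g x := setLIntegral_le_lintegral _ _

end Vale.Agent.P112
end

section

open MeasureTheory Filter Topology
open scoped ENNReal

namespace Vale.Agent.P112

lemma integrableOn_inv_sqrt :
    IntegrableOn (fun t : ℝ => 1 / Real.sqrt (1 - |t|)) {t : ℝ | |t| < 1} := by
  have h0 : IntervalIntegrable (fun x : ℝ => x ^ (-(1 / 2) : ℝ)) volume 0 1 :=
    intervalIntegral.intervalIntegrable_rpow' (by norm_num)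
  have h1 := h0.comp_sub_left 1
  have h2 := h0.comp_add_right 1
  simp only [sub_zero, sub_self, zero_sub] at h1 h2
  have hsub : {t : ℝ | |t| < 1} ⊆ Set.Ioc 0 1 ∪ Set.Ioc (-1) 0 := by
    intro t ht
    have ht' : |t| < 1 := ht
    rw [abs_lt] at ht'
    rcases lt_or_ge 0 t with h | h
    · exact Or.inl ⟨h, ht'.2.le⟩
    · exact Or.inr ⟨ht'.1, h⟩
  refine IntegrableOn.mono_set ?_ hsub
  refine IntegrableOn.union ?_ ?_
  · have h3 : IntegrableOn (fun x : ℝ => (1 - x) ^ (-(1 / 2) : ℝ)) (Set.Ioc 0 1) := by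
      rw [intervalIntegrable_iff, Set.uIoc_comm, Set.uIoc_of_le zero_le_one] at h1
      exact h1
    refine h3.congr_fun (fun t ht => ?_) measurableSet_Ioc
    simp only
    rw [abs_of_pos ht.1, Real.rpow_neg (by linarith only [ht.2]), Real.sqrt_eq_rpow, one_div (_ ^ _)]
  · have h3 : IntegrableOn (fun x : ℝ => (x + 1) ^ (-(1 / 2) : ℝ)) (Set.Ioc (-1) 0) := by
      rw [intervalIntegrable_iff, Set.uIoc_of_le (by norm_num)] at h2
      exact h2
    refine h3.congr_fun (fun t ht => ?_) measurableSet_Ioc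
    simp only
    rw [abs_of_nonpos ht.2, Real.rpow_neg (by linarith only [ht.1]), Real.sqrt_eq_rpow, one_div (_ ^ _)]
    ring_nf

lemma exists_J : ∃ J : ℝ, 0 < J ∧
    ∫⁻ t in {t : ℝ | |t| < 1}, ENNReal.ofReal (1 / Real.sqrt (1 - |t|)) ≤ ENNReal.ofReal J := by
  refine ⟨(∫ t in {t : ℝ | |t| < 1}, 1 / Real.sqrt (1 - |t|)) + 1, ?_, ?_⟩
  · have : 0 ≤ ∫ t in {t : ℝ | |t| < 1}, 1 / Real.sqrt (1 - |t|) :=
      integral_nonneg fun t => by positivity
    linarith only [this]
  · rw [← ofReal_integral_eq_lintegral_ofReal integrableOn_inv_sqrt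
      (Eventually.of_forall fun t => by positivity)]
    exact ENNReal.ofReal_le_ofReal (by (clear * -; linarith))

lemma amgm {c w F : ℝ} (hc : 0 < c) (hw : 0 < w) : F ≤ c / (2 * w) + w / (2 * c) * F ^ 2 := by
  have : c / (2 * w) + w / (2 * c) * F ^ 2 - F = (c - w * F) ^ 2 / (2 * w * c) := by
    field_simp; ring
  have h2 : 0 ≤ (c - w * F) ^ 2 / (2 * w * c) := by (clear * - hw hc; positivity)
  linarith only [this, h2]

lemma schwartz_sq_integrable (f : SchwartzMap Plane ℂ) :
    Integrable (fun x => ‖f x‖ ^ 2) volume := by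
  have h := (f.memLp 2 volume).integrable_norm_pow (by norm_num)
  simpa only using h

lemma schwartz_sq_lintegral (f : SchwartzMap Plane ℂ) :
    ∫⁻ x, ‖f x‖ₑ ^ 2 = ENNReal.ofReal (∫ x, ‖f x‖ ^ 2) := by
  rw [ofReal_integral_eq_lintegral_ofReal (schwartz_sq_integrable f)
    (Eventually.of_forall fun x => by positivity)]
  refine lintegral_congr fun x => ?_
  rw [← ofReal_norm, ENNReal.ofReal_pow (norm_nonneg _)]

/-- The weak type bound for the outer shell. -/
lemma shell_weak {J : ℝ} (hJ : 0 < J)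
    (hJle : ∫⁻ t in {t : ℝ | |t| < 1}, ENNReal.ofReal (1 / Real.sqrt (1 - |t|)) ≤ ENNReal.ofReal J)
    {v : Plane → Plane} (hv : ∀ x, ‖v x‖ = 1)
    (hL : LipschitzWith 1 v) (f : SchwartzMap Plane ℂ) {a b : ℝ} (ha : 0 < a) (hb : b ≤ 1)
    {μ : ℝ} (hμ : 0 < μ) :
    volume {x | μ < ‖∫ t in {t : ℝ | a ≤ |t| ∧ |t| < b}, f (x - t • v x) / (t : ℂ)‖}
      ≤ ENNReal.ofReal (J ^ 2 / a ^ 2 / μ ^ 2 * ∫ x, ‖f x‖ ^ 2) := by
  set S : Set ℝ := {t : ℝ | a ≤ |t| ∧ |t| < b} with hS
  have m1 : MeasurableSet {t : ℝ | a ≤ |t|} := measurableSet_le measurable_const (by fun_prop)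
  have m2 : MeasurableSet {t : ℝ | |t| < b} := measurableSet_lt (by fun_prop) measurable_const
  have hSm : MeasurableSet S := m1.inter m2
  have hS1 : S ⊆ {t : ℝ | |t| < 1} := fun t ht => lt_of_lt_of_le ht.2 hb
  set c : ℝ := a * μ / J with hc
  have hc0 : 0 < c := by (clear * - ha hμ hJ; positivity)
  set N : ℝ≥0∞ := ∫⁻ x, ‖f x‖ₑ ^ 2 with hN
  set Q : Plane → ℝ≥0∞ := fun x =>
    ∫⁻ t in S, ENNReal.ofReal (Real.sqrt (1 - |t|) / (2 * c * a)) * ‖f (x - t • v x)‖ₑ ^ 2 with hQ
  -- pointwise bound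
  have hpt : ∀ x, ‖∫ t in S, f (x - t • v x) / (t : ℂ)‖ₑ ≤ ENNReal.ofReal (μ / 2) + Q x := by
    intro x
    have e1 : ∀ t ∈ S, ‖f (x - t • v x) / (t : ℂ)‖ₑ
        ≤ ENNReal.ofReal (c / (2 * a)) * ENNReal.ofReal (1 / Real.sqrt (1 - |t|))
          + ENNReal.ofReal (Real.sqrt (1 - |t|) / (2 * c * a)) * ‖f (x - t • v x)‖ₑ ^ 2 := by
      intro t ht
      have htp : 0 < |t| := lt_of_lt_of_le ha ht.1
      have ht1 : 0 < 1 - |t| := by have : |t| < 1 := hS1 ht; linarith only [this]
      have hw : 0 < Real.sqrt (1 - |t|) := Real.sqrt_pos.2 ht1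
      have h1 := amgm (F := ‖f (x - t • v x)‖) hc0 hw
      have h2 : ‖f (x - t • v x) / (t : ℂ)‖ ≤ ‖f (x - t • v x)‖ / a := by
        rw [norm_div, Complex.norm_real, Real.norm_eq_abs]
        exact div_le_div_of_nonneg_left (norm_nonneg _) ha ht.1
      have h3 : ‖f (x - t • v x) / (t : ℂ)‖ ≤ c / (2 * a) * (1 / Real.sqrt (1 - |t|))
          + Real.sqrt (1 - |t|) / (2 * c * a) * ‖f (x - t • v x)‖ ^ 2 := by
        refine le_trans h2 ?_
        rw [div_le_iff₀ ha]
        refine le_trans h1 (le_of_eq ?_)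
        (clear * - ha hc0 ht1; field_simp)
      rw [← ofReal_norm, ← ofReal_norm, ← ENNReal.ofReal_pow (norm_nonneg _),
        ← ENNReal.ofReal_mul (by positivity), ← ENNReal.ofReal_mul (by (clear * - ht1 ha hμ hJ; positivity)),
        ← ENNReal.ofReal_add (by (clear * - ha hμ hJ ht1; positivity)) (by (clear * - ht1 ha hμ hJ; positivity))]
      exact ENNReal.ofReal_le_ofReal h3
    calc ‖∫ t in S, f (x - t • v x) / (t : ℂ)‖ₑ
        ≤ ∫⁻ t in S, ‖f (x - t • v x) / (t : ℂ)‖ₑ := enorm_integral_le_lintegral_enorm _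
      _ ≤ ∫⁻ t in S, (ENNReal.ofReal (c / (2 * a)) * ENNReal.ofReal (1 / Real.sqrt (1 - |t|))
          + ENNReal.ofReal (Real.sqrt (1 - |t|) / (2 * c * a)) * ‖f (x - t • v x)‖ₑ ^ 2) :=
          setLIntegral_mono' hSm e1
      _ = (∫⁻ t in S, ENNReal.ofReal (c / (2 * a)) * ENNReal.ofReal (1 / Real.sqrt (1 - |t|)))
          + Q x := by
          rw [lintegral_add_left (by fun_prop)]
      _ ≤ ENNReal.ofReal (μ / 2) + Q x := by
          gcongr
          rw [lintegral_const_mul' _ _ ENNReal.ofReal_ne_top]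
          calc ENNReal.ofReal (c / (2 * a)) * ∫⁻ t in S, ENNReal.ofReal (1 / Real.sqrt (1 - |t|))
              ≤ ENNReal.ofReal (c / (2 * a)) * ENNReal.ofReal J := by
                gcongr
                exact le_trans (lintegral_mono_set hS1) hJle
            _ = ENNReal.ofReal (μ / 2) := by
                rw [← ENNReal.ofReal_mul (by (clear * - ha hμ hJ; positivity))]
                congr 1
                rw [hc]; field_simp
  have hsub : {x | μ < ‖∫ t in S, f (x - t • v x) / (t : ℂ)‖} ⊆ {x | ENNReal.ofReal (μ / 2) ≤ Q x} := by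
    intro x hx
    have hx' : μ < ‖∫ t in S, f (x - t • v x) / (t : ℂ)‖ := hx
    have h1 : ENNReal.ofReal μ ≤ ENNReal.ofReal (μ / 2) + Q x := by
      refine le_trans ?_ (hpt x)
      rw [← ofReal_norm]
      exact ENNReal.ofReal_le_ofReal hx'.le
    have h2 : ENNReal.ofReal μ = ENNReal.ofReal (μ / 2) + ENNReal.ofReal (μ / 2) := by
      rw [← ENNReal.ofReal_add (by (clear * - hμ; positivity)) (by positivity)]
      congr 1; ring
    rw [h2] at h1
    exact (ENNReal.add_le_add_iff_left ENNReal.ofReal_ne_top).1 h1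
  -- joint measurability
  have hjm : Measurable (fun p : Plane × ℝ => ENNReal.ofReal (Real.sqrt (1 - |p.2|) / (2 * c * a))
      * ‖f (p.1 - p.2 • v p.1)‖ₑ ^ 2) := by
    have hvc : Continuous v := hL.continuous
    have hcont : Continuous (fun p : Plane × ℝ => f (p.1 - p.2 • v p.1)) :=
      f.continuous.comp (by fun_prop)
    have h1 : Measurable fun p : Plane × ℝ => ‖f (p.1 - p.2 • v p.1)‖ₑ ^ 2 :=
      (hcont.measurable.enorm).pow_const 2
    have h2 : Measurable fun p : Plane × ℝ =>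
        ENNReal.ofReal (Real.sqrt (1 - |p.2|) / (2 * c * a)) := by
      have : Continuous fun p : Plane × ℝ => Real.sqrt (1 - |p.2|) / (2 * c * a) := by fun_prop
      exact this.measurable.ennreal_ofReal
    exact h2.mul h1
  have hQint : ∫⁻ x, Q x ≤ ENNReal.ofReal (J / (2 * c * a)) * N := by
    have hswap : ∫⁻ x, Q x = ∫⁻ t in S, ∫⁻ x, ENNReal.ofReal (Real.sqrt (1 - |t|) / (2 * c * a))
        * ‖f (x - t • v x)‖ₑ ^ 2 := by
      rw [hQ]
      exact lintegral_lintegral_swap hjm.aemeasurable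
    rw [hswap]
    have e2 : ∀ t ∈ S, ∫⁻ x, ENNReal.ofReal (Real.sqrt (1 - |t|) / (2 * c * a))
        * ‖f (x - t • v x)‖ₑ ^ 2
        ≤ ENNReal.ofReal (1 / (2 * c * a)) * N * ENNReal.ofReal (1 / Real.sqrt (1 - |t|)) := by
      intro t ht
      have ht1' : |t| < 1 := hS1 ht
      have ht1 : 0 < 1 - |t| := by linarith only [ht1']
      have hw : 0 < Real.sqrt (1 - |t|) := Real.sqrt_pos.2 ht1
      have key := lintegral_comp_line_le hv hL ht1' (fun y => ‖f y‖ₑ ^ 2)
      rw [lintegral_const_mul' _ _ ENNReal.ofReal_ne_top]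
      have hfac : ENNReal.ofReal (Real.sqrt (1 - |t|) / (2 * c * a))
          = ENNReal.ofReal (1 / (2 * c * a)) * ENNReal.ofReal (1 / Real.sqrt (1 - |t|))
            * ENNReal.ofReal (1 - |t|) := by
        rw [← ENNReal.ofReal_mul (by positivity), ← ENNReal.ofReal_mul (by positivity)]
        congr 1
        have hsq := Real.mul_self_sqrt ht1.le
        field_simp
        rw [pow_two, hsq]
      rw [hfac]
      calc ENNReal.ofReal (1 / (2 * c * a)) * ENNReal.ofReal (1 / Real.sqrt (1 - |t|))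
            * ENNReal.ofReal (1 - |t|) * ∫⁻ x, ‖f (x - t • v x)‖ₑ ^ 2
          = ENNReal.ofReal (1 / (2 * c * a)) * ENNReal.ofReal (1 / Real.sqrt (1 - |t|))
            * (ENNReal.ofReal (1 - |t|) * ∫⁻ x, ‖f (x - t • v x)‖ₑ ^ 2) := by ring
        _ ≤ ENNReal.ofReal (1 / (2 * c * a)) * ENNReal.ofReal (1 / Real.sqrt (1 - |t|)) * N := by
            (clear * - key; gcongr)
        _ = ENNReal.ofReal (1 / (2 * c * a)) * N * ENNReal.ofReal (1 / Real.sqrt (1 - |t|)) := by
            ring
    refine le_trans (setLIntegral_mono' hSm e2) ?_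
    have hNtop : ENNReal.ofReal (1 / (2 * c * a)) * N ≠ ⊤ := by
      refine ENNReal.mul_ne_top ENNReal.ofReal_ne_top ?_
      rw [hN, schwartz_sq_lintegral]
      exact ENNReal.ofReal_ne_top
    rw [lintegral_const_mul' _ _ hNtop]
    calc ENNReal.ofReal (1 / (2 * c * a)) * N * ∫⁻ t in S, ENNReal.ofReal (1 / Real.sqrt (1 - |t|))
        ≤ ENNReal.ofReal (1 / (2 * c * a)) * N * ENNReal.ofReal J := by
          gcongr
          exact le_trans (lintegral_mono_set hS1) hJle
      _ = ENNReal.ofReal (J / (2 * c * a)) * N := by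
          rw [mul_right_comm, ← ENNReal.ofReal_mul (by (clear * - ha hμ hJ; positivity))]
          congr 2
          ring
  have hNreal : N = ENNReal.ofReal (∫ x, ‖f x‖ ^ 2) := schwartz_sq_lintegral f
  calc volume {x | μ < ‖∫ t in S, f (x - t • v x) / (t : ℂ)‖}
      ≤ volume {x | ENNReal.ofReal (μ / 2) ≤ Q x} := measure_mono hsub
    _ ≤ (∫⁻ x, Q x) / ENNReal.ofReal (μ / 2) := by
        refine meas_ge_le_lintegral_div ?_ ?_ ENNReal.ofReal_ne_top
        · exact (hjm.lintegral_prod_right').aemeasurable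
        · simpa only [ne_eq, ENNReal.ofReal_eq_zero, not_le, Nat.ofNat_pos, div_pos_iff_of_pos_right] using hμ
    _ ≤ (ENNReal.ofReal (J / (2 * c * a)) * N) / ENNReal.ofReal (μ / 2) := by (clear * - hQint; gcongr)
    _ = ENNReal.ofReal (J ^ 2 / a ^ 2 / μ ^ 2 * ∫ x, ‖f x‖ ^ 2) := by
        rw [hNreal, ← ENNReal.ofReal_mul (by (clear * - hJ ha hμ; positivity)), ← ENNReal.ofReal_div_of_pos (by positivity)]
        congr 1
        rw [hc]
        (clear * - hμ ha hJ; field_simp)

end Vale.Agent.P112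
end

section

open MeasureTheory Filter Topology

namespace Vale.Agent.P112

lemma normalize_sub_le {F : Type*} [NormedAddCommGroup F] [InnerProductSpace ℝ F]
    {a b : F} (ha : 1 ≤ ‖a‖) (hb : 1 ≤ ‖b‖) :
    ‖‖a‖⁻¹ • a - ‖b‖⁻¹ • b‖ ≤ ‖a - b‖ := by
  have ha0 : 0 < ‖a‖ := by linarith
  have hb0 : 0 < ‖b‖ := by linarith only [hb]
  apply le_of_sq_le_sq _ (norm_nonneg _)
  rw [@norm_sub_sq_real, @norm_sub_sq_real, norm_smul, norm_smul, real_inner_smul_left,
    real_inner_smul_right, norm_inv, norm_inv, norm_norm, norm_norm,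
    inv_mul_cancel₀ ha0.ne', inv_mul_cancel₀ hb0.ne']
  set c := inner ℝ a b with hc
  have hcs : c ≤ ‖a‖ * ‖b‖ := real_inner_le_norm a b
  have hcs' : ‖a‖⁻¹ * (‖b‖⁻¹ * c) ≤ 1 := by
    rw [← mul_assoc, ← mul_inv, inv_mul_le_iff₀ (by positivity)]
    simpa only [mul_one] using hcs
  set p := ‖a‖⁻¹ * (‖b‖⁻¹ * c) with hp
  have hcp : c = ‖a‖ * ‖b‖ * p := by
    rw [hp]; (clear * - ha hb; field_simp)
  rw [hcp]
  have h1 : 1 ≤ ‖a‖ * ‖b‖ := by nlinarith only [ha, hb]
  linarith only [sq_nonneg (‖a‖ - ‖b‖), mul_nonneg (sub_nonneg.2 h1) (sub_nonneg.2 hcs')]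

/-- The projection onto the half strip. -/
noncomputable def P (h : ℝ) (y : Plane) : Plane := !₂[max (y 0) 1, max (-h) (min (y 1) h)]

/-- The focusing field. -/
noncomputable def focusField (K h : ℝ) (x : Plane) : Plane :=
  ‖P h (K • x)‖⁻¹ • P h (K • x)

lemma abs_coord_le (z : Plane) (i : Fin 2) : |z i| ≤ ‖z‖ := by
  have := PiLp.norm_apply_le z i
  simpa only [ge_iff_le, Real.norm_eq_abs] using this

lemma one_le_norm_P (h : ℝ) (y : Plane) : 1 ≤ ‖P h y‖ := by
  have h1 := abs_coord_le (P h y) 0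
  have h2 : (P h y) 0 = max (y 0) 1 := by simp only [Fin.isValue, P, Matrix.cons_val_zero]
  rw [h2] at h1
  exact le_trans (le_trans (le_max_right _ _) (le_abs_self _)) h1

lemma abs_clip_sub_le (h a b : ℝ) :
    |max (-h) (min a h) - max (-h) (min b h)| ≤ |a - b| := by
  refine le_trans (abs_max_sub_max_le_max _ _ _ _) ?_
  simp only [sub_self, abs_zero]
  refine max_le (abs_nonneg _) ?_
  refine le_trans (abs_min_sub_min_le_max _ _ _ _) ?_
  simp only [sub_self, abs_zero, abs_nonneg, sup_of_le_left, Std.le_refl]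

lemma norm_P_sub_le (h : ℝ) (y z : Plane) : ‖P h y - P h z‖ ≤ ‖y - z‖ := by
  rw [EuclideanSpace.norm_eq, EuclideanSpace.norm_eq, Fin.sum_univ_two, Fin.sum_univ_two]
  apply Real.sqrt_le_sqrt
  have h0 : (P h y - P h z) 0 = max (y 0) 1 - max (z 0) 1 := by simp only [Fin.isValue, P, PiLp.sub_apply, Matrix.cons_val_zero]
  have h1 : (P h y - P h z) 1 = max (-h) (min (y 1) h) - max (-h) (min (z 1) h) := by simp only [Fin.isValue, P, PiLp.sub_apply, Matrix.cons_val_one, Matrix.cons_val_fin_one]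
  have e0 : (y - z) 0 = y 0 - z 0 := by simp
  have e1 : (y - z) 1 = y 1 - z 1 := by simp
  rw [h0, h1, e0, e1]
  simp only [Real.norm_eq_abs]
  have a0 : |max (y 0) 1 - max (z 0) 1| ≤ |y 0 - z 0| := by
    refine le_trans (abs_max_sub_max_le_max _ _ _ _) ?_
    simp
  have a1 := abs_clip_sub_le h (y 1) (z 1)
  (clear * - a0 a1; gcongr)

lemma norm_focusField (K h : ℝ) (x : Plane) : ‖focusField K h x‖ = 1 := by
  have h1 := one_le_norm_P h (K • x)
  rw [focusField, norm_smul, norm_inv, norm_norm, inv_mul_cancel₀ (by linarith)]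

lemma norm_focusField_sub_le {K : ℝ} (hK : 0 ≤ K) (h : ℝ) (x y : Plane) :
    ‖focusField K h x - focusField K h y‖ ≤ K * ‖x - y‖ := by
  refine le_trans (normalize_sub_le (one_le_norm_P _ _) (one_le_norm_P _ _)) ?_
  refine le_trans (norm_P_sub_le _ _ _) ?_
  rw [← smul_sub, norm_smul, Real.norm_of_nonneg hK]

lemma norm_focusField_sub_le' (K : ℝ) {h : ℝ} (hh : 0 ≤ h) (x y : Plane) :
    ‖focusField K h x - focusField K h y‖ ≤ 2 * h := by
  have key : ∀ z : Plane, ∃ s : ℝ, |s| ≤ h ∧
      focusField K h z = ‖(!₂[1, s] : Plane)‖⁻¹ • (!₂[1, s] : Plane) := by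
    intro z
    set m := max ((K • z) 0) 1 with hm
    set c := max (-h) (min ((K • z) 1) h) with hc
    have hm1 : 1 ≤ m := le_max_right _ _
    have hm0 : 0 < m := by linarith
    have hch : |c| ≤ h := by
      rw [abs_le]
      exact ⟨le_max_left _ _, max_le (by linarith only [hh]) (min_le_right _ _)⟩
    refine ⟨c / m, ?_, ?_⟩
    · rw [abs_div, abs_of_pos hm0, div_le_iff₀ hm0]
      nlinarith only [hh, hm1, hch]
    · have hP : P h (K • z) = m • (!₂[1, c / m] : Plane) := by
        ext i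
        fin_cases i
        · simp only [P, Fin.isValue, PiLp.smul_apply, smul_eq_mul, Fin.zero_eta, Matrix.cons_val_zero, hm, mul_one]
        · simp only [P, PiLp.smul_apply, smul_eq_mul]
          simp only [Fin.mk_one, Matrix.cons_val_one, Matrix.cons_val_fin_one]
          field_simp
          rfl
      rw [focusField, hP, norm_smul, Real.norm_of_nonneg hm0.le, mul_inv, smul_smul]
      congr 1
      field_simp
  obtain ⟨s, hs, es⟩ := key x
  obtain ⟨t, ht, et⟩ := key y
  have h1 : ∀ r : ℝ, 1 ≤ ‖(!₂[1, r] : Plane)‖ := by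
    intro r
    have := abs_coord_le (!₂[1, r] : Plane) 0
    simpa only [ge_iff_le, Fin.isValue, Matrix.cons_val_zero, abs_one] using this
  rw [es, et]
  refine le_trans (normalize_sub_le (h1 s) (h1 t)) ?_
  have : (!₂[1, s] : Plane) - !₂[1, t] = !₂[0, s - t] := by
    ext i; fin_cases i <;> simp
  rw [this, EuclideanSpace.norm_eq, Fin.sum_univ_two]
  simp only [Matrix.cons_val_zero, norm_zero, Real.norm_eq_abs, Matrix.cons_val_one, sq_abs,
    Matrix.cons_val_fin_one]
  rw [show (0:ℝ)^2 + (s-t)^2 = (s-t)^2 by ring, Real.sqrt_sq_eq_abs]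
  calc |s - t| ≤ |s| + |t| := abs_sub _ _
    _ ≤ 2 * h := by linarith only [hs, ht]

lemma focusField_eq {K h : ℝ} (hK : 0 < K) {x : Plane} (h0 : 1 ≤ K * x 0)
    (h1 : |K * x 1| ≤ h) : focusField K h x = ‖x‖⁻¹ • x := by
  have hP : P h (K • x) = K • x := by
    rw [abs_le] at h1
    ext i
    fin_cases i
    · simp only [P, Fin.isValue, PiLp.smul_apply, smul_eq_mul, h0, sup_of_le_left, Fin.zero_eta, Matrix.cons_val_zero]
    · simp only [P, Fin.isValue, PiLp.smul_apply, smul_eq_mul, h1.2, inf_of_le_left, h1.1, sup_of_le_right, Fin.mk_one, Matrix.cons_val_one, Matrix.cons_val_fin_one]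
  rw [focusField, hP, norm_smul, Real.norm_of_nonneg hK.le, mul_inv, smul_smul]
  congr 1
  field_simp

end Vale.Agent.P112
end

section

open MeasureTheory Filter Topology

namespace Vale.Agent.P112

lemma measurableSet_abs_lt (a : ℝ) : MeasurableSet {t : ℝ | |t| < a} :=
  measurableSet_lt (by fun_prop) measurable_const

lemma hilbert_eq_integral {v : Plane → Plane} {a : ℝ} {f : Plane → ℂ} {x : Plane} {e : ℝ}
    (he : 0 < e) (h : ∀ t : ℝ, |t| ≤ e → f (x - t • v x) = 0) :
    hilbert v a f x = ∫ t in {t : ℝ | |t| < a}, f (x - t • v x) / (t : ℂ) := by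
  refine Tendsto.limUnder_eq ?_
  refine tendsto_const_nhds.congr' ?_
  have : Set.Ioc (0 : ℝ) e ∈ 𝓝[>] (0 : ℝ) := Ioc_mem_nhdsGT he
  filter_upwards [this] with ε hε
  refine setIntegral_eq_of_subset_of_forall_sdiff_eq_zero (measurableSet_abs_lt a) ?_ ?_
  · intro t ht; exact ht.2
  · intro t ht
    have h2 : |t| ≤ e := by
      by_contra hcon
      rw [not_le] at hcon
      exact ht.2 ⟨lt_of_le_of_lt hε.2 hcon, ht.1⟩
    rw [h t h2, zero_div]

/-- sum of rescaled bumps -/
noncomputable def bumpSum (φ : Plane → ℝ) (N : ℕ) (y : Plane) : ℝ :=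
  ∑ k ∈ Finset.range N, (2 : ℝ) ^ k * φ ((2 : ℝ) ^ k • y)

section
variable {ρ : ℝ} (φ : ContDiffBump (0 : Plane))

lemma bumpSum_contDiff (N : ℕ) : ContDiff ℝ (⊤ : ℕ∞) (bumpSum φ N) := by
  unfold bumpSum
  refine ContDiff.sum fun k _ => ?_
  refine contDiff_const.mul ?_
  exact φ.contDiff.comp (contDiff_const_smul _)

lemma bump_eq_zero {k : ℕ} {y : Plane} (hy : φ.rOut ≤ ‖y‖) : φ ((2 : ℝ) ^ k • y) = 0 := by
  apply φ.zero_of_le_dist
  rw [dist_zero_right, norm_smul]
  have h1 : (1 : ℝ) ≤ ‖(2 : ℝ) ^ k‖ := by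
    rw [Real.norm_of_nonneg (by positivity)]
    exact one_le_pow₀ (by norm_num)
  have := φ.rOut_pos
  nlinarith

lemma bumpSum_eq_zero {N : ℕ} {y : Plane} (hy : φ.rOut ≤ ‖y‖) : bumpSum φ N y = 0 := by
  unfold bumpSum
  exact Finset.sum_eq_zero fun k _ => by rw [bump_eq_zero φ hy, mul_zero]

lemma bumpSum_hasCompactSupport (N : ℕ) : HasCompactSupport (bumpSum φ N) := by
  refine HasCompactSupport.of_support_subset_isCompact (isCompact_closedBall (0 : Plane) φ.rOut) ?_
  intro y hy
  rw [Metric.mem_closedBall, dist_zero_right]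
  by_contra hcon
  rw [not_le] at hcon
  exact hy (bumpSum_eq_zero φ hcon.le)

/-- the test function as a Schwartz function -/
noncomputable def testFun (N : ℕ) : SchwartzMap Plane ℂ :=
  HasCompactSupport.toSchwartzMap (f := fun y => ((bumpSum φ N y : ℝ) : ℂ))
    ((bumpSum_hasCompactSupport φ N).comp_left (g := fun r : ℝ => (r : ℂ)) Complex.ofReal_zero)
    (Complex.ofRealCLM.contDiff.comp (bumpSum_contDiff φ N))

lemma testFun_apply (N : ℕ) (y : Plane) : testFun φ N y = ((bumpSum φ N y : ℝ) : ℂ) := rfl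

lemma bump_integral_comp (k : ℕ) :
    ∫ y : Plane, φ ((2 : ℝ) ^ k • y) = ((4 : ℝ) ^ k)⁻¹ * ∫ y, φ y := by
  rw [Measure.integral_comp_smul volume (fun y => φ y) ((2 : ℝ) ^ k)]
  rw [finrank_euclideanSpace, Fintype.card_fin, smul_eq_mul, abs_of_nonneg (by positivity)]
  congr 2
  rw [← pow_mul, mul_comm, pow_mul]; norm_num

lemma bump_integrable (k : ℕ) : Integrable fun y : Plane => φ ((2 : ℝ) ^ k • y) := by
  refine Continuous.integrable_of_hasCompactSupport (φ.continuous.comp (by fun_prop)) ?_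
  refine HasCompactSupport.of_support_subset_isCompact (isCompact_closedBall (0 : Plane) φ.rOut) ?_
  intro y hy
  rw [Metric.mem_closedBall, dist_zero_right]
  by_contra hcon
  rw [not_le] at hcon
  exact hy (bump_eq_zero φ hcon.le)

lemma bumpSum_nonneg (N : ℕ) (y : Plane) : 0 ≤ bumpSum φ N y :=
  Finset.sum_nonneg fun k _ => mul_nonneg (by positivity) φ.nonneg

/-- pointwise bound for the square -/
lemma bumpSum_sq_le (N : ℕ) (y : Plane) :
    bumpSum φ N y ^ 2 ≤ ∑ k ∈ Finset.range N, 4 * (4 : ℝ) ^ k * φ ((2 : ℝ) ^ k • y) := by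
  induction N with
  | zero => simp only [bumpSum, Finset.range_zero, Finset.sum_empty, ne_eq, OfNat.ofNat_ne_zero, not_false_eq_true, zero_pow, Std.le_refl]
  | succ N ih =>
    have e1 : bumpSum φ (N + 1) y = bumpSum φ N y + (2 : ℝ) ^ N * φ ((2 : ℝ) ^ N • y) := by
      simp only [bumpSum, Finset.sum_range_succ]
    rw [e1, Finset.sum_range_succ]
    have hN : bumpSum φ N y ≤ 2 ^ N := by
      unfold bumpSum
      calc ∑ k ∈ Finset.range N, (2 : ℝ) ^ k * φ ((2 : ℝ) ^ k • y)
          ≤ ∑ k ∈ Finset.range N, (2 : ℝ) ^ k := by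
            refine Finset.sum_le_sum fun k _ => ?_
            have := φ.le_one (x := (2 : ℝ) ^ k • y)
            have h2 : (0 : ℝ) < 2 ^ k := by positivity
            nlinarith only [this, h2]
        _ = 2 ^ N - 1 := by rw [geom_sum_eq (by norm_num)]; norm_num
        _ ≤ 2 ^ N := by linarith only []
    set p := φ ((2 : ℝ) ^ N • y) with hp
    have hp0 : 0 ≤ p := φ.nonneg
    have hp1 : p ≤ 1 := φ.le_one
    have hB := bumpSum_nonneg φ N y
    have h4 : (4 : ℝ) ^ N = 2 ^ N * 2 ^ N := by rw [← mul_pow]; norm_num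
    have h2 : (0 : ℝ) < 2 ^ N := by positivity
    rw [h4]
    have t1 : bumpSum φ N y * (2 ^ N * p) ≤ 2 ^ N * (2 ^ N * p) := by gcongr
    have t2 : (2 ^ N * p) * (2 ^ N * p) ≤ 2 ^ N * (2 ^ N * p) := by
      have : (2 : ℝ) ^ N * p ≤ 2 ^ N := by nlinarith only [hN, hp1, hB]
      gcongr
    nlinarith only [ih, t1, t2]

lemma testFun_sq_integral_le (N : ℕ) :
    ∫ y, ‖testFun φ N y‖ ^ 2 ≤ 4 * (∫ y, φ y) * N := by
  have h1 : ∀ y, ‖testFun φ N y‖ ^ 2 = bumpSum φ N y ^ 2 := by
    intro y; rw [testFun_apply, Complex.norm_real, Real.norm_eq_abs, sq_abs]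
  simp_rw [h1]
  calc ∫ y, bumpSum φ N y ^ 2
      ≤ ∫ y, ∑ k ∈ Finset.range N, 4 * (4 : ℝ) ^ k * φ ((2 : ℝ) ^ k • y) := by
        refine integral_mono_of_nonneg (Eventually.of_forall fun y => sq_nonneg _) ?_
          (Eventually.of_forall fun y => bumpSum_sq_le φ N y)
        exact integrable_finsetSum _ fun k _ => (bump_integrable φ k).const_mul _
    _ = ∑ k ∈ Finset.range N, 4 * (∫ y, φ y) := by
        rw [integral_finsetSum _ fun k _ => (bump_integrable φ k).const_mul _]
        refine Finset.sum_congr rfl fun k _ => ?_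
        rw [integral_const_mul, bump_integral_comp]
        have : (4 : ℝ) ^ k ≠ 0 := by positivity
        field_simp
    _ = 4 * (∫ y, φ y) * N := by
        rw [Finset.sum_const, Finset.card_range, nsmul_eq_mul]; ring

end

end Vale.Agent.P112
end

section

open MeasureTheory Filter Topology

namespace Vale.Agent.P112

section
variable (φ : ContDiffBump (0 : Plane)) {K h a : ℝ}

/-- on the focusing region the line passes through the origin -/
lemma norm_line {x : Plane} {v : Plane} (hx : 0 < ‖x‖) (hv : v = ‖x‖⁻¹ • x) (t : ℝ) :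
    ‖x - t • v‖ = |‖x‖ - t| := by
  have : x - t • v = (1 - t * ‖x‖⁻¹) • x := by
    rw [hv, sub_smul, one_smul, smul_smul]
  rw [this, norm_smul, Real.norm_eq_abs]
  conv_rhs => rw [show ‖x‖ - t = (1 - t * ‖x‖⁻¹) * ‖x‖ by (clear * - hx; field_simp)]
  rw [abs_mul, abs_of_pos hx]

lemma piece_lower {x v : Plane} (hv : v = ‖x‖⁻¹ • x) (hin : φ.rIn = φ.rOut / 2)
    (h1 : φ.rOut < ‖x‖) (h2 : ‖x‖ + φ.rOut ≤ a) (k : ℕ) :
    IntegrableOn (fun t : ℝ => (2 : ℝ) ^ k * φ ((2 : ℝ) ^ k • (x - t • v)) / t) {t : ℝ | |t| < a} ∧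
    φ.rOut / a ≤ ∫ t in {t : ℝ | |t| < a}, (2 : ℝ) ^ k * φ ((2 : ℝ) ^ k • (x - t • v)) / t := by
  have hρ := φ.rOut_pos
  set ρ := φ.rOut with hρdef
  have hx : 0 < ‖x‖ := by linarith only [h1, hρ]
  have ha : 0 < a := by linarith only [h1, h2, hρ]
  have hzero : ∀ t : ℝ, t ≤ ‖x‖ - ρ → φ ((2 : ℝ) ^ k • (x - t • v)) = 0 := by
    intro t ht
    apply bump_eq_zero φ
    rw [norm_line hx hv t, abs_of_nonneg (by linarith only [hρ, ht])]
    linarith only [ht]
  have h2k : (1 : ℝ) ≤ 2 ^ k := one_le_pow₀ (by norm_num)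
  have hnonneg : ∀ t : ℝ, 0 ≤ (2 : ℝ) ^ k * φ ((2 : ℝ) ^ k • (x - t • v)) / t := by
    intro t
    rcases le_or_gt t (‖x‖ - ρ) with ht | ht
    · rw [hzero t ht]; simp
    · have : 0 < t := by linarith only [h1, ht]
      have := φ.nonneg (x := (2 : ℝ) ^ k • (x - t • v))
      positivity
  have hbound : ∀ t : ℝ, (2 : ℝ) ^ k * φ ((2 : ℝ) ^ k • (x - t • v)) / t ≤ 2 ^ k / (‖x‖ - ρ) := by
    intro t
    rcases le_or_gt t (‖x‖ - ρ) with ht | ht
    · rw [hzero t ht]
      have : 0 < ‖x‖ - ρ := by linarith only [h1]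
      simp only [mul_zero, zero_div]
      (clear * - h1; positivity)
    · have h0 : 0 < ‖x‖ - ρ := by linarith only [h1]
      have := φ.le_one (x := (2 : ℝ) ^ k • (x - t • v))
      have := φ.nonneg (x := (2 : ℝ) ^ k • (x - t • v))
      gcongr
      nlinarith
  have hint : IntegrableOn
      (fun t : ℝ => (2 : ℝ) ^ k * φ ((2 : ℝ) ^ k • (x - t • v)) / t) {t : ℝ | |t| < a} := by
    have hfin : volume {t : ℝ | |t| < a} < ⊤ := by
      have : {t : ℝ | |t| < a} = Metric.ball 0 a := by ext t; simp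
      rw [this]; exact measure_ball_lt_top
    refine Measure.integrableOn_of_bounded (M := 2 ^ k / (‖x‖ - ρ)) hfin.ne ?_ ?_
    · apply Measurable.aestronglyMeasurable
      refine Measurable.div ?_ measurable_id
      refine measurable_const.mul (φ.continuous.measurable.comp ?_)
      fun_prop
    · refine Eventually.of_forall fun t => ?_
      rw [Real.norm_of_nonneg (hnonneg t)]
      exact hbound t
  refine ⟨hint, ?_⟩
  set s := Set.Icc (‖x‖ - ρ / 2 / 2 ^ k) (‖x‖ + ρ / 2 / 2 ^ k) with hs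
  have hsub : ρ / 2 / 2 ^ k ≤ ρ / 2 := div_le_self (by linarith only [hρ]) h2k
  have hpos : 0 < ρ / 2 / 2 ^ k := by positivity
  have hss : s ⊆ {t : ℝ | |t| < a} := by
    intro t ht
    rw [Set.mem_ofPred_eq, abs_lt]
    constructor
    · linarith only [ht.1, h1, h2, hsub, hpos]
    · linarith only [ht.2, h2, hsub, hpos]
  calc ρ / a = ∫ t in s, (2 : ℝ) ^ k / a := by
        rw [setIntegral_const, hs, Measure.real, Real.volume_Icc, ENNReal.toReal_ofReal (by linarith only [hpos]),
          smul_eq_mul]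
        field_simp
        ring
    _ ≤ ∫ t in s, (2 : ℝ) ^ k * φ ((2 : ℝ) ^ k • (x - t • v)) / t := by
        refine setIntegral_mono_on ?_ (hint.mono_set hss) measurableSet_Icc ?_
        · exact integrableOn_const (by simp only [hs, Real.volume_Icc, add_sub_sub_cancel, ne_eq, ENNReal.ofReal_ne_top, not_false_eq_true])
        · intro t ht
          have ht0 : 0 < t := by linarith only [ht.1, h1, hsub, hpos]
          have hta : t ≤ a := by linarith only [h2, hsub, hpos, ht.2]
          have hone : φ ((2 : ℝ) ^ k • (x - t • v)) = 1 := by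
            apply φ.one_of_mem_closedBall
            rw [Metric.mem_closedBall, dist_zero_right, norm_smul, norm_line hx hv t, hin,
              Real.norm_of_nonneg (by positivity)]
            have : |‖x‖ - t| ≤ ρ / 2 / 2 ^ k := by
              rw [abs_le]; constructor <;> linarith only [ht.1, ht.2]
            calc (2 : ℝ) ^ k * |‖x‖ - t| ≤ 2 ^ k * (ρ / 2 / 2 ^ k) := by (clear * - this; gcongr)
              _ = ρ / 2 := by field_simp
          rw [hone, mul_one]
          (clear * - ht0 hta; gcongr)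
    _ ≤ ∫ t in {t : ℝ | |t| < a}, (2 : ℝ) ^ k * φ ((2 : ℝ) ^ k • (x - t • v)) / t := by
        refine setIntegral_mono_set hint (Eventually.of_forall hnonneg) ?_
        exact LE.le.eventuallyLE hss

lemma hilbert_lower {v : Plane → Plane} {x : Plane} (hv : v x = ‖x‖⁻¹ • x)
    (hin : φ.rIn = φ.rOut / 2)
    (h1 : φ.rOut < ‖x‖) (h2 : ‖x‖ + φ.rOut ≤ a) (N : ℕ) :
    N * (φ.rOut / a) ≤ ‖hilbert v a (testFun φ N) x‖ := by
  have hx : 0 < ‖x‖ := by linarith only [h1, φ.rOut_pos]
  have hz : ∀ t : ℝ, |t| ≤ ‖x‖ - φ.rOut → testFun φ N (x - t • v x) = 0 := by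
    intro t ht
    rw [testFun_apply, bumpSum_eq_zero φ, Complex.ofReal_zero]
    rw [norm_line hx hv t]
    have := le_abs_self t
    rw [abs_of_nonneg (by linarith only [ht, this, φ.rOut_pos])]
    linarith only [ht, this]
  rw [hilbert_eq_integral (sub_pos.2 h1) hz]
  have e1 : ∫ t in {t : ℝ | |t| < a}, testFun φ N (x - t • v x) / (t : ℂ)
      = ((∫ t in {t : ℝ | |t| < a}, bumpSum φ N (x - t • v x) / t : ℝ) : ℂ) := by
    rw [← integral_complex_ofReal]
    refine integral_congr_ae (Eventually.of_forall fun t => ?_)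
    simp [testFun_apply]
  have e2 : ∫ t in {t : ℝ | |t| < a}, bumpSum φ N (x - t • v x) / t
      = ∑ k ∈ Finset.range N,
          ∫ t in {t : ℝ | |t| < a}, (2 : ℝ) ^ k * φ ((2 : ℝ) ^ k • (x - t • v x)) / t := by
    rw [← integral_finsetSum _ fun k _ => (piece_lower φ hv hin h1 h2 k).1]
    refine integral_congr_ae (Eventually.of_forall fun t => ?_)
    simp only [bumpSum, Finset.sum_div]
  have e3 : (N : ℝ) * (φ.rOut / a) ≤ ∫ t in {t : ℝ | |t| < a}, bumpSum φ N (x - t • v x) / t := by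
    rw [e2]
    calc (N : ℝ) * (φ.rOut / a) = ∑ k ∈ Finset.range N, φ.rOut / a := by
          rw [Finset.sum_const, Finset.card_range, nsmul_eq_mul]
      _ ≤ _ := Finset.sum_le_sum fun k _ => (piece_lower φ hv hin h1 h2 k).2
  rw [e1, Complex.norm_real, Real.norm_eq_abs]
  exact le_trans e3 (le_abs_self _)

end

/-- The weak type (2,2) inequality fails, for every constant, when a field focuses at a distance
`1/K < a` on a set with nonempty interior. -/
theorem not_weak_focusField {K h a : ℝ} (hK : 0 < K) (hh : 0 < h) (ha : 1 < a * K) (C : ℝ) :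
    ¬ WeakTwoTwo (focusField K h) a C := by
  intro hweak
  set c := K⁻¹ with hc
  have hc0 : 0 < c := inv_pos.2 hK
  have hca : c < a := by rw [hc, inv_lt_iff_one_lt_mul₀ hK]; exact ha
  have ha0 : 0 < a := by linarith only [hc0, hca]
  set ρ := min (c / 2) ((a - c) / 2) with hρ
  have hρ0 : 0 < ρ := lt_min (by linarith only [hc0]) (by linarith)
  have hρ1 : ρ ≤ c / 2 := min_le_left _ _
  have hρ2 : ρ ≤ (a - c) / 2 := min_le_right _ _
  let φ : ContDiffBump (0 : Plane) := ⟨ρ / 2, ρ, by linarith only [hρ0], by linarith only [hρ0]⟩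
  have hin : φ.rIn = φ.rOut / 2 := rfl
  have hout : φ.rOut = ρ := rfl
  set U : Set Plane := {x | 1 < K * x 0 ∧ |K * x 1| < h ∧ ‖x‖ < (c + a) / 2} with hU
  have hUopen : IsOpen U := by
    have o1 : IsOpen {x : Plane | 1 < K * x 0} := isOpen_lt (by fun_prop) (by fun_prop)
    have o2 : IsOpen {x : Plane | |K * x 1| < h} := isOpen_lt (by fun_prop) (by fun_prop)
    have o3 : IsOpen {x : Plane | ‖x‖ < (c + a) / 2} := isOpen_lt (by fun_prop) (by fun_prop)
    exact o1.inter (o2.inter o3)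
  have hUne : U.Nonempty := by
    refine ⟨!₂[(3 * c + a) / 4, 0], ?_, ?_, ?_⟩
    · have : 1 < K * ((3 * c + a) / 4) := by
        have h1 : c < (3 * c + a) / 4 := by linarith only [hρ0, hρ2]
        have h2 : K * c = 1 := mul_inv_cancel₀ hK.ne'
        linarith only [ha, h2]
      simpa only [Fin.isValue, Matrix.cons_val_zero, gt_iff_lt] using this
    · simpa only [Fin.isValue, Matrix.cons_val_one, Matrix.cons_val_fin_one, mul_zero, abs_zero] using hh
    · rw [EuclideanSpace.norm_eq, Fin.sum_univ_two]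
      simp only [Matrix.cons_val_zero, Matrix.cons_val_one, Matrix.cons_val_fin_one, norm_zero,
        Real.norm_eq_abs, sq_abs]
      rw [show ((3 * c + a) / 4) ^ 2 + 0 ^ 2 = ((3 * c + a) / 4) ^ 2 by ring,
        Real.sqrt_sq (by linarith only [hρ0, hρ1, hρ2])]
      linarith only [hρ0, hρ2]
  have hUpos : 0 < volume U := hUopen.measure_pos volume hUne
  have hlow : ∀ (N : ℕ), ∀ x ∈ U, N * (ρ / a) ≤ ‖hilbert (focusField K h) a (testFun φ N) x‖ := by
    intro N x hx
    have hx0 : c < x 0 := by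
      rw [hc, inv_lt_iff_one_lt_mul₀ hK, mul_comm]; exact hx.1
    have hx1 : x 0 ≤ ‖x‖ := le_trans (le_abs_self _) (abs_coord_le x 0)
    have hxa := hx.2.2
    refine hilbert_lower φ ?_ hin ?_ ?_ N
    · exact focusField_eq hK hx.1.le hx.2.1.le
    · rw [hout]; linarith only [hc0, hρ1, hx0, hx1]
    · rw [hout]; linarith only [hρ2, hxa]
  set I := ∫ y, φ y with hI
  have hbound : ∀ N : ℕ, 0 < N →
      volume U ≤ ENNReal.ofReal (|C| * 16 * a ^ 2 * |I| / ρ ^ 2 * (1 / (N : ℝ))) := by
    intro N hN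
    have hN' : (0 : ℝ) < N := by exact_mod_cast hN
    set lam := N * (ρ / a) / 2 with hlam
    have hlam0 : 0 < lam := by (clear * - hN hK hca ha0; positivity)
    have h1 := hweak (testFun φ N) lam hlam0
    have h2 : U ⊆ {x | lam < ‖hilbert (focusField K h) a (testFun φ N) x‖} := by
      intro x hx
      have := hlow N x hx
      have h3 : lam < N * (ρ / a) := by
        rw [hlam]
        have : 0 < N * (ρ / a) := by positivity
        linarith only [hlam, hlam0]
      exact lt_of_lt_of_le h3 this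
    refine le_trans (measure_mono h2) (le_trans h1 ?_)
    refine ENNReal.ofReal_le_ofReal ?_
    have h4 := testFun_sq_integral_le φ N
    have h5 : 0 ≤ ∫ y, ‖testFun φ N y‖ ^ 2 := integral_nonneg fun y => by (clear * -; positivity)
    calc C / lam ^ 2 * ∫ y, ‖testFun φ N y‖ ^ 2
        ≤ |C| / lam ^ 2 * (4 * |I| * N) := by
          refine mul_le_mul ?_ ?_ h5 (by (clear * - hN hK hca ha0; positivity))
          · gcongr; exact le_abs_self C
          · refine le_trans h4 ?_
            gcongr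
            exact le_abs_self _
      _ = |C| * 16 * a ^ 2 * |I| / ρ ^ 2 * (1 / (N : ℝ)) := by
          rw [hlam]; field_simp; ring
  have hlim : Tendsto (fun N : ℕ =>
      ENNReal.ofReal (|C| * 16 * a ^ 2 * |I| / ρ ^ 2 * (1 / (N : ℝ)))) atTop (𝓝 0) := by
    rw [← ENNReal.ofReal_zero]
    refine ENNReal.tendsto_ofReal ?_
    have := (tendsto_one_div_atTop_nhds_zero_nat (𝕜 := ℝ)).const_mul
      (|C| * 16 * a ^ 2 * |I| / ρ ^ 2)
    simpa only [one_div, mul_zero] using this
  have : volume U ≤ 0 := by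
    refine ge_of_tendsto hlim ?_
    filter_upwards [eventually_gt_atTop 0] with N hN
    exact hbound N hN
  exact absurd this (not_le.2 hUpos)

end Vale.Agent.P112
end

section

open MeasureTheory Filter Topology

namespace Vale.Agent.P112

/-- Failure for every modulus of continuity that is steeper than `1/a` somewhere. -/
theorem modulus_failure (ω : ℝ → ℝ) (hmono : ∀ r s : ℝ, 0 < r → r ≤ s → ω r ≤ ω s)
    (hanti : ∀ r s : ℝ, 0 < r → r ≤ s → ω s / s ≤ ω r / r)
    {r a : ℝ} (hr : 0 < r) (ha : 0 < a) (hra : r < a * ω r) :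
    ∃ v : Plane → Plane, (∀ x, ‖v x‖ = 1) ∧ (∀ x y, x ≠ y → ‖v x - v y‖ ≤ ω ‖x - y‖) ∧
      (LipschitzWith (Real.toNNReal (ω r / r)) v) ∧ ∀ C, ¬ WeakTwoTwo v a C := by
  have hω : 0 < ω r := by
    by_contra hcon
    rw [not_lt] at hcon
    linarith only [hr, hra, mul_nonneg ha.le (neg_nonneg.2 hcon)]
  have hK : 0 < ω r / r := by (clear * - hω hr; positivity)
  refine ⟨focusField (ω r / r) (ω r / 2), norm_focusField _ _, ?_, ?_, ?_⟩
  · intro x y hxy
    have hd : 0 < ‖x - y‖ := norm_pos_iff.2 (sub_ne_zero.2 hxy)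
    rcases le_total ‖x - y‖ r with h | h
    · refine le_trans (norm_focusField_sub_le hK.le _ x y) ?_
      have := hanti _ _ hd h
      rwa [le_div_iff₀ hd] at this
    · refine le_trans (norm_focusField_sub_le' _ (by positivity) x y) ?_
      have := hmono _ _ hr h
      linarith only [this]
  · refine LipschitzWith.of_dist_le_mul fun x y => ?_
    rw [dist_eq_norm, dist_eq_norm, Real.coe_toNNReal _ hK.le]
    exact norm_focusField_sub_le hK.le _ x y
  · intro C
    refine not_weak_focusField hK (by positivity) ?_ C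
    rw [mul_div_assoc', lt_div_iff₀ hr]
    linarith only [hra]

theorem not_admissible {a : ℝ} (ha : 1 < a) (C : ℝ) : ¬ Admissible a C := by
  intro h
  have hL : LipschitzWith 1 (focusField 1 1) := by
    refine LipschitzWith.of_dist_le_mul fun x y => ?_
    rw [dist_eq_norm, dist_eq_norm]
    simpa only [NNReal.coe_one, one_mul] using norm_focusField_sub_le (K := 1) zero_le_one 1 x y
  exact not_weak_focusField one_pos one_pos (by linarith) C (h _ (norm_focusField 1 1) hL)

end Vale.Agent.P112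
end

section

open MeasureTheory Filter Topology
open scoped ENNReal

namespace Vale.Agent.P112

/-- The shell between two radii. -/
noncomputable def shell (v : Plane → Plane) (a b : ℝ) (f : Plane → ℂ) (x : Plane) : ℂ :=
  ∫ t in {t : ℝ | a ≤ |t| ∧ |t| < b}, f (x - t • v x) / (t : ℂ)

lemma hilbert_diff_bound (v : Plane → Plane) (f : SchwartzMap Plane ℂ) {a b : ℝ}
    (ha : 0 < a) (hb : 0 < b) (x : Plane) :
    ‖hilbert v b f x‖ ≤ ‖hilbert v a f x‖ + ‖shell v (min a b) (max a b) f x‖ := by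
  rcases le_total a b with h | h
  · rw [min_eq_left h, max_eq_right h]
    have := hilbert_sub v f x ha h
    have h2 : hilbert v b f x = hilbert v a f x + shell v a b f x := by
      rw [shell, ← this]; ring
    rw [h2]; exact norm_add_le _ _
  · rw [min_eq_right h, max_eq_left h]
    have := hilbert_sub v f x hb h
    have h2 : hilbert v b f x = hilbert v a f x - shell v b a f x := by
      rw [shell, ← this]; ring
    rw [h2]; exact norm_sub_le _ _

theorem weakTwoTwo_change {J : ℝ} (hJ : 0 < J)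
    (hJle : ∫⁻ t in {t : ℝ | |t| < 1}, ENNReal.ofReal (1 / Real.sqrt (1 - |t|)) ≤ ENNReal.ofReal J)
    {v : Plane → Plane} (hv : ∀ x, ‖v x‖ = 1) (hL : LipschitzWith 1 v) {a b C : ℝ}
    (ha : 0 < a) (ha1 : a ≤ 1) (hb : 0 < b) (hb1 : b ≤ 1) (h : WeakTwoTwo v a C) :
    WeakTwoTwo v b (4 * (|C| + J ^ 2 / min a b ^ 2)) := by
  intro f lam hlam
  have hm : 0 < min a b := lt_min ha hb
  have hI : 0 ≤ ∫ x, ‖f x‖ ^ 2 := integral_nonneg fun x => by (clear * -; positivity)
  have hsub : {x | lam < ‖hilbert v b f x‖} ⊆ {x | lam / 2 < ‖hilbert v a f x‖} ∪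
      {x | lam / 2 < ‖∫ t in {t : ℝ | min a b ≤ |t| ∧ |t| < max a b}, f (x - t • v x) / (t : ℂ)‖} := by
    intro x hx
    have hx' : lam < ‖hilbert v b f x‖ := hx
    have h1 := hilbert_diff_bound v f ha hb x
    rcases lt_or_ge (lam / 2) ‖hilbert v a f x‖ with h2 | h2
    · exact Or.inl h2
    · refine Or.inr ?_
      have : lam / 2 < ‖shell v (min a b) (max a b) f x‖ := by linarith only [hx', h1, h2]
      exact this
  calc volume {x | lam < ‖hilbert v b f x‖}
      ≤ volume {x | lam / 2 < ‖hilbert v a f x‖} + volume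
        {x | lam / 2 < ‖∫ t in {t : ℝ | min a b ≤ |t| ∧ |t| < max a b}, f (x - t • v x) / (t : ℂ)‖} :=
        le_trans (measure_mono hsub) (measure_union_le _ _)
    _ ≤ ENNReal.ofReal (C / (lam / 2) ^ 2 * ∫ x, ‖f x‖ ^ 2) +
        ENNReal.ofReal (J ^ 2 / min a b ^ 2 / (lam / 2) ^ 2 * ∫ x, ‖f x‖ ^ 2) := by
        gcongr
        · exact h f (lam / 2) (by positivity)
        · exact shell_weak hJ hJle hv hL f hm (max_le ha1 hb1) (by positivity)
    _ ≤ ENNReal.ofReal (|C| / (lam / 2) ^ 2 * ∫ x, ‖f x‖ ^ 2) +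
        ENNReal.ofReal (J ^ 2 / min a b ^ 2 / (lam / 2) ^ 2 * ∫ x, ‖f x‖ ^ 2) := by
        gcongr
        exact le_abs_self C
    _ = ENNReal.ofReal (4 * (|C| + J ^ 2 / min a b ^ 2) / lam ^ 2 * ∫ x, ‖f x‖ ^ 2) := by
        rw [← ENNReal.ofReal_add (by (clear * - hlam; positivity)) (by positivity)]
        congr 1
        field_simp
        ring

theorem admissible_change {a b C : ℝ} (ha : 0 < a) (ha1 : a ≤ 1) (hb : 0 < b) (hb1 : b ≤ 1)
    (h : Admissible a C) : ∃ C', Admissible b C' := by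
  obtain ⟨J, hJ, hJle⟩ := exists_J
  exact ⟨_, fun v hv hL => weakTwoTwo_change hJ hJle hv hL ha ha1 hb hb1 (h v hv hL)⟩

/-- The admissible scales form the empty set or exactly `(0, 1]`. -/
theorem scale_dichotomy :
    {a : ℝ | 0 < a ∧ ∃ C, Admissible a C} = ∅ ∨
      {a : ℝ | 0 < a ∧ ∃ C, Admissible a C} = Set.Ioc 0 1 := by
  rcases Set.eq_empty_or_nonempty {a : ℝ | 0 < a ∧ ∃ C, Admissible a C} with h | ⟨a, ha, C, hC⟩
  · exact Or.inl h
  · right
    have ha1 : a ≤ 1 := by
      by_contra hcon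
      exact not_admissible (not_le.1 hcon) C hC
    ext b
    constructor
    · rintro ⟨hb, D, hD⟩
      refine ⟨hb, ?_⟩
      by_contra hcon
      exact not_admissible (not_le.1 hcon) D hD
    · rintro ⟨hb, hb1⟩
      exact ⟨hb, admissible_change ha ha1 hb hb1 hC⟩

end Vale.Agent.P112
end

section

namespace Vale.Agent.P112

open MeasureTheory Filter Topology Set
open scoped RealInnerProductSpace ENNReal NNReal

/-- Determinant of the identity minus a rank one perturbation. -/
lemma det_bound (A : Plane →L[ℝ] Plane) (hA : ‖A‖ ≤ 1) (w : Plane) (hw : ‖w‖ = 1)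
    (hAw : ∀ h, ⟪w, A h⟫ = 0) (t : ℝ) :
    1 - |t| ≤ |(ContinuousLinearMap.id ℝ Plane - t • A).det| := by
  set b := (EuclideanSpace.basisFun (Fin 2) ℝ).toBasis with hb
  set M := LinearMap.toMatrix b b (A : Plane →ₗ[ℝ] Plane) with hM
  have hMe : ∀ i j, M i j = (A (EuclideanSpace.single j 1)) i := by
    intro i j
    rw [hM, LinearMap.toMatrix_apply]
    simp [hb]
  have hdet : (ContinuousLinearMap.id ℝ Plane - t • A).det =
      1 - t * (M 0 0 + M 1 1) + t ^ 2 * (M 0 0 * M 1 1 - M 0 1 * M 1 0) := by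
    have h1 : (ContinuousLinearMap.id ℝ Plane - t • A).det =
        LinearMap.det ((ContinuousLinearMap.id ℝ Plane - t • A : Plane →L[ℝ] Plane) : Plane →ₗ[ℝ] Plane) := rfl
    rw [h1, ← LinearMap.det_toMatrix b]
    have h2 : LinearMap.toMatrix b b ((ContinuousLinearMap.id ℝ Plane - t • A : Plane →L[ℝ] Plane) : Plane →ₗ[ℝ] Plane)
        = 1 - t • M := by
      have : ((ContinuousLinearMap.id ℝ Plane - t • A : Plane →L[ℝ] Plane) : Plane →ₗ[ℝ] Plane)
        = LinearMap.id - t • (A : Plane →ₗ[ℝ] Plane) := by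
        ext; simp only [ContinuousLinearMap.toLinearMap_sub, ContinuousLinearMap.coe_id, ContinuousLinearMap.toLinearMap_smul, LinearMap.sub_apply, LinearMap.id_coe, id_eq, LinearMap.smul_apply, ContinuousLinearMap.coe_coe, PiLp.sub_apply, PiLp.smul_apply, smul_eq_mul]
      rw [this, map_sub, map_smul, LinearMap.toMatrix_id]
    rw [h2, Matrix.det_fin_two]
    simp only [Fin.isValue, Matrix.sub_apply, Matrix.one_apply_eq, Matrix.smul_apply, smul_eq_mul, ne_eq, zero_ne_one, not_false_eq_true, Matrix.one_apply_ne, zero_sub, one_ne_zero, mul_neg, neg_mul, neg_neg]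
    ring
  have e0 : w 0 * M 0 0 + w 1 * M 1 0 = 0 := by
    have := hAw (EuclideanSpace.single 0 1)
    rw [PiLp.inner_apply, Fin.sum_univ_two] at this
    simp only [RCLike.inner_apply, conj_trivial] at this
    rw [hMe, hMe]; linarith only [this]
  have e1 : w 0 * M 0 1 + w 1 * M 1 1 = 0 := by
    have := hAw (EuclideanSpace.single 1 1)
    rw [PiLp.inner_apply, Fin.sum_univ_two] at this
    simp only [RCLike.inner_apply, conj_trivial] at this
    rw [hMe, hMe]; linarith only [this]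
  have hw2 : w 0 ^ 2 + w 1 ^ 2 = 1 := by
    have := EuclideanSpace.norm_sq_eq w
    rw [hw, Fin.sum_univ_two] at this
    simp only [Real.norm_eq_abs, sq_abs] at this
    linarith only [this]
  have hdet0 : M 0 0 * M 1 1 - M 0 1 * M 1 0 = 0 := by
    have h1 : (M 0 0 * M 1 1 - M 0 1 * M 1 0) * w 0 = 0 := by linear_combination M 1 1 * e0 - M 1 0 * e1
    have h2 : (M 0 0 * M 1 1 - M 0 1 * M 1 0) * w 1 = 0 := by linear_combination M 0 0 * e1 - M 0 1 * e0
    have h3 : (M 0 0 * M 1 1 - M 0 1 * M 1 0) * (w 0 ^ 2 + w 1 ^ 2) = 0 := by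
      linear_combination w 0 * h1 + w 1 * h2
    rw [hw2, mul_one] at h3; exact h3
  -- the trace
  set p : Plane := !₂[-(w 1), w 0] with hp
  have hpn : ‖p‖ = 1 := by
    have := EuclideanSpace.norm_sq_eq p
    rw [Fin.sum_univ_two] at this
    simp only [Real.norm_eq_abs, sq_abs, hp] at this
    have h4 : ‖p‖ ^ 2 = 1 := by
      rw [hp, this]; simp only [Fin.isValue, Matrix.cons_val_zero, even_two, Even.neg_pow, Matrix.cons_val_one, Matrix.cons_val_fin_one]; linarith only [hw2]
    have h5 : (‖p‖ - 1) * (‖p‖ + 1) = 0 := by ring_nf; linarith only [h4]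
    rcases mul_eq_zero.mp h5 with h | h
    · linarith only [h]
    · have := norm_nonneg p; linarith only [h, this]
  have hAp : ∀ i, (A p) i = -(w 1) * M i 0 + w 0 * M i 1 := by
    intro i
    have : p = (-(w 1)) • EuclideanSpace.single (0 : Fin 2) (1:ℝ) + (w 0) • EuclideanSpace.single (1 : Fin 2) (1:ℝ) := by
      ext j; fin_cases j <;> simp [hp]
    rw [this, map_add, map_smul, map_smul, hMe, hMe]
    simp only [Fin.isValue, neg_smul, PiLp.add_apply, PiLp.neg_apply, PiLp.smul_apply, smul_eq_mul, neg_mul]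
  have htr : ⟪p, A p⟫ = M 0 0 + M 1 1 := by
    rw [PiLp.inner_apply, Fin.sum_univ_two]
    simp only [RCLike.inner_apply, conj_trivial]
    rw [hAp, hAp]
    simp only [hp]
    simp only [Fin.isValue, neg_mul, Matrix.cons_val_zero, mul_neg, Matrix.cons_val_one, Matrix.cons_val_fin_one]
    linear_combination (M 0 0 + M 1 1) * hw2 - w 0 * e0 - w 1 * e1
  have htrb : |M 0 0 + M 1 1| ≤ 1 := by
    rw [← htr]
    calc |⟪p, A p⟫| ≤ ‖p‖ * ‖A p‖ := abs_real_inner_le_norm _ _
      _ ≤ 1 * (1 * 1) := by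
        rw [hpn]
        have := A.le_opNorm p
        rw [hpn] at this
        linarith only [hA, this]
      _ = 1 := by ring
  rw [hdet, hdet0, mul_zero, add_zero]
  have : |t * (M 0 0 + M 1 1)| ≤ |t| := by
    rw [abs_mul]; nlinarith only [abs_nonneg t, htrb]
  have h6 := le_abs_self (1 - t * (M 0 0 + M 1 1))
  have h7 := neg_abs_le (t * (M 0 0 + M 1 1))
  have h8 := le_abs_self (t * (M 0 0 + M 1 1))
  linarith only [this, h6, h8]

/-- The displacement map. -/
def Phi (v : Plane → Plane) (t : ℝ) (x : Plane) : Plane := x - t • v x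

lemma Phi_injective {v : Plane → Plane} (hv : LipschitzWith 1 v) {t : ℝ} (ht : |t| < 1) :
    Function.Injective (Phi v t) := by
  intro x y hxy
  unfold Phi at hxy
  have h1 : x - y = t • (v x - v y) := by
    rw [smul_sub]
    have : x - y = (x - t • v x) - (y - t • v y) + (t • v x - t • v y) := by abel
    rw [this, hxy]; simp
  have h2 : ‖x - y‖ ≤ |t| * ‖x - y‖ := by
    conv_lhs => rw [h1]
    rw [norm_smul, Real.norm_eq_abs]
    have := hv.dist_le_mul x y
    rw [dist_eq_norm, dist_eq_norm] at this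
    simp only [NNReal.coe_one, one_mul] at this
    gcongr
  by_contra hne
  have : 0 < ‖x - y‖ := norm_pos_iff.mpr (sub_ne_zero.mpr hne)
  nlinarith only [ht, h2, this]

lemma inner_fderiv_zero {v : Plane → Plane} (hv : ∀ x, ‖v x‖ = 1) {x : Plane}
    (hd : DifferentiableAt ℝ v x) (h : Plane) : ⟪v x, fderiv ℝ v x h⟫ = 0 := by
  have h1 : HasFDerivAt (fun y => ⟪v y, v y⟫)
      ((fderivInnerCLM ℝ (v x, v x)).comp ((fderiv ℝ v x).prod (fderiv ℝ v x))) x :=
    hd.hasFDerivAt.inner ℝ hd.hasFDerivAt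
  have h2 : HasFDerivAt (fun y => ⟪v y, v y⟫) (0 : Plane →L[ℝ] ℝ) x := by
    have : (fun y => ⟪v y, v y⟫) = fun _ => (1 : ℝ) := by
      ext y; rw [real_inner_self_eq_norm_sq, hv y]; norm_num
    rw [this]; exact hasFDerivAt_const _ _
  have h3 := h1.unique h2
  have h4 := congrArg (fun L : Plane →L[ℝ] ℝ => L h) h3
  simp only [ContinuousLinearMap.comp_apply, ContinuousLinearMap.prod_apply, fderivInnerCLM_apply,
    ContinuousLinearMap.zero_apply] at h4
  rw [real_inner_comm] at h4
  have h5 := real_inner_comm (v x) (fderiv ℝ v x h)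
  linarith only [h4, h5]

/-- Composition with the displacement map expands integrals by at most `1 / (1 - |t|)`. -/
lemma lintegral_comp_Phi {v : Plane → Plane} (hvl : LipschitzWith 1 v) (hvu : ∀ x, ‖v x‖ = 1) {t : ℝ} (ht : |t| < 1)
    (g : Plane → ℝ≥0∞) :
    ENNReal.ofReal (1 - |t|) * ∫⁻ x, g (Phi v t x) ≤ ∫⁻ x, g x := by
  set s := {x : Plane | DifferentiableAt ℝ v x} with hs
  have hsm : MeasurableSet s := measurableSet_of_differentiableAt ℝ v
  have hae : ∀ᵐ x : Plane, x ∈ s := hvl.ae_differentiableAt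
  have hder : ∀ x ∈ s, HasFDerivWithinAt (Phi v t)
      (ContinuousLinearMap.id ℝ Plane - t • fderiv ℝ v x) s x := by
    intro x hx
    have h1 : HasFDerivAt v (fderiv ℝ v x) x := DifferentiableAt.hasFDerivAt hx
    exact ((hasFDerivAt_id x).sub (h1.const_smul t)).hasFDerivWithinAt
  have hmain := lintegral_image_eq_lintegral_abs_det_fderiv_mul volume hsm hder
    ((Phi_injective hvl ht).injOn) g
  have hle : ∫⁻ x, g (Phi v t x) = ∫⁻ x in s, g (Phi v t x) := by
    rw [Measure.restrict_eq_self_of_ae_mem hae]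
  rw [hle, ← lintegral_const_mul']
  · calc ∫⁻ x in s, ENNReal.ofReal (1 - |t|) * g (Phi v t x)
        ≤ ∫⁻ x in s, ENNReal.ofReal |(ContinuousLinearMap.id ℝ Plane - t • fderiv ℝ v x).det| * g (Phi v t x) := by
          apply setLIntegral_mono' hsm
          intro x hx
          gcongr
          apply det_bound _ _ (v x) (hvu x)
          · exact inner_fderiv_zero hvu hx
          · have := norm_fderiv_le_of_lipschitz ℝ hvl (x₀ := x)
            simpa only [ge_iff_le, NNReal.coe_one] using this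
      _ = ∫⁻ x in (Phi v t) '' s, g x := hmain.symm
      _ ≤ ∫⁻ x, g x := setLIntegral_le_lintegral _ _
  · exact ENNReal.ofReal_ne_top

end Vale.Agent.P112
end

section

/-!
Basic definitions for the finite type theorem of P112.
-/

namespace Vale.Agent.P112

open MeasureTheory Filter Topology Set
open scoped ENNReal NNReal

/-- The averaged turning `𝓓_L(x)`, integral of the turning over `[-L, L]`. -/
noncomputable def DD (v : Plane → Plane) (L : ℝ) (x : Plane) : ℝ := ∫ s in (-L)..L, turn v x s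

/-- Good control of the turning at `x` at the scale `L`. -/
structure Good (v : Plane → Plane) (L C β : ℝ) (x : Plane) : Prop where
  g1 : ∀ s : ℝ, |s| ≤ 8 * L → turn v x s ≤ C * (DD v L x / L)
  g2 : ∀ s : ℝ, |s| ≤ L → turn v x s ≤ C * (|s| / L) ^ β * (DD v L x / L)
  g3 : ∀ ε : ℝ, 0 < ε → volume {s : ℝ | |s| ≤ 2 * L ∧ turn v x s < ε * (DD v L x / L)} ≤
    ENNReal.ofReal (C * ε ^ β * L)

/-- Tent cutoff: equals one on `|t| ≤ 1/2`, vanishes for `|t| ≥ 1`. -/
noncomputable def chi (t : ℝ) : ℝ := max 0 (min 1 (2 - 2 * |t|))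

/-- The odd kernel piece at scale `L`: `(χ(t/L) - χ(2t/L)) / t`. -/
noncomputable def eta (L t : ℝ) : ℝ := (chi (t / L) - chi (2 * (t / L))) / t

/-- A nonnegative even Lipschitz bump on the plane, supported in the unit ball, of integral one. -/
noncomputable def bump (h : Plane) : ℝ :=
  (∫ k : Plane, max 0 (1 - ‖k‖))⁻¹ * max 0 (1 - ‖h‖)

/-- Clamping to `[-1/4, 1/4]`. -/
noncomputable def clamp (s : ℝ) : ℝ := max (-(1/4)) (min (1/4) s)

/-- The inverse of `x ↦ x - s v x` (with `s` clamped to `[-1/4, 1/4]`). -/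
noncomputable def Psi (v : Plane → Plane) (s : ℝ) : Plane → Plane :=
  Function.invFun (Phi v (clamp s))

/-- Continuous compactly supported functions. -/
def CC (F : Plane → ℝ) : Prop := Continuous F ∧ HasCompactSupport F

/-- The square of the `L²` norm, as an extended nonnegative real. -/
noncomputable def sqn (F : Plane → ℝ) : ℝ≥0∞ := ∫⁻ x, ‖F x‖ₑ ^ 2

/-- The piece of the Hilbert transform along `v` at scale `L`. -/
noncomputable def Tp (v : Plane → Plane) (L : ℝ) (F : Plane → ℝ) (x : Plane) : ℝ :=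
  ∫ t : ℝ, eta L t * F (x - t • v x)

/-- The approximate adjoint at scale `L`. -/
noncomputable def Ta (v : Plane → Plane) (L : ℝ) (F : Plane → ℝ) (x : Plane) : ℝ :=
  ∫ s : ℝ, eta L s * F (Psi v s x)

/-- The mollified piece at scale `L` with mollification radius `θ 𝓓_L(x)`. -/
noncomputable def Tl (v : Plane → Plane) (θ L : ℝ) (F : Plane → ℝ) (x : Plane) : ℝ :=
  ∫ t : ℝ, eta L t * ∫ h : Plane, bump h * F (x - t • v x - (θ * DD v L x) • h)

/-- The real Hilbert space `L²` of the plane. -/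
noncomputable abbrev L2 := Lp ℝ 2 (volume : Measure Plane)

/-- `T` acts on continuous compactly supported functions by the formula `P`. -/
structure Rep (T : L2 →L[ℝ] L2) (P : (Plane → ℝ) → (Plane → ℝ)) : Prop where
  cc : ∀ F, CC F → CC (P F)
  eq : ∀ F, CC F → ∀ g : L2, g =ᵐ[volume] F → T g =ᵐ[volume] P F

end Vale.Agent.P112
end

section

/-! Task P112-FT01: properties of the kernel pieces `chi`, `eta`. -/

namespace Vale.Agent.P112

open MeasureTheory Filter Topology Set
open scoped ENNReal NNReal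

lemma chi_nonneg (t : ℝ) : 0 ≤ chi t := le_max_left _ _

lemma chi_le_one (t : ℝ) : chi t ≤ 1 := by
  unfold chi
  exact max_le (by norm_num) (min_le_left _ _)

lemma chi_eq_one {t : ℝ} (ht : |t| ≤ 1 / 2) : chi t = 1 := by
  unfold chi
  rw [min_eq_left (by linarith), max_eq_right (by norm_num)]

lemma chi_eq_zero {t : ℝ} (ht : 1 ≤ |t|) : chi t = 0 := by
  unfold chi
  apply max_eq_left
  exact (min_le_right _ _).trans (by linarith)

lemma chi_neg (t : ℝ) : chi (-t) = chi t := by
  unfold chi; rw [abs_neg]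

lemma continuous_chi : Continuous chi := by
  unfold chi; fun_prop

lemma chi_lip (t s : ℝ) : |chi t - chi s| ≤ 2 * |t - s| := by
  unfold chi
  have h1 : |max 0 (min 1 (2 - 2 * |t|)) - max 0 (min 1 (2 - 2 * |s|))| ≤
      |min 1 (2 - 2 * |t|) - min 1 (2 - 2 * |s|)| := by
    have := abs_max_sub_max_le_max (0:ℝ) (min 1 (2 - 2 * |t|)) 0 (min 1 (2 - 2 * |s|))
    simpa only [ge_iff_le, sub_self, abs_zero, abs_nonneg, sup_of_le_right] using this
  have h2 : |min 1 (2 - 2 * |t|) - min 1 (2 - 2 * |s|)| ≤ |(2 - 2 * |t|) - (2 - 2 * |s|)| := by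
    have := abs_min_sub_min_le_max (1:ℝ) (2 - 2 * |t|) 1 (2 - 2 * |s|)
    simpa only [sub_sub_sub_cancel_left, ge_iff_le, sub_self, abs_zero, abs_nonneg, sup_of_le_right] using this
  have h3 : |(2 - 2 * |t|) - (2 - 2 * |s|)| ≤ 2 * |t - s| := by
    have : (2 - 2 * |t|) - (2 - 2 * |s|) = 2 * (|s| - |t|) := by ring
    rw [this, abs_mul, abs_two, abs_sub_comm t s]
    have := abs_abs_sub_abs_le s t
    linarith only [this]
  linarith

lemma eta_neg (L t : ℝ) : eta L (-t) = - eta L t := by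
  unfold eta
  rw [neg_div, mul_neg, chi_neg, chi_neg, div_neg]

/-- the profile -/
noncomputable def etaz (u : ℝ) : ℝ := chi u - chi (2 * u)

lemma etaz_zero {u : ℝ} (hu : |u| ≤ 1 / 4) : etaz u = 0 := by
  unfold etaz
  rw [chi_eq_one (by linarith only [hu]), chi_eq_one (by rw [abs_mul, abs_two]; linarith only [hu])]; ring

lemma etaz_zero' {u : ℝ} (hu : 1 ≤ |u|) : etaz u = 0 := by
  unfold etaz
  rw [chi_eq_zero hu, chi_eq_zero (by rw [abs_mul, abs_two]; linarith only [hu])]; ring

lemma etaz_le (u : ℝ) : |etaz u| ≤ 1 := by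
  unfold etaz
  rw [abs_le]
  constructor <;> linarith only [chi_le_one u, chi_nonneg (2 * u), chi_nonneg u, chi_le_one (2 * u)]

lemma etaz_lip (u w : ℝ) : |etaz u - etaz w| ≤ 6 * |u - w| := by
  unfold etaz
  have h1 := chi_lip u w
  have h2 := chi_lip (2 * u) (2 * w)
  rw [← mul_sub, abs_mul, abs_two] at h2
  have h3 : chi u - chi (2 * u) - (chi w - chi (2 * w)) = (chi u - chi w) - (chi (2 * u) - chi (2 * w)) := by ring
  rw [h3]
  have := abs_sub (chi u - chi w) (chi (2 * u) - chi (2 * w))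
  linarith

lemma eta_eq (L t : ℝ) : eta L t = etaz (t / L) / t := rfl

lemma eta_supp {L t : ℝ} (hL : 0 < L) (h : eta L t ≠ 0) : L / 4 < |t| ∧ |t| < L := by
  rw [eta_eq] at h
  constructor
  · by_contra hcon
    push Not at hcon
    apply h
    rw [etaz_zero, zero_div]
    rw [abs_div, abs_of_pos hL, div_le_iff₀ hL]; linarith only [hcon]
  · by_contra hcon
    push Not at hcon
    apply h
    rw [etaz_zero', zero_div]
    rw [abs_div, abs_of_pos hL, le_div_iff₀ hL]; linarith only [hcon]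

lemma eta_eq_zero {L t : ℝ} (hL : 0 < L) (h : L ≤ |t|) : eta L t = 0 := by
  by_contra hcon
  have := (eta_supp hL hcon).2
  linarith

lemma eta_bound {L : ℝ} (hL : 0 < L) (t : ℝ) : |eta L t| ≤ 4 / L := by
  by_cases h : eta L t = 0
  · rw [h, abs_zero]; (clear * - hL; positivity)
  · have h1 := (eta_supp hL h).1
    have ht : 0 < |t| := by linarith only [hL, h1]
    rw [eta_eq, abs_div]
    rw [div_le_div_iff₀ ht hL]
    have := etaz_le (t / L)
    nlinarith only [hL, h1, this]

/-- Lipschitz bound for the profile divided by its argument. -/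
lemma etaz_div_lip_aux {u w : ℝ} (hw : 1 / 4 ≤ |w|) :
    |etaz u / u - etaz w / w| ≤ 40 * |u - w| := by
  have hw0 : 0 < |w| := by linarith only [hw]
  have hwne : w ≠ 0 := abs_pos.mp hw0
  by_cases hu : 1 / 4 ≤ |u|
  · have hu0 : 0 < |u| := by linarith only [hu]
    have hune : u ≠ 0 := abs_pos.mp hu0
    have h1 : etaz u / u - etaz w / w = (etaz u - etaz w) / u + etaz w * (w - u) / (u * w) := by
      field_simp; ring
    rw [h1]
    have h2 : |(etaz u - etaz w) / u| ≤ 24 * |u - w| := by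
      rw [abs_div, div_le_iff₀ hu0]
      have := etaz_lip u w
      nlinarith only [abs_nonneg (u - w), hu, this]
    have h3 : |etaz w * (w - u) / (u * w)| ≤ 16 * |u - w| := by
      rw [abs_div, abs_mul, abs_mul, div_le_iff₀ (by positivity), abs_sub_comm w u]
      have h4 := etaz_le w
      have h5 : 1 / 16 ≤ |u| * |w| := by nlinarith only [hw, hu]
      have h6 : |etaz w| * |u - w| ≤ 1 * |u - w| := by (clear * - h4; gcongr)
      nlinarith only [abs_nonneg (u - w), h5, h6]
    calc _ ≤ |(etaz u - etaz w) / u| + |etaz w * (w - u) / (u * w)| := abs_add_le _ _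
      _ ≤ 40 * |u - w| := by linarith only [h2, h3]
  · push Not at hu
    have h0 : etaz u = 0 := etaz_zero hu.le
    rw [h0, zero_div, zero_sub, abs_neg, abs_div, div_le_iff₀ hw0]
    have := etaz_lip w u
    rw [h0, sub_zero, abs_sub_comm w u] at this
    nlinarith only [abs_nonneg (u - w), hw, this]

lemma etaz_div_lip (u w : ℝ) : |etaz u / u - etaz w / w| ≤ 40 * |u - w| := by
  by_cases hw : 1 / 4 ≤ |w|
  · exact etaz_div_lip_aux hw
  · by_cases hu : 1 / 4 ≤ |u|
    · rw [abs_sub_comm, abs_sub_comm u w]; exact etaz_div_lip_aux hu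
    · push Not at hw hu
      rw [etaz_zero hw.le, etaz_zero hu.le]; simp only [zero_div, sub_self, abs_zero, Nat.ofNat_pos, mul_nonneg_iff_of_pos_left, abs_nonneg]

lemma eta_lip {L : ℝ} (hL : 0 < L) (t s : ℝ) : |eta L t - eta L s| ≤ 40 / L ^ 2 * |t - s| := by
  have h1 : ∀ t : ℝ, eta L t = L⁻¹ * (etaz (t / L) / (t / L)) := by
    intro t
    rw [eta_eq]
    by_cases ht : t = 0
    · subst ht; simp
    · field_simp
  rw [h1, h1, ← mul_sub, abs_mul, abs_of_pos (inv_pos.mpr hL)]
  have h2 := etaz_div_lip (t / L) (s / L)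
  rw [← sub_div, abs_div, abs_of_pos hL] at h2
  calc L⁻¹ * |etaz (t / L) / (t / L) - etaz (s / L) / (s / L)| ≤ L⁻¹ * (40 * (|t - s| / L)) := by
        gcongr
    _ = 40 / L ^ 2 * |t - s| := by field_simp

lemma continuous_eta {L : ℝ} (hL : 0 < L) : Continuous (eta L) := by
  have h : LipschitzWith (40 / L ^ 2).toNNReal (eta L) := by
    apply LipschitzWith.of_dist_le_mul
    intro t s
    rw [Real.dist_eq, Real.dist_eq, Real.coe_toNNReal _ (by positivity)]
    exact eta_lip hL t s
  exact h.continuous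

lemma hasCompactSupport_eta {L : ℝ} (hL : 0 < L) : HasCompactSupport (eta L) := by
  apply HasCompactSupport.intro (isCompact_Icc (a := -L) (b := L))
  intro t ht
  apply eta_eq_zero hL
  by_contra hcon
  push Not at hcon
  rw [abs_lt] at hcon
  exact ht ⟨hcon.1.le, hcon.2.le⟩

lemma integrable_eta {L : ℝ} (hL : 0 < L) : Integrable (eta L) :=
  (continuous_eta hL).integrable_of_hasCompactSupport (hasCompactSupport_eta hL)

/-- a general bound for integrands supported in an interval -/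
lemma lintegral_le_of_supp {f : ℝ → ℝ} {a b : ℝ} (hb : 0 ≤ b)
    (h1 : ∀ t, |f t| ≤ b) (h2 : ∀ t, a < |t| → f t = 0) :
    ∫⁻ t : ℝ, ‖f t‖ₑ ≤ ENNReal.ofReal (b * (2 * a)) := by
  calc ∫⁻ t : ℝ, ‖f t‖ₑ ≤ ∫⁻ t : ℝ, (Icc (-a) a).indicator (fun _ => ENNReal.ofReal b) t := by
        apply lintegral_mono
        intro t
        by_cases ht : t ∈ Icc (-a) a
        · rw [indicator_of_mem ht]
          dsimp only
          rw [Real.enorm_eq_ofReal_abs]
          exact ENNReal.ofReal_le_ofReal (h1 t)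
        · rw [indicator_of_notMem ht]
          have : a < |t| := by
            by_contra hcon
            push Not at hcon
            rw [abs_le] at hcon
            exact ht hcon
          simp [h2 t this]
    _ = ENNReal.ofReal b * ENNReal.ofReal (2 * a) := by
        rw [lintegral_indicator measurableSet_Icc, setLIntegral_const, Real.volume_Icc]
        congr 2; ring
    _ = ENNReal.ofReal (b * (2 * a)) := by rw [ENNReal.ofReal_mul hb]

lemma lintegral_eta_le {L : ℝ} (hL : 0 < L) : ∫⁻ t : ℝ, ‖eta L t‖ₑ ≤ 8 := by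
  have h := lintegral_le_of_supp (f := eta L) (a := L) (by positivity : (0:ℝ) ≤ 4 / L)
    (fun t => eta_bound hL t) (fun t ht => eta_eq_zero hL ht.le)
  have h2 : 4 / L * (2 * L) = 8 := by field_simp; norm_num
  rw [h2] at h
  refine h.trans ?_
  norm_num

lemma integral_eta (L : ℝ) : ∫ t : ℝ, eta L t = 0 := by
  have h1 : ∫ t : ℝ, eta L (-t) = ∫ t : ℝ, eta L t := integral_neg_eq_self (eta L) volume
  have h2 : ∫ t : ℝ, eta L (-t) = - ∫ t : ℝ, eta L t := by
    rw [← integral_neg]; congr 1; ext t; exact eta_neg L t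
  linarith only [h1, h2]

/-- Mass of the difference of a translate of `eta L`. -/
lemma lintegral_eta_shift_le {L s : ℝ} (hL : 0 < L) (hs : |s| ≤ L) :
    ∫⁻ t : ℝ, ‖eta L (t + s) - eta L t‖ₑ ≤ ENNReal.ofReal (160 * |s| / L) := by
  have h := lintegral_le_of_supp (f := fun t => eta L (t + s) - eta L t) (a := 2 * L)
    (b := 40 / L ^ 2 * |s|) (by positivity) ?_ ?_
  · refine h.trans (ENNReal.ofReal_le_ofReal ?_)
    apply le_of_eq
    field_simp
    ring
  · intro t
    have := eta_lip hL (t + s) t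
    rwa [add_sub_cancel_left] at this
  · intro t ht
    have h1 : L ≤ |t| := by linarith only [hL, ht]
    have h2 : L ≤ |t + s| := by
      have := abs_sub_abs_le_abs_sub t (-s)
      rw [sub_neg_eq_add, abs_neg] at this
      linarith
    rw [eta_eq_zero hL h1, eta_eq_zero hL h2, sub_zero]

/-- Telescoping of the kernel pieces at the scales `(1/2)^l`. -/
lemma sum_eta (l0 n : ℕ) (t : ℝ) :
    ∑ l ∈ Finset.range n, eta ((1 / 2) ^ (l0 + l)) t =
      (chi (2 ^ l0 * t) - chi (2 ^ (l0 + n) * t)) / t := by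
  have h1 : ∀ l : ℕ, eta ((1 / 2) ^ (l0 + l)) t =
      (chi (2 ^ (l0 + l) * t) - chi (2 ^ (l0 + (l + 1)) * t)) / t := by
    intro l
    unfold eta
    have h2 : t / (1 / 2) ^ (l0 + l) = 2 ^ (l0 + l) * t := by
      rw [one_div, inv_pow, div_inv_eq_mul, mul_comm]
    rw [h2]
    congr 3
    rw [← add_assoc, pow_succ]; ring
  rw [Finset.sum_congr rfl (fun l _ => h1 l), ← Finset.sum_div]
  congr 1
  rw [Finset.sum_range_sub' (fun l => chi (2 ^ (l0 + l) * t)) n]
  simp only [add_zero]

end Vale.Agent.P112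
end

section

/-! Task P112-FT02: properties of `bump`. -/

namespace Vale.Agent.P112

open MeasureTheory Filter Topology Set
open scoped ENNReal NNReal

/-- the cone -/
noncomputable def bumpc (h : Plane) : ℝ := max 0 (1 - ‖h‖)

lemma bumpc_continuous : Continuous bumpc := by
  unfold bumpc; fun_prop

lemma bumpc_nonneg (h : Plane) : 0 ≤ bumpc h := le_max_left _ _

lemma bumpc_eq_zero {h : Plane} (hh : 1 ≤ ‖h‖) : bumpc h = 0 :=
  max_eq_left (by linarith)

lemma bumpc_hasCompactSupport : HasCompactSupport bumpc := by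
  apply HasCompactSupport.intro (isCompact_closedBall (0 : Plane) 1)
  intro h hh
  apply bumpc_eq_zero
  rw [Metric.mem_closedBall, dist_zero_right, not_le] at hh
  exact hh.le

lemma bumpc_integral_pos : 0 < ∫ k : Plane, bumpc k := by
  apply Continuous.integral_pos_of_hasCompactSupport_nonneg_nonzero (x := (0 : Plane))
    bumpc_continuous bumpc_hasCompactSupport
  · intro h; exact bumpc_nonneg h
  · unfold bumpc; simp only [norm_zero, sub_zero, zero_le_one, sup_of_le_right, ne_eq, one_ne_zero, not_false_eq_true]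

lemma bump_eq (h : Plane) : bump h = (∫ k : Plane, bumpc k)⁻¹ * bumpc h := rfl

lemma bump_nonneg (h : Plane) : 0 ≤ bump h := by
  rw [bump_eq]
  have := bumpc_integral_pos
  exact mul_nonneg (inv_nonneg.mpr this.le) (bumpc_nonneg h)

lemma bump_neg (h : Plane) : bump (-h) = bump h := by
  unfold bump; rw [norm_neg]

lemma bump_zero_out {h : Plane} (hh : 1 ≤ ‖h‖) : bump h = 0 := by
  rw [bump_eq, bumpc_eq_zero hh, mul_zero]

lemma continuous_bump : Continuous bump := by
  have : bump = fun h => (∫ k : Plane, bumpc k)⁻¹ * bumpc h := rfl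
  rw [this]
  exact continuous_const.mul bumpc_continuous

lemma hasCompactSupport_bump : HasCompactSupport bump := by
  apply HasCompactSupport.intro (isCompact_closedBall (0 : Plane) 1)
  intro h hh
  apply bump_zero_out
  rw [Metric.mem_closedBall, dist_zero_right, not_le] at hh
  exact hh.le

lemma integrable_bump : Integrable bump :=
  continuous_bump.integrable_of_hasCompactSupport hasCompactSupport_bump

lemma integral_bump : ∫ h : Plane, bump h = 1 := by
  have : ∀ h, bump h = (∫ k : Plane, bumpc k)⁻¹ * bumpc h := fun h => rfl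
  simp_rw [this]
  rw [integral_const_mul]
  exact inv_mul_cancel₀ bumpc_integral_pos.ne'

lemma lintegral_bump : ∫⁻ h : Plane, ‖bump h‖ₑ = 1 := by
  have h1 : ∫⁻ h : Plane, ‖bump h‖ₑ = ENNReal.ofReal (∫ h : Plane, ‖bump h‖) := by
    rw [ofReal_integral_norm_eq_lintegral_enorm integrable_bump]
  rw [h1]
  have h2 : ∀ h : Plane, ‖bump h‖ = bump h := fun h => by
    rw [Real.norm_eq_abs, abs_of_nonneg (bump_nonneg h)]
  simp_rw [h2]
  rw [integral_bump, ENNReal.ofReal_one]

lemma exists_bump_bound : ∃ B : ℝ≥0, (∀ h, bump h ≤ B) ∧ LipschitzWith B bump := by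
  have hpos : 0 < (∫ k : Plane, bumpc k)⁻¹ := inv_pos.mpr bumpc_integral_pos
  refine ⟨((∫ k : Plane, bumpc k)⁻¹).toNNReal, ?_, ?_⟩
  · intro h
    rw [Real.coe_toNNReal _ hpos.le, bump_eq]
    have : bumpc h ≤ 1 := max_le (by norm_num) (by linarith only [norm_nonneg h])
    calc _ ≤ (∫ k : Plane, bumpc k)⁻¹ * 1 := by gcongr
      _ = _ := mul_one _
  · apply LipschitzWith.of_dist_le_mul
    intro h k
    rw [Real.coe_toNNReal _ hpos.le, Real.dist_eq, bump_eq, bump_eq, ← mul_sub, abs_mul,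
      abs_of_pos hpos]
    gcongr
    unfold bumpc
    have h1 := abs_max_sub_max_le_max (0:ℝ) (1 - ‖h‖) 0 (1 - ‖k‖)
    rw [sub_self, abs_zero] at h1
    refine h1.trans ?_
    apply max_le (by positivity)
    have h2 : (1 - ‖h‖) - (1 - ‖k‖) = ‖k‖ - ‖h‖ := by ring
    rw [h2, dist_comm, dist_eq_norm]
    exact abs_norm_sub_norm_le k h

end Vale.Agent.P112
end

section

/-! Task P112-FT09: elementary properties of `turn` and `DD`. -/

namespace Vale.Agent.P112

open MeasureTheory Filter Topology Set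
open scoped ENNReal NNReal

lemma turn_nonneg (v : Plane → Plane) (x : Plane) (s : ℝ) : 0 ≤ turn v x s := norm_nonneg _

lemma turn_lip_v {v : Plane → Plane} (hvl : LipschitzWith 1 v) (x y : Plane) :
    ‖v x - v y‖ ≤ ‖x - y‖ := by
  have := hvl.dist_le_mul x y
  rwa [NNReal.coe_one, one_mul, dist_eq_norm, dist_eq_norm] at this

lemma turn_le {v : Plane → Plane} (hvl : LipschitzWith 1 v) (hvu : ∀ x, ‖v x‖ = 1) (x : Plane)
    (s : ℝ) : turn v x s ≤ |s| := by
  unfold turn
  refine (turn_lip_v hvl _ _).trans ?_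
  rw [add_sub_cancel_left, norm_smul, hvu, mul_one, Real.norm_eq_abs]

lemma continuous_turn {v : Plane → Plane} (hvl : LipschitzWith 1 v) (x : Plane) :
    Continuous (turn v x) := by
  unfold turn
  have h := hvl.continuous
  fun_prop

/-- The turning depends on the base point in a Lipschitz way. -/
lemma abs_turn_sub_le {v : Plane → Plane} (hvl : LipschitzWith 1 v) (x y : Plane) (s : ℝ) :
    |turn v x s - turn v y s| ≤ (2 + |s|) * ‖x - y‖ := by
  unfold turn
  have h1 := abs_norm_sub_norm_le (v (x + s • v x) - v x) (v (y + s • v y) - v y)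
  have h2 : v (x + s • v x) - v x - (v (y + s • v y) - v y) =
      (v (x + s • v x) - v (y + s • v y)) - (v x - v y) := by abel
  rw [h2] at h1
  have h3 := norm_sub_le (v (x + s • v x) - v (y + s • v y)) (v x - v y)
  have h4 := turn_lip_v hvl x y
  have h5 := turn_lip_v hvl (x + s • v x) (y + s • v y)
  have h6 : x + s • v x - (y + s • v y) = (x - y) + s • (v x - v y) := by
    rw [smul_sub]; abel
  rw [h6] at h5
  have h7 := norm_add_le (x - y) (s • (v x - v y))
  rw [norm_smul, Real.norm_eq_abs] at h7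
  have h8 : |s| * ‖v x - v y‖ ≤ |s| * ‖x - y‖ := by (clear * - h4; gcongr)
  linarith

lemma DD_nonneg (v : Plane → Plane) {L : ℝ} (hL : 0 ≤ L) (x : Plane) : 0 ≤ DD v L x := by
  unfold DD
  apply intervalIntegral.integral_nonneg (by linarith)
  intro s _
  exact turn_nonneg v x s

lemma DD_le {v : Plane → Plane} (hvl : LipschitzWith 1 v) (hvu : ∀ x, ‖v x‖ = 1) {L : ℝ}
    (hL : 0 ≤ L) (x : Plane) : DD v L x ≤ L ^ 2 := by
  unfold DD
  have h1 : ∫ s in (-L)..L, turn v x s ≤ ∫ s in (-L)..L, |s| := by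
    apply intervalIntegral.integral_mono_on (by linarith only [hL])
      ((continuous_turn hvl x).intervalIntegrable _ _) (continuous_abs.intervalIntegrable _ _)
    intro s _
    exact turn_le hvl hvu x s
  have h2 : ∫ s in (-L)..L, |s| = L ^ 2 := by
    have h3 : ∫ s in (-L)..L, |s| = (∫ s in (-L)..0, |s|) + ∫ s in (0:ℝ)..L, |s| :=
      (intervalIntegral.integral_add_adjacent_intervals (continuous_abs.intervalIntegrable _ _)
        (continuous_abs.intervalIntegrable _ _)).symm
    have h4 : ∫ s in (0:ℝ)..L, |s| = L ^ 2 / 2 := by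
      have : ∫ s in (0:ℝ)..L, |s| = ∫ s in (0:ℝ)..L, s := by
        apply intervalIntegral.integral_congr
        intro s hs
        rw [uIcc_of_le hL] at hs
        exact abs_of_nonneg hs.1
      rw [this, integral_id]; ring
    have h5 : ∫ s in (-L)..0, |s| = L ^ 2 / 2 := by
      have : ∫ s in (-L)..0, |s| = ∫ s in (-L)..0, -s := by
        apply intervalIntegral.integral_congr
        intro s hs
        rw [uIcc_of_le (by linarith only [hL])] at hs
        exact abs_of_nonpos hs.2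
      rw [this, intervalIntegral.integral_neg, integral_id]; ring
    rw [h3, h4, h5]; ring
  linarith

lemma DD_lip {v : Plane → Plane} (hvl : LipschitzWith 1 v) {L : ℝ}
    (hL : 0 ≤ L) (hL1 : L ≤ 1) (x y : Plane) : |DD v L x - DD v L y| ≤ 6 * L * ‖x - y‖ := by
  unfold DD
  rw [← intervalIntegral.integral_sub ((continuous_turn hvl x).intervalIntegrable _ _)
    ((continuous_turn hvl y).intervalIntegrable _ _)]
  have h := intervalIntegral.norm_integral_le_of_norm_le_const (a := -L) (b := L)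
    (C := 3 * ‖x - y‖) (f := fun s => turn v x s - turn v y s) ?_
  · rw [Real.norm_eq_abs] at h
    refine h.trans (le_of_eq ?_)
    rw [sub_neg_eq_add, abs_of_nonneg (by linarith only [hL])]
    ring
  · intro s hs
    rw [uIoc_of_le (by linarith only [hL])] at hs
    rw [Real.norm_eq_abs]
    refine (abs_turn_sub_le hvl x y s).trans ?_
    have : |s| ≤ 1 := by rw [abs_le]; constructor <;> linarith only [hL1, hs.1, hs.2]
    gcongr
    linarith only [this]

/-- attained maximum of the turning on `[-r, r]` -/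
lemma turn_exists_max {v : Plane → Plane} (hvl : LipschitzWith 1 v) (x : Plane) {r : ℝ}
    (hr : 0 ≤ r) : ∃ s' : ℝ, |s'| ≤ r ∧ ∀ s, |s| ≤ r → turn v x s ≤ turn v x s' := by
  obtain ⟨s', hs', hmax⟩ := isCompact_Icc.exists_isMaxOn (s := Icc (-r) r) ⟨0, by simp only [mem_Icc, Left.neg_nonpos_iff, hr, and_self]⟩
    (continuous_turn hvl x).continuousOn
  refine ⟨s', abs_le.mpr hs', fun s hs => ?_⟩
  exact hmax (abs_le.mp hs)

/-- volume of a symmetric interval minus a set -/
lemma turn_volume_aux {r : ℝ} : volume {s : ℝ | |s| ≤ r} = ENNReal.ofReal (2 * r) := by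
  have : {s : ℝ | |s| ≤ r} = Icc (-r) r := by
    ext s; simp only [abs_le, mem_ofPred_eq, mem_Icc]
  rw [this, Real.volume_Icc]; congr 1; ring

/-- lower bound for the average turning -/
lemma turn_lower {v : Plane → Plane} (hvl : LipschitzWith 1 v) (x : Plane) {K β L d s' : ℝ}
    (hft : FiniteType v K β) (hL : 0 < L) (hL1 : L ≤ 1) (hd : 0 < d) (hd1 : d ≤ 1)
    (hKd : K * d ^ β ≤ 1) (hs' : |s'| ≤ L) :
    d * L * turn v x s' ≤ DD v L x := by
  set T := turn v x s' with hT
  have hT0 : 0 ≤ T := turn_nonneg v x s'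
  have hsub := hft.sublevel x L d s' hL hL1 hd hd1 hs'
  set B := {s : ℝ | |s| ≤ L ∧ turn v x s < d * T} with hB
  have hBm : MeasurableSet B := by
    apply MeasurableSet.inter
    · exact measurableSet_le measurable_id.abs measurable_const
    · exact measurableSet_lt (continuous_turn hvl x).measurable measurable_const
  have hBvol : volume B ≤ ENNReal.ofReal L := by
    refine hsub.trans (ENNReal.ofReal_le_ofReal ?_)
    nlinarith only [hL, hKd]
  set I := Icc (-L) L with hI
  have hIvol : volume I = ENNReal.ofReal (2 * L) := by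
    rw [hI, Real.volume_Icc]; congr 1; ring
  have hdiff : ENNReal.ofReal L ≤ volume (I \ B) := by
    have h1 : volume I ≤ volume (I \ B) + volume B := by
      calc volume I ≤ volume ((I \ B) ∪ B) := measure_mono (by
            intro s hs; by_cases h : s ∈ B
            · exact Or.inr h
            · exact Or.inl ⟨hs, h⟩)
        _ ≤ _ := measure_union_le _ _
    rw [hIvol] at h1
    have h2 : ENNReal.ofReal (2 * L) = ENNReal.ofReal L + ENNReal.ofReal L := by
      rw [← ENNReal.ofReal_add hL.le hL.le]; congr 1; ring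
    rw [h2] at h1
    have h3 : ENNReal.ofReal L + ENNReal.ofReal L ≤ volume (I \ B) + ENNReal.ofReal L :=
      h1.trans (by (clear * - hBvol; gcongr))
    exact (ENNReal.add_le_add_iff_right ENNReal.ofReal_ne_top).mp h3
  have hDD : DD v L x = ∫ s in I, turn v x s := by
    unfold DD
    rw [intervalIntegral.integral_of_le (by linarith only [hL]), integral_Icc_eq_integral_Ioc]
  rw [hDD]
  have hint : IntegrableOn (turn v x) I := (continuous_turn hvl x).continuousOn.integrableOn_Icc
  calc d * L * T = (d * T) * L := by ring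
    _ ≤ (d * T) * (volume (I \ B)).toReal := by
        gcongr
        have h4 : (ENNReal.ofReal L).toReal ≤ (volume (I \ B)).toReal := by
          apply ENNReal.toReal_mono _ hdiff
          exact ((measure_mono sdiff_subset).trans_lt (by rw [hIvol]; exact ENNReal.ofReal_lt_top)).ne
        rwa [ENNReal.toReal_ofReal hL.le] at h4
    _ = ∫ s in I \ B, d * T := by
        rw [setIntegral_const, smul_eq_mul, mul_comm]; rfl
    _ ≤ ∫ s in I \ B, turn v x s := by
        apply setIntegral_mono_on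
        · refine integrableOn_const ?_ enorm_ne_top
          exact ((measure_mono sdiff_subset).trans_lt (by rw [hIvol]; exact ENNReal.ofReal_lt_top)).ne
        · exact hint.mono_set sdiff_subset
        · exact measurableSet_Icc.diff hBm
        · intro s hs
          by_contra hcon
          push Not at hcon
          exact hs.2 ⟨abs_le.mpr hs.1, hcon⟩
    _ ≤ ∫ s in I, turn v x s := by
        apply setIntegral_mono_set hint
        · filter_upwards with s; exact turn_nonneg v x s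
        · exact sdiff_subset.eventuallyLE

/-- doubling of the maximal turning -/
lemma turn_doubling {v : Plane → Plane} (x : Plane) {K β L d s' : ℝ}
    (hft : FiniteType v K β) (hL : 0 < L) (hL1 : L ≤ 1 / 8) (hd : 0 < d) (hd1 : d ≤ 1)
    (hKd : K * d ^ β * 8 ≤ 1) (hs' : |s'| ≤ 8 * L) :
    ∃ s, |s| ≤ L ∧ d * turn v x s' ≤ turn v x s := by
  by_contra hcon
  push Not at hcon
  have hsub := hft.sublevel x (8 * L) d s' (by linarith only [hL]) (by linarith only [hL1]) hd hd1 hs'
  have h1 : volume {s : ℝ | |s| ≤ L} ≤ volume {s : ℝ | |s| ≤ 8 * L ∧ turn v x s < d * turn v x s'} := by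
    apply measure_mono
    intro s hs
    have hs1 : |s| ≤ L := hs
    exact ⟨by linarith only [hL, hs1], hcon s hs1⟩
  rw [turn_volume_aux] at h1
  have h2 := h1.trans hsub
  rw [ENNReal.ofReal_le_ofReal_iff'] at h2
  rcases h2 with h2 | h2 <;> nlinarith only [h2, hL, hKd]

/-- Finite type fields are good at every point and every scale `L ≤ 1/8`. -/
theorem good_of_finiteType (K β : ℝ) (hK : 1 ≤ K) (hβ : 0 < β) (hβ1 : β ≤ 1) :
    ∃ C₁ : ℝ, 1 ≤ C₁ ∧ ∀ v : Plane → Plane, LipschitzWith 1 v → (∀ x, ‖v x‖ = 1) →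
      FiniteType v K β → ∀ L : ℝ, 0 < L → L ≤ 1 / 8 → ∀ x, Good v L C₁ β x := by
  -- choose `d` with `8 K d^β = 1`
  set d : ℝ := (8 * K)⁻¹ ^ (1 / β) with hd
  have hK8 : 0 < (8 * K)⁻¹ := by positivity
  have hd0 : 0 < d := Real.rpow_pos_of_pos hK8 _
  have hd1 : d ≤ 1 := Real.rpow_le_one hK8.le (inv_le_one_of_one_le₀ (by linarith only [hK])) (by positivity)
  have hdβ : d ^ β = (8 * K)⁻¹ := by
    rw [hd, ← Real.rpow_mul hK8.le, one_div, inv_mul_cancel₀ hβ.ne', Real.rpow_one]
  have hKd : K * d ^ β = 1 / 8 := by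
    rw [hdβ]; (clear * - hK; field_simp)
  refine ⟨8 * K / d ^ 2, ?_, ?_⟩
  · rw [le_div_iff₀ (by positivity)]
    nlinarith only [hK, hd0, hd1]
  intro v hvl hvu hft L hL hL8 x
  have hlow : ∀ s', |s'| ≤ L → turn v x s' ≤ DD v L x / L / d := by
    intro s' hs'
    have := turn_lower hvl x hft hL (by linarith only [hL8]) hd0 hd1 (by linarith only [hKd]) hs'
    rw [le_div_iff₀ hd0, le_div_iff₀ hL]
    linarith only [this]
  have hQ0 : 0 ≤ DD v L x / L := div_nonneg (DD_nonneg v hL.le x) hL.le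
  set Q := DD v L x / L with hQ
  constructor
  · intro s hs
    obtain ⟨s1, hs1, h1⟩ := turn_doubling x hft hL hL8 hd0 hd1 (by linarith only [hKd]) hs
    have h2 := hlow s1 hs1
    have h3 : turn v x s ≤ Q / d / d := by
      rw [le_div_iff₀ hd0]; linarith only [h1, h2]
    refine h3.trans ?_
    rw [div_div, div_mul_eq_mul_div, ← sq, div_le_div_iff_of_pos_right (by positivity)]
    nlinarith only [hK, hQ0]
  · intro s hs
    obtain ⟨s1, hs1, h1⟩ := hft.growth x L s hL (by linarith only [hL8]) hs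
    have h2 := hlow s1 hs1
    have hp : 0 ≤ (|s| / L) ^ β := by (clear * - hL; positivity)
    calc turn v x s ≤ K * (|s| / L) ^ β * turn v x s1 := h1
      _ ≤ K * (|s| / L) ^ β * (Q / d) := by (clear * - h2 hK hL; gcongr)
      _ ≤ 8 * K / d ^ 2 * (|s| / L) ^ β * Q := by
          have h5 : K * (|s| / L) ^ β * (Q / d) = (K / d) * ((|s| / L) ^ β * Q) := by ring
          have h6 : 8 * K / d ^ 2 * (|s| / L) ^ β * Q = (8 * K / d ^ 2) * ((|s| / L) ^ β * Q) := by ring
          rw [h5, h6]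
          apply mul_le_mul_of_nonneg_right _ (by (clear * - hL hQ0; positivity))
          rw [div_le_div_iff₀ hd0 (by positivity)]
          have : K * d ^ 2 ≤ K * d := by nlinarith only [hK8, hd0, hd1, hdβ, hKd]
          nlinarith only [hK, this]
  · intro ε hε
    obtain ⟨s1, hs1, hmax⟩ := turn_exists_max hvl x (r := 2 * L) (by linarith only [hL])
    have hDDle : Q ≤ 2 * turn v x s1 := by
      rw [hQ, div_le_iff₀ hL]
      unfold DD
      have h := intervalIntegral.integral_mono_on (a := -L) (b := L) (by linarith only [hL])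
        ((continuous_turn hvl x).intervalIntegrable _ _)
        (continuous_const.intervalIntegrable (μ := volume) _ _)
        (g := fun _ => turn v x s1) (fun s hs => hmax s (by
          rw [abs_le]; constructor <;> linarith only [hs.1, hs.2, hL]))
      rw [intervalIntegral.integral_const, smul_eq_mul] at h
      linarith only [h]
    have hC : 8 * K ≤ 8 * K / d ^ 2 := by
      rw [le_div_iff₀ (by (clear * - hK; positivity))]
      have : d ^ 2 ≤ 1 := by nlinarith only [hd0, hd1]
      nlinarith only [hK, this]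
    have hεβ : 0 < ε ^ β := Real.rpow_pos_of_pos hε _
    by_cases h2ε : 2 * ε ≤ 1
    · calc volume {s : ℝ | |s| ≤ 2 * L ∧ turn v x s < ε * Q}
          ≤ volume {s : ℝ | |s| ≤ 2 * L ∧ turn v x s < 2 * ε * turn v x s1} := by
            apply measure_mono
            intro s hs
            refine ⟨hs.1, lt_of_lt_of_le hs.2 ?_⟩
            nlinarith only [hε, hDDle]
        _ ≤ ENNReal.ofReal (K * (2 * ε) ^ β * (2 * L)) :=
            hft.sublevel x (2 * L) (2 * ε) s1 (by linarith only [hL]) (by linarith only [hL, hL8]) (by linarith only [hε]) h2ε hs1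
        _ ≤ ENNReal.ofReal (8 * K / d ^ 2 * ε ^ β * L) := by
            apply ENNReal.ofReal_le_ofReal
            rw [Real.mul_rpow (by norm_num) hε.le]
            have h2β : (2 : ℝ) ^ β ≤ 2 := by
              calc (2 : ℝ) ^ β ≤ 2 ^ (1 : ℝ) := Real.rpow_le_rpow_of_exponent_le (by norm_num) hβ1
                _ = 2 := Real.rpow_one 2
            calc K * (2 ^ β * ε ^ β) * (2 * L) ≤ K * (2 * ε ^ β) * (2 * L) := by (clear * - h2β hε hK hL; gcongr)
              _ = (4 * K) * (ε ^ β * L) := by ring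
              _ ≤ (8 * K / d ^ 2) * (ε ^ β * L) := by gcongr; linarith only [hK, hC]
              _ = _ := by ring
    · push Not at h2ε
      calc volume {s : ℝ | |s| ≤ 2 * L ∧ turn v x s < ε * Q}
          ≤ volume {s : ℝ | |s| ≤ 2 * L} := measure_mono (fun s hs => hs.1)
        _ = ENNReal.ofReal (2 * (2 * L)) := turn_volume_aux
        _ ≤ ENNReal.ofReal (8 * K / d ^ 2 * ε ^ β * L) := by
            apply ENNReal.ofReal_le_ofReal
            have h3 : 1 / 2 ≤ ε ^ β := by
              have h4 : (1 / 2 : ℝ) ^ β ≤ ε ^ β :=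
                Real.rpow_le_rpow (by norm_num) (by linarith only [h2ε]) hβ.le
              have h5 : (1 / 2 : ℝ) ^ (1 : ℝ) ≤ (1 / 2) ^ β :=
                Real.rpow_le_rpow_of_exponent_ge (by norm_num) (by norm_num) hβ1
              rw [Real.rpow_one] at h5
              linarith only [h4, h5]
            calc 2 * (2 * L) = 8 * (1 / 2) * L := by ring
              _ ≤ 8 * K / d ^ 2 * ε ^ β * L := by
                  have : (8 : ℝ) ≤ 8 * K / d ^ 2 := by linarith only [hK, hC]
                  (clear * - this h3 hK hL; gcongr)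

end Vale.Agent.P112
end

section

/-! The regularised kernel of `Tp - Tl`. -/

namespace Vale.Agent.P112

open MeasureTheory Filter Topology Set
open scoped ENNReal NNReal

/-- The bump rescaled to the ball of radius `ρ`, of integral one. -/
noncomputable def bumpr (ρ : ℝ) (z : Plane) : ℝ := (ρ ^ 2)⁻¹ * bump (ρ⁻¹ • z)

/-- The regularised kernel of `Tp - Tl` at scale `L`, with mollification radius `θ 𝓓_L(x)` and
regularisation radius `ρ`. -/
noncomputable def kern (v : Plane → Plane) (θ L ρ : ℝ) (x z : Plane) : ℝ :=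
  ∫ h : Plane, bump h * ∫ t : ℝ, eta L t *
    (bumpr ρ (x - t • v x - z) - bumpr ρ (x - t • v x - (θ * DD v L x) • h - z))

end Vale.Agent.P112
end
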