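import Vale.Agent.P112.Bdl.B2
attribute [-instance] ProperSMul.toContinuousSMul IsTopologicalTorsor.toContinuousSMul IdemSemiring.toCanonicallyOrderedAdd IdemSemiring.toMulLeftMono IdemSemiring.toMulRightMono AddQuantale.instAddLeftMono AddQuantale.instAddRightMono Quantale.instMulLeftMono Quantale.instMulRightMono FiniteDimensional.rclike_to_real IsScalarTower.complexToReal FiniteDimensional.complexToReal

set_option linter.all false

attribute [local instance] Vale.Agent.P112.SC.i0 Vale.Agent.P112.SC.i1 Vale.Agent.P112.SC.i2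
  Vale.Agent.P112.SC.i3 Vale.Agent.P112.SC.i4 Vale.Agent.P112.SC.i5 Vale.Agent.P112.SC.i6
  Vale.Agent.P112.SC.i7

section

/-! Task P112-FT15: properties of the rescaled bump and of the kernel. -/

namespace Vale.Agent.P112

open MeasureTheory Filter Topology Set
open scoped ENNReal NNReal

lemma bumpr_nonneg {ρ : ℝ} (hρ : 0 < ρ) (z : Plane) : 0 ≤ bumpr ρ z := by
  unfold bumpr
  exact mul_nonneg (by positivity) (bump_nonneg _)

lemma bumpr_eq_zero {ρ : ℝ} (hρ : 0 < ρ) {z : Plane} (hz : ρ ≤ ‖z‖) : bumpr ρ z = 0 := by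
  unfold bumpr
  rw [bump_zero_out, mul_zero]
  rw [norm_smul, norm_inv, Real.norm_eq_abs, abs_of_pos hρ, inv_mul_eq_div, le_div_iff₀ hρ]
  linarith only [hz]

lemma bumpr_neg (ρ : ℝ) (z : Plane) : bumpr ρ (-z) = bumpr ρ z := by
  unfold bumpr
  rw [smul_neg, bump_neg]

lemma continuous_bumpr (ρ : ℝ) : Continuous (bumpr ρ) := by
  unfold bumpr
  exact continuous_const.mul (continuous_bump.comp (by (clear * -; fun_prop)))

lemma hasCompactSupport_bumpr {ρ : ℝ} (hρ : 0 < ρ) : HasCompactSupport (bumpr ρ) := by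
  apply HasCompactSupport.intro (isCompact_closedBall (0 : Plane) ρ)
  intro z hz
  rw [Metric.mem_closedBall, dist_zero_right, not_le] at hz
  exact bumpr_eq_zero hρ hz.le

lemma integrable_bumpr {ρ : ℝ} (hρ : 0 < ρ) : Integrable (bumpr ρ) :=
  (continuous_bumpr ρ).integrable_of_hasCompactSupport (hasCompactSupport_bumpr hρ)

lemma integral_bumpr {ρ : ℝ} (hρ : 0 < ρ) : ∫ z : Plane, bumpr ρ z = 1 := by
  unfold bumpr
  rw [integral_const_mul, Measure.integral_comp_inv_smul, integral_bump, finrank_euclideanSpace,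
    Fintype.card_fin, smul_eq_mul, mul_one, abs_of_pos (by positivity)]
  exact inv_mul_cancel₀ (by positivity)

lemma lintegral_bumpr {ρ : ℝ} (hρ : 0 < ρ) : ∫⁻ z : Plane, ‖bumpr ρ z‖ₑ = 1 := by
  rw [← ofReal_integral_norm_eq_lintegral_enorm (integrable_bumpr hρ)]
  have h2 : ∀ h : Plane, ‖bumpr ρ h‖ = bumpr ρ h := fun h => by
    rw [Real.norm_eq_abs, abs_of_nonneg (bumpr_nonneg hρ h)]
  simp_rw [h2]
  rw [integral_bumpr hρ, ENNReal.ofReal_one]

lemma bumpr_bound {ρ : ℝ} (hρ : 0 < ρ) : ∃ B : ℝ, ∀ z, |bumpr ρ z| ≤ B := by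
  obtain ⟨B, hB, -⟩ := exists_bump_bound
  refine ⟨(ρ ^ 2)⁻¹ * B, fun z => ?_⟩
  rw [abs_of_nonneg (bumpr_nonneg hρ z)]
  unfold bumpr
  have := hB (ρ⁻¹ • z)
  gcongr

lemma measurable_kern {v : Plane → Plane} (hvl : LipschitzWith 1 v) {θ L ρ : ℝ} (hL : 0 < L)
    (hL1 : L ≤ 1) (hρ : 0 < ρ) :
    Measurable (fun p : Plane × Plane => kern v θ L ρ p.1 p.2) := by
  have hvc := hvl.continuous
  have hDc : Continuous (DD v L) := by
    have h : LipschitzWith (6 * L).toNNReal (DD v L) := by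
      apply LipschitzWith.of_dist_le_mul
      intro x y
      rw [Real.dist_eq, dist_eq_norm, Real.coe_toNNReal _ (by positivity)]
      exact DD_lip hvl hL.le hL1 x y
    exact h.continuous
  have hc : Continuous (fun q : ((Plane × Plane) × Plane) × ℝ =>
      eta L q.2 * (bumpr ρ (q.1.1.1 - q.2 • v q.1.1.1 - q.1.1.2) -
        bumpr ρ (q.1.1.1 - q.2 • v q.1.1.1 - (θ * DD v L q.1.1.1) • q.1.2 - q.1.1.2))) := by
    have hb := continuous_bumpr ρ
    have he := continuous_eta hL
    fun_prop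
  have h1 : StronglyMeasurable (fun q : (Plane × Plane) × Plane => ∫ t : ℝ, eta L t *
    (bumpr ρ (q.1.1 - t • v q.1.1 - q.1.2) -
      bumpr ρ (q.1.1 - t • v q.1.1 - (θ * DD v L q.1.1) • q.2 - q.1.2))) :=
    hc.stronglyMeasurable.integral_prod_right
  have h2 : StronglyMeasurable (fun q : (Plane × Plane) × Plane => bump q.2 * ∫ t : ℝ, eta L t *
    (bumpr ρ (q.1.1 - t • v q.1.1 - q.1.2) -
      bumpr ρ (q.1.1 - t • v q.1.1 - (θ * DD v L q.1.1) • q.2 - q.1.2))) :=
    (continuous_bump.comp continuous_snd).stronglyMeasurable.mul h1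
  exact h2.integral_prod_right.measurable

lemma kern_bound {v : Plane → Plane} {θ L ρ : ℝ} (hL : 0 < L) (hρ : 0 < ρ) :
    ∃ b : ℝ, ∀ x z, |kern v θ L ρ x z| ≤ b := by
  obtain ⟨B, hB⟩ := bumpr_bound hρ
  have hB0 : 0 ≤ B := (abs_nonneg _).trans (hB 0)
  refine ⟨(∫ t : ℝ, |eta L t| * (2 * B)), fun x z => ?_⟩
  set I := ∫ t : ℝ, |eta L t| * (2 * B) with hI
  have hin : ∀ h : Plane, |∫ t : ℝ, eta L t *
      (bumpr ρ (x - t • v x - z) - bumpr ρ (x - t • v x - (θ * DD v L x) • h - z))| ≤ I := by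
    intro h
    have := norm_integral_le_of_norm_le (μ := volume) (f := fun t : ℝ => eta L t *
      (bumpr ρ (x - t • v x - z) - bumpr ρ (x - t • v x - (θ * DD v L x) • h - z)))
      (g := fun t => |eta L t| * (2 * B)) ((integrable_eta hL).abs.mul_const _) (by
        filter_upwards with t
        rw [norm_mul, Real.norm_eq_abs, Real.norm_eq_abs]
        gcongr
        have h1 := hB (x - t • v x - z)
        have h2 := hB (x - t • v x - (θ * DD v L x) • h - z)
        have h3 := abs_sub (bumpr ρ (x - t • v x - z))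
          (bumpr ρ (x - t • v x - (θ * DD v L x) • h - z))
        linarith)
    exact this
  unfold kern
  have h2 := norm_integral_le_of_norm_le (μ := volume) (f := fun h : Plane => bump h * ∫ t : ℝ, eta L t *
      (bumpr ρ (x - t • v x - z) - bumpr ρ (x - t • v x - (θ * DD v L x) • h - z)))
      (g := fun h => bump h * I) (integrable_bump.mul_const _) (by
        filter_upwards with h
        rw [norm_mul, Real.norm_eq_abs, Real.norm_eq_abs, abs_of_nonneg (bump_nonneg h)]
        exact mul_le_mul_of_nonneg_left (hin h) (bump_nonneg h))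
  rw [integral_mul_const, integral_bump, one_mul] at h2
  exact h2

lemma kern_supp {v : Plane → Plane} (hvl : LipschitzWith 1 v) (hvu : ∀ x, ‖v x‖ = 1) {θ L ρ : ℝ}
    (hL : 0 < L) (hL1 : L ≤ 1 / 64) (hθ : 0 ≤ θ) (hθ1 : θ ≤ 1) (hρ : 0 < ρ) (hρ1 : ρ ≤ 1)
    (x z : Plane) (h : 3 < ‖x - z‖) : kern v θ L ρ x z = 0 := by
  unfold kern
  apply integral_eq_zero_of_ae
  filter_upwards with h'
  by_cases hb : bump h' = 0
  · simp only [hb, zero_mul, Pi.zero_apply]
  have hh1 : ‖h'‖ < 1 := by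
    by_contra hcon
    push Not at hcon
    exact hb (bump_zero_out hcon)
  have h0 : ∫ t : ℝ, eta L t *
      (bumpr ρ (x - t • v x - z) - bumpr ρ (x - t • v x - (θ * DD v L x) • h' - z)) = 0 := by
    apply integral_eq_zero_of_ae
    filter_upwards with t
    by_cases ht : eta L t = 0
    · simp [ht]
    have ht1 := (eta_supp hL ht).2
    have e1 : ‖x - z‖ ≤ ‖x - t • v x - z‖ + |t| := by
      have : x - z = (x - t • v x - z) + t • v x := by abel
      calc ‖x - z‖ = ‖(x - t • v x - z) + t • v x‖ := by rw [← this]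
        _ ≤ _ := by
          refine (norm_add_le _ _).trans ?_
          rw [norm_smul, hvu, mul_one, Real.norm_eq_abs]
    have hD0 := DD_nonneg v hL.le x
    have hD1 := DD_le hvl hvu hL.le x
    have e3 : ‖(θ * DD v L x) • h'‖ ≤ 1 := by
      rw [norm_smul, Real.norm_eq_abs, abs_of_nonneg (mul_nonneg hθ hD0)]
      calc θ * DD v L x * ‖h'‖ ≤ 1 * L ^ 2 * 1 := by (clear * - hθ1 hD1 hD0 hh1 hL; gcongr)
        _ ≤ 1 := by nlinarith only [hL, hL1]
    have e2 : ‖x - t • v x - z‖ ≤ ‖x - t • v x - (θ * DD v L x) • h' - z‖ + 1 := by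
      have : x - t • v x - z = (x - t • v x - (θ * DD v L x) • h' - z) + (θ * DD v L x) • h' := by abel
      calc ‖x - t • v x - z‖ = ‖(x - t • v x - (θ * DD v L x) • h' - z) + (θ * DD v L x) • h'‖ := by
            rw [← this]
        _ ≤ _ := by
          refine (norm_add_le _ _).trans ?_
          (clear * - e3; gcongr)
    rw [bumpr_eq_zero hρ (by linarith : ρ ≤ ‖x - t • v x - z‖),
      bumpr_eq_zero hρ (by linarith : ρ ≤ ‖x - t • v x - (θ * DD v L x) • h' - z‖)]
    simp
  simp only [Pi.zero_apply]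
  rw [h0, mul_zero]

end Vale.Agent.P112
end

section

/-! Task P112-FT03: change of variables for Lipschitz perturbations of the identity. -/

namespace Vale.Agent.P112

open MeasureTheory Filter Topology Set
open scoped ENNReal NNReal

/-- Surjectivity of a small Lipschitz perturbation of the identity. -/
lemma cv_exists {e : Plane → Plane} {c : ℝ≥0} (hc : c < 1) (he : LipschitzWith c e) (y : Plane) :
    ∃ x, x + e x = y := by
  have hcontr : ContractingWith c (fun z => y - e z) := by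
    refine ⟨hc, ?_⟩
    apply LipschitzWith.of_dist_le_mul
    intro a b
    rw [dist_sub_left]
    exact he.dist_le_mul a b
  refine ⟨hcontr.fixedPoint _, ?_⟩
  have h := hcontr.fixedPoint_isFixedPt
  unfold Function.IsFixedPt at h
  set z := hcontr.fixedPoint (fun z => y - e z) with hz
  dsimp only at h
  have h2 : y - e z + e z = z + e z := by rw [h]
  rw [sub_add_cancel] at h2
  exact h2.symm

/-- Entries and determinant of a small perturbation of the identity. -/
lemma cv_det (A : Plane →L[ℝ] Plane) {a : ℝ} (hA : ‖A‖ ≤ a) :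
    |(ContinuousLinearMap.id ℝ Plane + A).det - 1| ≤ 2 * a + 2 * a ^ 2 := by
  have ha0 : 0 ≤ a := (norm_nonneg A).trans hA
  set b := (EuclideanSpace.basisFun (Fin 2) ℝ).toBasis with hb
  set M := LinearMap.toMatrix b b (A : Plane →ₗ[ℝ] Plane) with hM
  have hMe : ∀ i j, M i j = (A (EuclideanSpace.single j 1)) i := by
    intro i j
    rw [hM, LinearMap.toMatrix_apply]
    simp [hb]
  have hMb : ∀ i j, |M i j| ≤ a := by
    intro i j
    rw [hMe]
    have h1 : |(A (EuclideanSpace.single j 1)) i| ≤ ‖A (EuclideanSpace.single j 1)‖ := by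
      have := PiLp.norm_apply_le (A (EuclideanSpace.single j (1:ℝ))) i
      rwa [Real.norm_eq_abs] at this
    have h2 : ‖A (EuclideanSpace.single j (1:ℝ))‖ ≤ ‖A‖ * ‖(EuclideanSpace.single j (1:ℝ) : Plane)‖ :=
      A.le_opNorm _
    rw [PiLp.norm_single, norm_one, mul_one] at h2
    linarith only [hA, h1, h2]
  have hdet : (ContinuousLinearMap.id ℝ Plane + A).det =
      1 + (M 0 0 + M 1 1) + (M 0 0 * M 1 1 - M 0 1 * M 1 0) := by
    have h1 : (ContinuousLinearMap.id ℝ Plane + A).det =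
        LinearMap.det ((ContinuousLinearMap.id ℝ Plane + A : Plane →L[ℝ] Plane) : Plane →ₗ[ℝ] Plane) := rfl
    rw [h1, ← LinearMap.det_toMatrix b]
    have h2 : LinearMap.toMatrix b b ((ContinuousLinearMap.id ℝ Plane + A : Plane →L[ℝ] Plane) : Plane →ₗ[ℝ] Plane)
        = 1 + M := by
      have : ((ContinuousLinearMap.id ℝ Plane + A : Plane →L[ℝ] Plane) : Plane →ₗ[ℝ] Plane)
        = LinearMap.id + (A : Plane →ₗ[ℝ] Plane) := by
        ext; simp only [ContinuousLinearMap.toLinearMap_add, ContinuousLinearMap.coe_id, LinearMap.add_apply, LinearMap.id_coe, id_eq, ContinuousLinearMap.coe_coe, PiLp.add_apply]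
      rw [this, map_add, LinearMap.toMatrix_id]
    rw [h2, Matrix.det_fin_two]
    simp only [Fin.isValue, Matrix.add_apply, Matrix.one_apply_eq, ne_eq, zero_ne_one, not_false_eq_true, Matrix.one_apply_ne, zero_add, one_ne_zero]
    ring
  rw [hdet]
  have e1 : 1 + (M 0 0 + M 1 1) + (M 0 0 * M 1 1 - M 0 1 * M 1 0) - 1 =
      (M 0 0 + M 1 1) + (M 0 0 * M 1 1 - M 0 1 * M 1 0) := by ring
  rw [e1]
  have k1 : |M 0 0 * M 1 1| ≤ a * a := by rw [abs_mul]; exact mul_le_mul (hMb _ _) (hMb _ _) (abs_nonneg _) ha0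
  have k2 : |M 0 1 * M 1 0| ≤ a * a := by rw [abs_mul]; exact mul_le_mul (hMb _ _) (hMb _ _) (abs_nonneg _) ha0
  have k3 := hMb 0 0
  have k4 := hMb 1 1
  rw [abs_le] at k1 k2 k3 k4 ⊢
  constructor <;> linarith only [k1, k2, k3, k4]

/-- the easy inequality for an injective perturbation of the identity -/
lemma cv_comp_le {S : Plane → Plane} {c : ℝ≥0} (hc : c ≤ 1 / 4)
    (hS : LipschitzWith c (fun x => S x - x)) (hinj : Function.Injective S)
    (G : Plane → ℝ≥0∞) : ∫⁻ x, G (S x) ≤ 4 * ∫⁻ y, G y := by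
  have hcr : (c : ℝ) ≤ 1 / 4 := by exact_mod_cast hc
  set e : Plane → Plane := fun x => S x - x with he
  set s := {x : Plane | DifferentiableAt ℝ e x} with hs
  have hsm : MeasurableSet s := measurableSet_of_differentiableAt ℝ e
  have hae : ∀ᵐ x : Plane, x ∈ s := hS.ae_differentiableAt
  have hder : ∀ x ∈ s, HasFDerivWithinAt S
      (ContinuousLinearMap.id ℝ Plane + fderiv ℝ e x) s x := by
    intro x hx
    have h1 : HasFDerivAt e (fderiv ℝ e x) x := DifferentiableAt.hasFDerivAt hx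
    have h2 : S = fun x => x + e x := by ext1 x; simp [he]
    rw [h2]
    exact ((hasFDerivAt_id x).add h1).hasFDerivWithinAt
  have hmain := lintegral_image_eq_lintegral_abs_det_fderiv_mul volume hsm hder hinj.injOn G
  have hle : ∫⁻ x, G (S x) = ∫⁻ x in s, G (S x) := by
    rw [Measure.restrict_eq_self_of_ae_mem hae]
  rw [hle]
  calc ∫⁻ x in s, G (S x)
      ≤ ∫⁻ x in s, 4 * (ENNReal.ofReal |(ContinuousLinearMap.id ℝ Plane + fderiv ℝ e x).det| * G (S x)) := by
        apply setLIntegral_mono' hsm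
        intro x hx
        rw [← mul_assoc]
        have h3 : (1 : ℝ≥0∞) ≤ 4 * ENNReal.ofReal |(ContinuousLinearMap.id ℝ Plane + fderiv ℝ e x).det| := by
          have h4 : ‖fderiv ℝ e x‖ ≤ 1 / 4 := (norm_fderiv_le_of_lipschitz ℝ hS (x₀ := x)).trans hcr
          have h5 := cv_det _ h4
          have h6 : 1 / 4 ≤ |(ContinuousLinearMap.id ℝ Plane + fderiv ℝ e x).det| := by
            have h7 := (abs_le.mp h5).1
            have h8 := le_abs_self (ContinuousLinearMap.id ℝ Plane + fderiv ℝ e x).det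
            linarith only [h7, h8]
          calc (1 : ℝ≥0∞) = 4 * ENNReal.ofReal (1 / 4) := by
                rw [show (4 : ℝ≥0∞) = ENNReal.ofReal 4 by (clear * -; norm_num), ← ENNReal.ofReal_mul (by norm_num)]
                (clear * -; norm_num)
            _ ≤ _ := by (clear * - h6; gcongr)
        calc G (S x) = 1 * G (S x) := (one_mul _).symm
          _ ≤ _ := by (clear * - h3; gcongr)
    _ = 4 * ∫⁻ x in s, (ENNReal.ofReal |(ContinuousLinearMap.id ℝ Plane + fderiv ℝ e x).det| * G (S x)) := by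
        rw [lintegral_const_mul' _ _ (by (clear * -; norm_num))]
    _ = 4 * ∫⁻ x in S '' s, G x := by rw [hmain]
    _ ≤ 4 * ∫⁻ y, G y := by
        have := setLIntegral_le_lintegral (μ := volume) (S '' s) G
        exact mul_le_mul_right this 4

/-- injectivity -/
lemma cv_antilip {S : Plane → Plane} {c : ℝ≥0} (hc : c ≤ 1 / 4)
    (hS : LipschitzWith c (fun x => S x - x)) (x x' : Plane) :
    ‖x - x'‖ ≤ 4 / 3 * ‖S x - S x'‖ := by
  have hcr : (c : ℝ) ≤ 1 / 4 := by exact_mod_cast hc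
  have h1 := hS.dist_le_mul x x'
  rw [dist_eq_norm, dist_eq_norm] at h1
  have h2 : x - x' = (S x - S x') - ((S x - x) - (S x' - x')) := by abel
  have h3 : ‖x - x'‖ ≤ ‖S x - S x'‖ + ‖(S x - x) - (S x' - x')‖ := by
    conv_lhs => rw [h2]
    exact norm_sub_le _ _
  have h4 : (c : ℝ) * ‖x - x'‖ ≤ 1 / 4 * ‖x - x'‖ := by (clear * - hcr; gcongr)
  linarith only [h1, h3, h4]

lemma cv_injective {S : Plane → Plane} {c : ℝ≥0} (hc : c ≤ 1 / 4)
    (hS : LipschitzWith c (fun x => S x - x)) : Function.Injective S := by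
  intro x x' h
  have h1 := cv_antilip hc hS x x'
  rw [h, sub_self, norm_zero, mul_zero] at h1
  exact sub_eq_zero.mp (norm_eq_zero.mp (le_antisymm h1 (norm_nonneg _)))

/-- A Lipschitz perturbation of the identity is invertible and the substitution formula holds with
a density close to one. -/
theorem change_var {S : Plane → Plane} {c : ℝ≥0} (hc : c ≤ 1 / 4)
    (hS : LipschitzWith c (fun x => S x - x)) :
    ∃ R : Plane → Plane, (∀ x, R (S x) = x) ∧ (∀ y, S (R y) = y) ∧
      LipschitzWith (2 * c) (fun y => R y - y) ∧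
      ∃ J : Plane → ℝ, Measurable J ∧ (∀ y, |J y - 1| ≤ 8 * c) ∧
        (∀ G : Plane → ℝ≥0∞, Measurable G →
          ∫⁻ x, G (S x) = ∫⁻ y, ENNReal.ofReal (J y) * G y) ∧
        (∀ G : Plane → ℝ, Integrable G →
          Integrable (fun x => G (S x)) ∧ ∫ x, G (S x) = ∫ y, J y * G y) := by
  have hcr : (c : ℝ) ≤ 1 / 4 := by exact_mod_cast hc
  have hinj := cv_injective hc hS
  have hsurj : ∀ y, ∃ x, S x = y := by
    intro y
    obtain ⟨x, hx⟩ := cv_exists (lt_of_le_of_lt hc (by
      rw [← NNReal.coe_lt_coe]; norm_num)) hS y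
    exact ⟨x, by rw [← hx]; abel⟩
  choose R hR using hsurj
  have hRS : ∀ x, R (S x) = x := fun x => hinj (hR (S x))
  -- Lipschitz bound of `R - id`
  have hRlip : ∀ y y', ‖(R y - y) - (R y' - y')‖ ≤ (4 / 3 * c) * ‖y - y'‖ := by
    intro y y'
    have h1 := hS.dist_le_mul (R y) (R y')
    rw [dist_eq_norm, dist_eq_norm, hR, hR] at h1
    have h2 := cv_antilip hc hS (R y) (R y')
    rw [hR, hR] at h2
    have h3 : (R y - y) - (R y' - y') = - ((y - R y) - (y' - R y')) := by abel
    rw [h3, norm_neg]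
    calc _ ≤ (c : ℝ) * ‖R y - R y'‖ := h1
      _ ≤ c * (4 / 3 * ‖y - y'‖) := by (clear * - h2; gcongr)
      _ = _ := by ring
  have hRl' : LipschitzWith (4 / 3 * c) (fun y => R y - y) := by
    apply LipschitzWith.of_dist_le_mul
    intro y y'
    rw [dist_eq_norm, dist_eq_norm]
    have := hRlip y y'
    push_cast
    exact this
  have hRl : LipschitzWith (2 * c) (fun y => R y - y) := by
    apply hRl'.weaken
    gcongr
    rw [← NNReal.coe_le_coe]; norm_num
  refine ⟨R, hRS, hR, hRl, ?_⟩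
  have hRinj : Function.Injective R := by
    intro y y' h
    have := congrArg S h
    rwa [hR, hR] at this
  set e : Plane → Plane := fun y => R y - y with he
  set s := {y : Plane | DifferentiableAt ℝ e y} with hs
  have hsm : MeasurableSet s := measurableSet_of_differentiableAt ℝ e
  have hae : ∀ᵐ y : Plane, y ∈ s := hRl.ae_differentiableAt
  have hder : ∀ y ∈ s, HasFDerivWithinAt R
      (ContinuousLinearMap.id ℝ Plane + fderiv ℝ e y) s y := by
    intro y hy
    have h1 : HasFDerivAt e (fderiv ℝ e y) y := DifferentiableAt.hasFDerivAt hy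
    have h2 : R = fun x => x + e x := by ext1 x; simp [he]
    rw [h2]
    exact ((hasFDerivAt_id y).add h1).hasFDerivWithinAt
  -- full measure of the image
  have hnull : volume sᶜ = 0 := by
    exact mem_ae_iff.mp hae
  have himage : ∀ᵐ x : Plane, x ∈ R '' s := by
    have h1 : (R '' s)ᶜ = S ⁻¹' sᶜ := by
      ext x
      simp only [mem_compl_iff, mem_image, mem_preimage, not_exists, not_and]
      constructor
      · intro h hx
        exact h (S x) hx (hRS x)
      · intro h y hy hyx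
        apply h
        rw [← hyx, hR]; exact hy
    rw [ae_iff]
    change volume (R '' s)ᶜ = 0
    rw [h1]
    have h2 := cv_comp_le hc hS hinj (sᶜ.indicator 1)
    rw [lintegral_indicator_one hsm.compl, hnull, mul_zero] at h2
    have h3 : ∫⁻ x, (sᶜ.indicator (1 : Plane → ℝ≥0∞)) (S x) = volume (S ⁻¹' sᶜ) := by
      have h4 : (fun x => (sᶜ.indicator (1 : Plane → ℝ≥0∞)) (S x)) = (S ⁻¹' sᶜ).indicator 1 := by
        ext x; rfl
      rw [h4, lintegral_indicator_one]
      have hScont : Continuous S := by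
        have : S = fun x => (S x - x) + x := by ext1 x; abel
        rw [this]; exact hS.continuous.add continuous_id
      exact hScont.measurable hsm.compl
    rw [h3] at h2
    exact le_antisymm h2 (by (clear * -; positivity))
  classical
  refine ⟨fun y => if y ∈ s then |(ContinuousLinearMap.id ℝ Plane + fderiv ℝ e y).det| else 1,
    ?_, ?_, ?_, ?_⟩
  · apply Measurable.ite hsm _ measurable_const
    have h1 : Measurable (fun y => ContinuousLinearMap.id ℝ Plane + fderiv ℝ e y) :=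
      (measurable_fderiv ℝ e).const_add _
    have h2 : Continuous (fun A : Plane →L[ℝ] Plane => A.det) := ContinuousLinearMap.continuous_det
    exact (h2.measurable.comp h1).abs
  · intro y
    have hc0 : (0 : ℝ) ≤ c := c.2
    by_cases hy : y ∈ s
    · simp only [hy, if_true]
      have h4 : ‖fderiv ℝ e y‖ ≤ 4 / 3 * c := by
        have := norm_fderiv_le_of_lipschitz ℝ hRl' (x₀ := y)
        push_cast at this
        exact this
      have h5 := cv_det _ h4
      have h6 : 2 * (4 / 3 * (c : ℝ)) + 2 * (4 / 3 * (c : ℝ)) ^ 2 ≤ 4 * c := by nlinarith only [hc]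
      have h7 : |(ContinuousLinearMap.id ℝ Plane + fderiv ℝ e y).det - 1| ≤ 4 * c := h5.trans h6
      have h8 : 0 ≤ (ContinuousLinearMap.id ℝ Plane + fderiv ℝ e y).det := by
        have := (abs_le.mp h7).1
        linarith only [hc, this]
      rw [abs_of_nonneg h8]
      linarith only [h5, h6]
    · simp only [hy, if_false, sub_self, abs_zero]
      (clear * -; positivity)
  · intro G _
    have hmain := lintegral_image_eq_lintegral_abs_det_fderiv_mul volume hsm hder hRinj.injOn
      (fun x => G (S x))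
    rw [Measure.restrict_eq_self_of_ae_mem himage] at hmain
    rw [hmain]
    conv_rhs => rw [← Measure.restrict_eq_self_of_ae_mem hae]
    apply setLIntegral_congr_fun hsm
    intro y hy
    simp only [hR, hy, if_true]
  · intro G hG
    have himgu : volume.restrict (R '' s) = volume := Measure.restrict_eq_self_of_ae_mem himage
    have hsu : volume.restrict s = volume := Measure.restrict_eq_self_of_ae_mem hae
    have hJb : ∀ y ∈ s, |(ContinuousLinearMap.id ℝ Plane + fderiv ℝ e y).det| ≤ 3 := by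
      intro y hy
      have h4 : ‖fderiv ℝ e y‖ ≤ 1 / 3 := by
        have := norm_fderiv_le_of_lipschitz ℝ hRl' (x₀ := y)
        push_cast at this
        linarith only [hc, this]
      have h5 := cv_det _ h4
      have h6 := abs_sub_abs_le_abs_sub (ContinuousLinearMap.id ℝ Plane + fderiv ℝ e y).det 1
      rw [abs_one] at h6
      linarith only [h5, h6]
    constructor
    · have h1 := (integrableOn_image_iff_integrableOn_abs_det_fderiv_smul volume hsm hder
        hRinj.injOn (fun x => G (S x))).mpr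
      unfold IntegrableOn at h1
      rw [himgu] at h1
      apply h1
      have h2 : Integrable (fun y => |(ContinuousLinearMap.id ℝ Plane + fderiv ℝ e y).det| • G y)
          (volume.restrict s) := by
        apply Integrable.bdd_mul (c := 3) (hG.mono_measure Measure.restrict_le_self)
        · have h1 : Measurable (fun y => ContinuousLinearMap.id ℝ Plane + fderiv ℝ e y) :=
            (measurable_fderiv ℝ e).const_add _
          have h2 : Continuous (fun A : Plane →L[ℝ] Plane => A.det) := ContinuousLinearMap.continuous_det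
          exact (h2.measurable.comp h1).abs.aestronglyMeasurable
        · filter_upwards [ae_restrict_mem hsm] with y hy
          rw [Real.norm_eq_abs, abs_abs]
          exact hJb y hy
      refine h2.congr ?_
      filter_upwards with y
      rw [hR]
    · have hmain := integral_image_eq_integral_abs_det_fderiv_smul volume hsm hder hRinj.injOn
        (fun x => G (S x))
      rw [himgu] at hmain
      rw [hmain]
      conv_rhs => rw [← hsu]
      apply setIntegral_congr_fun hsm
      intro y hy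
      simp only [hy, if_true, hR, smul_eq_mul]

theorem lintegral_comp_le {S : Plane → Plane} {c : ℝ≥0} (hc : c ≤ 1 / 4)
    (hS : LipschitzWith c (fun x => S x - x)) (G : Plane → ℝ≥0∞) (hG : Measurable G) :
    ∫⁻ x, G (S x) ≤ 4 * ∫⁻ y, G y :=
  cv_comp_le hc hS (cv_injective hc hS) G

end Vale.Agent.P112
end

section

/-! Task P112-FT16: the near part of the `T T*` kernel. -/

namespace Vale.Agent.P112

open MeasureTheory Filter Topology Set
open scoped ENNReal NNReal

lemma near_meas_add {α : Type*} [MeasurableSpace α] {f g : α → ℝ≥0∞} (hf : Measurable f)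
    (hg : Measurable g) : Measurable (fun a => f a + g a) := hf.add hg

lemma near_meas_mul {α : Type*} [MeasurableSpace α] {f g : α → ℝ≥0∞} (hf : Measurable f)
    (hg : Measurable g) : Measurable (fun a => f a * g a) := hf.mul hg

lemma near_meas_comp {α β : Type*} [MeasurableSpace α] [MeasurableSpace β] {f : β → ℝ≥0∞}
    {g : α → β} (hf : Measurable f) (hg : Measurable g) : Measurable (fun a => f (g a)) :=
  hf.comp hg

/-- the majorant of the kernel at time `t`. -/
noncomputable def nearA (v : Plane → Plane) (θ L ρ : ℝ) (y : Plane) (t : ℝ) (z : Plane) : ℝ≥0∞ :=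
  ∫⁻ h : Plane, ‖bump h‖ₑ * (‖bumpr ρ (y - t • v y - z)‖ₑ +
    ‖bumpr ρ (y - t • v y - (θ * DD v L y) • h - z)‖ₑ)

lemma near_continuous_DD {v : Plane → Plane} (hvl : LipschitzWith 1 v) {L : ℝ} (hL : 0 ≤ L)
    (hL1 : L ≤ 1) : Continuous (DD v L) := by
  have : LipschitzWith (Real.toNNReal (6 * L)) (DD v L) := by
    refine LipschitzWith.of_dist_le_mul fun x y => ?_
    rw [Real.dist_eq, dist_eq_norm, Real.coe_toNNReal _ (by (clear * - hL; positivity))]
    exact DD_lip hvl hL hL1 x y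
  exact this.continuous

lemma near_measurable_A {v : Plane → Plane} (hvl : LipschitzWith 1 v) (θ : ℝ) {L : ℝ}
    (hL : 0 ≤ L) (hL1 : L ≤ 1) (ρ : ℝ) :
    Measurable (fun q : Plane × ℝ × Plane => nearA v θ L ρ q.1 q.2.1 q.2.2) := by
  have hvc := hvl.continuous
  have hDc := near_continuous_DD hvl hL hL1
  unfold nearA
  refine Measurable.lintegral_prod_right'
    (f := fun Q : (Plane × ℝ × Plane) × Plane => ‖bump Q.2‖ₑ *
      (‖bumpr ρ (Q.1.1 - Q.1.2.1 • v Q.1.1 - Q.1.2.2)‖ₑ +
        ‖bumpr ρ (Q.1.1 - Q.1.2.1 • v Q.1.1 - (θ * DD v L Q.1.1) • Q.2 - Q.1.2.2)‖ₑ)) ?_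
  refine (continuous_bump.measurable.enorm.comp measurable_snd).mul (near_meas_add ?_ ?_)
  · exact ((continuous_bumpr ρ).comp (by fun_prop)).measurable.enorm
  · exact ((continuous_bumpr ρ).comp (by fun_prop)).measurable.enorm

lemma near_measA {α : Type*} [MeasurableSpace α] {v : Plane → Plane} (hvl : LipschitzWith 1 v)
    (θ : ℝ) {L : ℝ} (hL : 0 ≤ L) (hL1 : L ≤ 1) (ρ : ℝ) {f : α → Plane} {g : α → ℝ} {h : α → Plane}
    (hf : Measurable f) (hg : Measurable g) (hh : Measurable h) :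
    Measurable (fun a => nearA v θ L ρ (f a) (g a) (h a)) := by
  have := near_meas_comp (near_measurable_A hvl θ hL hL1 ρ) (hf.prodMk (hg.prodMk hh))
  exact this

/-- the kernel is dominated by the average of the majorant. -/
lemma near_kern_le {v : Plane → Plane} {θ L ρ : ℝ} (hL : 0 < L) (y z : Plane) :
    ‖kern v θ L ρ y z‖ₑ ≤ ∫⁻ t : ℝ, ‖eta L t‖ₑ * nearA v θ L ρ y t z := by
  have hm : Measurable (fun q : Plane × ℝ => ‖bump q.1‖ₑ * (‖eta L q.2‖ₑ *
      (‖bumpr ρ (y - q.2 • v y - z)‖ₑ +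
        ‖bumpr ρ (y - q.2 • v y - (θ * DD v L y) • q.1 - z)‖ₑ))) := by
    refine (continuous_bump.measurable.enorm.comp measurable_fst).mul
      (Measurable.mul ((continuous_eta hL).measurable.enorm.comp measurable_snd)
        (near_meas_add ?_ ?_))
    · exact ((continuous_bumpr ρ).comp (by fun_prop)).measurable.enorm
    · exact ((continuous_bumpr ρ).comp (by fun_prop)).measurable.enorm
  calc ‖kern v θ L ρ y z‖ₑ ≤ ∫⁻ h : Plane, ‖bump h * ∫ t : ℝ, eta L t *
        (bumpr ρ (y - t • v y - z) - bumpr ρ (y - t • v y - (θ * DD v L y) • h - z))‖ₑ :=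
        enorm_integral_le_lintegral_enorm _
    _ ≤ ∫⁻ h : Plane, ∫⁻ t : ℝ, ‖bump h‖ₑ * (‖eta L t‖ₑ *
        (‖bumpr ρ (y - t • v y - z)‖ₑ +
          ‖bumpr ρ (y - t • v y - (θ * DD v L y) • h - z)‖ₑ)) := by
        refine lintegral_mono fun h => ?_
        rw [enorm_mul, lintegral_const_mul' _ _ enorm_ne_top]
        gcongr
        refine (enorm_integral_le_lintegral_enorm _).trans (lintegral_mono fun t => ?_)
        rw [enorm_mul]
        gcongr
        exact enorm_sub_le
    _ = ∫⁻ t : ℝ, ∫⁻ h : Plane, ‖bump h‖ₑ * (‖eta L t‖ₑ *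
        (‖bumpr ρ (y - t • v y - z)‖ₑ +
          ‖bumpr ρ (y - t • v y - (θ * DD v L y) • h - z)‖ₑ)) :=
        lintegral_lintegral_swap hm.aemeasurable
    _ = _ := by
        refine lintegral_congr fun t => ?_
        unfold nearA
        rw [← lintegral_const_mul' _ _ enorm_ne_top]
        refine lintegral_congr fun h => ?_
        ring

/-- support of the majorant. -/
lemma near_A_supp {v : Plane → Plane} {θ L ρ : ℝ} (hL : 0 ≤ L) (hθ : 0 ≤ θ) (hρ : 0 < ρ)
    {y z : Plane} {t : ℝ} (h : nearA v θ L ρ y t z ≠ 0) :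
    ‖y - t • v y - z‖ ≤ ρ + θ * DD v L y := by
  by_contra hc
  rw [not_le] at hc
  have hr : 0 ≤ θ * DD v L y := mul_nonneg hθ (DD_nonneg v hL y)
  apply h
  unfold nearA
  rw [← lintegral_zero (μ := (volume : Measure Plane))]
  refine lintegral_congr fun k => ?_
  by_cases hk : bump k = 0
  · rw [hk, enorm_zero, zero_mul]
  have hk1 : ‖k‖ < 1 := by
    by_contra hc
    exact hk (bump_zero_out (not_lt.mp hc))
  have h1 : bumpr ρ (y - t • v y - z) = 0 := bumpr_eq_zero hρ (by linarith only [hc, hr])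
  have h2 : bumpr ρ (y - t • v y - (θ * DD v L y) • k - z) = 0 := by
    apply bumpr_eq_zero hρ
    have h3 : ‖(θ * DD v L y) • k‖ ≤ θ * DD v L y := by
      rw [norm_smul, Real.norm_eq_abs, abs_of_nonneg hr]
      exact mul_le_of_le_one_right hr hk1.le
    have h4 := norm_add_le (y - t • v y - (θ * DD v L y) • k - z) ((θ * DD v L y) • k)
    rw [show y - t • v y - (θ * DD v L y) • k - z + (θ * DD v L y) • k = y - t • v y - z by
      abel] at h4
    linarith only [hc, h3, h4]
  rw [h1, h2, enorm_zero, add_zero, mul_zero]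

/-- the integral of the majorant in `z`. -/
lemma near_A_int_z {v : Plane → Plane} {θ L ρ : ℝ} (hρ : 0 < ρ) (y : Plane) (t : ℝ) :
    ∫⁻ z, nearA v θ L ρ y t z = 2 := by
  unfold nearA
  have hm : Measurable (fun q : Plane × Plane => ‖bump q.2‖ₑ *
      (‖bumpr ρ (y - t • v y - q.1)‖ₑ +
        ‖bumpr ρ (y - t • v y - (θ * DD v L y) • q.2 - q.1)‖ₑ)) := by
    refine (continuous_bump.measurable.enorm.comp measurable_snd).mul (near_meas_add ?_ ?_)
    · exact ((continuous_bumpr ρ).comp (by fun_prop)).measurable.enorm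
    · exact ((continuous_bumpr ρ).comp (by fun_prop)).measurable.enorm
  rw [lintegral_lintegral_swap hm.aemeasurable]
  have e : ∀ a : Plane, ∫⁻ z : Plane, ‖bumpr ρ (a - z)‖ₑ = 1 := by
    intro a
    rw [lintegral_sub_left_eq_self (fun z => ‖bumpr ρ z‖ₑ) a, lintegral_bumpr hρ]
  have e2 : ∀ h : Plane, ∫⁻ z : Plane, ‖bump h‖ₑ * (‖bumpr ρ (y - t • v y - z)‖ₑ +
      ‖bumpr ρ (y - t • v y - (θ * DD v L y) • h - z)‖ₑ) = ‖bump h‖ₑ * 2 := by
    intro h
    rw [lintegral_const_mul' _ _ enorm_ne_top, lintegral_add_left, e, e]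
    · (clear * -; norm_num)
    · exact ((continuous_bumpr ρ).comp (by fun_prop)).measurable.enorm
  simp only [e2]
  rw [lintegral_mul_const _ continuous_bump.measurable.enorm, lintegral_bump, one_mul]

/-- the integral of the majorant in `y`. -/
lemma near_A_int_y {v : Plane → Plane} (hvl : LipschitzWith 1 v) {θ L ρ : ℝ} (hL : 0 < L)
    (hL1 : L ≤ 1 / 64) (hθ : 0 ≤ θ) (hθ1 : θ ≤ 1) (hρ : 0 < ρ) (z : Plane) {t : ℝ}
    (ht : |t| ≤ L) : ∫⁻ y, nearA v θ L ρ y t z ≤ 8 := by
  have hvc := hvl.continuous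
  have hDc := near_continuous_DD hvl hL.le (show L ≤ 1 by (clear * - hL hL1; linarith))
  unfold nearA
  have hm : Measurable (fun q : Plane × Plane => ‖bump q.2‖ₑ *
      (‖bumpr ρ (q.1 - t • v q.1 - z)‖ₑ +
        ‖bumpr ρ (q.1 - t • v q.1 - (θ * DD v L q.1) • q.2 - z)‖ₑ)) := by
    refine (continuous_bump.measurable.enorm.comp measurable_snd).mul (near_meas_add ?_ ?_)
    · exact ((continuous_bumpr ρ).comp (by fun_prop)).measurable.enorm
    · exact ((continuous_bumpr ρ).comp (by fun_prop)).measurable.enorm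
  rw [lintegral_lintegral_swap hm.aemeasurable]
  have hG : Measurable (fun y : Plane => ‖bumpr ρ (y - z)‖ₑ) :=
    ((continuous_bumpr ρ).comp (by fun_prop)).measurable.enorm
  have hG1 : ∫⁻ y : Plane, ‖bumpr ρ (y - z)‖ₑ = 1 := by
    rw [lintegral_sub_right_eq_self (fun y => ‖bumpr ρ y‖ₑ) z, lintegral_bumpr hρ]
  have hc4 : ((1 / 4 : ℝ≥0) : ℝ) = 1 / 4 := by norm_num
  have key : ∀ h : Plane, ‖h‖ ≤ 1 →
      ∫⁻ y : Plane, ‖bumpr ρ (y - t • v y - (θ * DD v L y) • h - z)‖ₑ ≤ 4 := by
    intro h hh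
    have hc : LipschitzWith (1 / 4 : ℝ≥0)
        (fun y : Plane => (y - t • v y - (θ * DD v L y) • h) - y) := by
      refine LipschitzWith.of_dist_le_mul fun y y' => ?_
      rw [dist_eq_norm, dist_eq_norm, hc4]
      have e : y - t • v y - (θ * DD v L y) • h - y -
          (y' - t • v y' - (θ * DD v L y') • h - y') =
          t • (v y' - v y) + (θ * (DD v L y' - DD v L y)) • h := by
        rw [mul_sub, sub_smul, smul_sub]; abel
      rw [e]
      refine (norm_add_le _ _).trans ?_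
      rw [norm_smul, norm_smul, norm_mul, Real.norm_eq_abs, Real.norm_eq_abs, Real.norm_eq_abs,
        abs_of_nonneg hθ]
      have h1 : ‖v y' - v y‖ ≤ ‖y - y'‖ := by
        have := hvl.dist_le_mul y' y
        rw [dist_eq_norm, dist_eq_norm, NNReal.coe_one, one_mul, norm_sub_rev y' y] at this
        exact this
      have h2 : |DD v L y' - DD v L y| ≤ 6 * L * ‖y - y'‖ := by
        rw [abs_sub_comm]
        exact DD_lip hvl hL.le (by linarith only [hL1]) y y'
      have h0 := norm_nonneg (y - y')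
      have h3 : |t| * ‖v y' - v y‖ ≤ L * ‖y - y'‖ :=
        mul_le_mul ht h1 (norm_nonneg _) hL.le
      have h4 : θ * |DD v L y' - DD v L y| * ‖h‖ ≤ 1 * (6 * L * ‖y - y'‖) * 1 :=
        mul_le_mul (mul_le_mul hθ1 h2 (abs_nonneg _) zero_le_one) hh (norm_nonneg _)
          (by (clear * - hL; positivity))
      have h5 : 7 * L * ‖y - y'‖ ≤ 1 / 4 * ‖y - y'‖ :=
        mul_le_mul_of_nonneg_right (by linarith only [hL, hL1]) h0
      linarith only [h3, h4, h5]
    have h8 := lintegral_comp_le (c := 1 / 4) le_rfl hc _ hG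
    rw [hG1, mul_one] at h8
    exact h8
  have key2 : ∀ h : Plane, ∫⁻ y : Plane, ‖bump h‖ₑ * (‖bumpr ρ (y - t • v y - z)‖ₑ +
      ‖bumpr ρ (y - t • v y - (θ * DD v L y) • h - z)‖ₑ) ≤ ‖bump h‖ₑ * 8 := by
    intro h
    by_cases hh : bump h = 0
    · rw [hh, enorm_zero]; simp only [zero_mul, lintegral_const, measure_univ_of_isAddLeftInvariant, Std.le_refl]
    have hh1 : ‖h‖ ≤ 1 := by
      by_contra hc
      exact hh (bump_zero_out (not_le.mp hc).le)
    rw [lintegral_const_mul' _ _ enorm_ne_top, lintegral_add_left]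
    · gcongr
      have h0 := key 0 (by simp only [norm_zero, zero_le_one])
      simp only [smul_zero, sub_zero] at h0
      have h1 := key h hh1
      calc _ ≤ (4 : ℝ≥0∞) + 4 := add_le_add h0 h1
        _ = 8 := by norm_num
    · exact ((continuous_bumpr ρ).comp (by fun_prop)).measurable.enorm
  calc _ ≤ ∫⁻ h : Plane, ‖bump h‖ₑ * 8 := lintegral_mono key2
    _ = 8 := by
      rw [lintegral_mul_const _ continuous_bump.measurable.enorm, lintegral_bump, one_mul]

/-- the set of bad times. -/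
def nearBad (v : Plane → Plane) (L ε : ℝ) (x : Plane) : Set ℝ :=
  {s : ℝ | |s| ≤ 2 * L ∧ turn v x s < ε * (DD v L x / L)}

lemma near_measurableSet_bad {v : Plane → Plane} (hvl : LipschitzWith 1 v) (L ε : ℝ) (x : Plane) :
    MeasurableSet (nearBad v L ε x) := by
  have h1 : MeasurableSet {s : ℝ | |s| ≤ 2 * L} :=
    (isClosed_le continuous_abs continuous_const).measurableSet
  have h2 : MeasurableSet {s : ℝ | turn v x s < ε * (DD v L x / L)} :=
    (isOpen_lt (continuous_turn hvl x) continuous_const).measurableSet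
  exact h1.inter h2

/-- the geometry of near points. -/
lemma near_geometry {v : Plane → Plane} (hvl : LipschitzWith 1 v)
    {C₁ β L θ κ ρ : ℝ} (hC₁ : 1 ≤ C₁) (hL : 0 < L) (hL1 : L ≤ 1 / 64) (hθ : 0 < θ) (hθκ : θ ≤ κ)
    (hκ1 : κ ≤ 1) {x y z : Plane} (hg : Good v L C₁ β x) (hD0 : 0 < DD v L x)
    (hρD : ρ ≤ θ * DD v L x) {t t' : ℝ} (ht : |t| ≤ L) (ht' : |t'| ≤ L)
    (hnear : ‖v y - v x‖ < κ * (DD v L x / L)) (h1 : ‖x - t • v x - z‖ ≤ ρ + θ * DD v L x)
    (h2 : ‖y - t' • v y - z‖ ≤ ρ + θ * DD v L y) : t' - t ∈ nearBad v L (14 * C₁ * κ) x := by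
  set D := DD v L x with hD
  set D' := DD v L y with hD'
  set a := ‖v y - v x‖ with ha
  set e := y - x - (t' - t) • v x with he
  have hκ0 : 0 < κ := lt_of_lt_of_le hθ hθκ
  have ha0 : 0 ≤ a := norm_nonneg _
  have hD'0 : 0 ≤ D' := DD_nonneg v hL.le y
  have hLa : L * a ≤ κ * D := by
    have h := mul_lt_mul_of_pos_left hnear hL
    have h' : L * (κ * (D / L)) = κ * D := by field_simp
    linarith only [h, h']
  have hκD : κ * D ≤ D := mul_le_of_le_one_left hD0.le hκ1
  have hθD : θ * D ≤ κ * D := mul_le_mul_of_nonneg_right hθκ hD0.le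
  have hθD' : θ * D' ≤ D' := mul_le_of_le_one_left hD'0 (hθκ.trans hκ1)
  have habs : |t' - t| ≤ 2 * L := by
    have := abs_sub t' t
    linarith only [ht, ht', this]
  have he1 : ‖e‖ ≤ 2 * ρ + θ * D + θ * D' + L * a := by
    have h3 : e = (y - t' • v y - z) - (x - t • v x - z) + t' • (v y - v x) := by
      rw [he, sub_smul, smul_sub]; abel
    rw [h3]
    have h4 := norm_add_le ((y - t' • v y - z) - (x - t • v x - z)) (t' • (v y - v x))
    have h5 := norm_sub_le (y - t' • v y - z) (x - t • v x - z)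
    have h6 : ‖t' • (v y - v x)‖ ≤ L * a := by
      rw [norm_smul, Real.norm_eq_abs]
      exact mul_le_mul_of_nonneg_right ht' ha0
    linarith only [h1, h2, h4, h5, h6]
  have hvd : ∀ p q : Plane, ‖v p - v q‖ ≤ ‖p - q‖ := by
    intro p q
    have := hvl.dist_le_mul p q
    rwa [dist_eq_norm, dist_eq_norm, NNReal.coe_one, one_mul] at this
  -- the turning at `y`
  have hturn : ∀ s ∈ Icc (-L) L, turn v y s ≤ ‖e‖ + L * a + a + C₁ * (D / L) := by
    intro s hs
    have hs' : |s| ≤ L := abs_le.mpr (mem_Icc.mp hs)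
    have hst : |s + (t' - t)| ≤ 8 * L := by
      have := abs_add_le s (t' - t)
      linarith only [hL, habs, hs', this]
    have h3 := hg.g1 _ hst
    have h4 : turn v y s ≤ ‖v (y + s • v y) - v (x + (s + (t' - t)) • v x)‖ +
        turn v x (s + (t' - t)) + a := by
      unfold turn
      have e1 : v (y + s • v y) - v y = (v (y + s • v y) - v (x + (s + (t' - t)) • v x)) +
          (v (x + (s + (t' - t)) • v x) - v x) - (v y - v x) := by abel
      rw [e1]
      refine (norm_sub_le _ _).trans ?_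
      gcongr
      exact norm_add_le _ _
    have h5 : ‖v (y + s • v y) - v (x + (s + (t' - t)) • v x)‖ ≤ ‖e‖ + L * a := by
      refine (hvd _ _).trans ?_
      have e2 : y + s • v y - (x + (s + (t' - t)) • v x) = e + s • (v y - v x) := by
        rw [he, add_smul, smul_sub]; abel
      rw [e2]
      refine (norm_add_le _ _).trans ?_
      rw [norm_smul, Real.norm_eq_abs]
      (clear * - hs'; gcongr)
    linarith only [h3, h4, h5]
  have hD'le : D' ≤ 2 * L * (‖e‖ + L * a + a + C₁ * (D / L)) := by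
    have h3 : D' ≤ ∫ _ in (-L)..L, (‖e‖ + L * a + a + C₁ * (D / L)) := by
      rw [hD']
      unfold DD
      refine intervalIntegral.integral_mono_on (by linarith only [hL])
        ((continuous_turn hvl y).intervalIntegrable _ _)
        (continuous_const.intervalIntegrable _ _) hturn
    rw [intervalIntegral.integral_const, smul_eq_mul] at h3
    have e3 : L - -L = 2 * L := by ring
    rwa [e3] at h3
  have hCD : D ≤ C₁ * D := le_mul_of_one_le_left hD0.le hC₁
  have e4 : 2 * L * (‖e‖ + L * a + a + C₁ * (D / L)) =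
      2 * L * ‖e‖ + 2 * L * (L * a) + 2 * (L * a) + 2 * (C₁ * D) := by
    (clear * - hL ha0 hC₁ hD0; field_simp)
  rw [e4] at hD'le
  have he2 : ‖e‖ ≤ 4 * D + D' := by linarith only [hρD, hLa, hκD, hθD, hθD', he1]
  have h6 : 2 * L * ‖e‖ ≤ 1 / 32 * (4 * D + D') :=
    mul_le_mul (by linarith only [hL1]) he2 (norm_nonneg _) (by norm_num)
  have h7 : 2 * L * (L * a) ≤ 1 / 32 * D :=
    mul_le_mul (by linarith only [hL1]) (hLa.trans hκD) (by (clear * - hL; positivity)) (by norm_num)
  have hD'8 : D' ≤ 8 * (C₁ * D) := by linarith only [hD0, hLa, hκD, hD'le, hCD, h6, h7]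
  have hθD'2 : θ * D' ≤ 8 * C₁ * (κ * D) := by
    calc θ * D' ≤ κ * (8 * (C₁ * D)) := mul_le_mul hθκ hD'8 hD'0 hκ0.le
      _ = 8 * C₁ * (κ * D) := by ring
  have hκD0 : 0 < κ * D := mul_pos hκ0 hD0
  have hCκ : κ * D ≤ C₁ * (κ * D) := le_mul_of_one_le_left hκD0.le hC₁
  have he3 : ‖e‖ ≤ 12 * (C₁ * (κ * D)) := by linarith only [hρD, hLa, hθD, he1, hθD'2, hCκ]
  refine ⟨habs, ?_⟩
  have h8 : turn v x (t' - t) ≤ ‖e‖ + a := by
    unfold turn
    have e5 : v (x + (t' - t) • v x) - v x =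
        (v (x + (t' - t) • v x) - v y) + (v y - v x) := by abel
    rw [e5]
    refine (norm_add_le _ _).trans ?_
    gcongr
    refine (hvd _ _).trans ?_
    have e6 : x + (t' - t) • v x - y = -e := by rw [he]; abel
    rw [e6, norm_neg]
  have h9 : 12 * (C₁ * (κ * D)) ≤ C₁ * (κ * (D / L)) := by
    have h10 : C₁ * (κ * (D / L)) = (C₁ * (κ * D)) / L := by ring
    rw [h10, le_div_iff₀ hL]
    have h11 : 0 ≤ C₁ * (κ * D) := by (clear * - hC₁ hκ0 hD0; positivity)
    calc 12 * (C₁ * (κ * D)) * L = (12 * L) * (C₁ * (κ * D)) := by ring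
      _ ≤ 1 * (C₁ * (κ * D)) := mul_le_mul_of_nonneg_right (by linarith only [hL, hL1]) h11
      _ = C₁ * (κ * D) := one_mul _
  have h12 : κ * (D / L) ≤ C₁ * (κ * (D / L)) :=
    le_mul_of_one_le_left (by (clear * - hκ0 hD0 hL; positivity)) hC₁
  have h13 : 0 < C₁ * (κ * (D / L)) := by (clear * - hC₁ hκ0 hD0 hL; positivity)
  have e7 : 14 * C₁ * κ * (D / L) = 14 * (C₁ * (κ * (D / L))) := by ring
  rw [e7]
  linarith only [hρD, hnear, hLa, hθD, he1, hθD'2, hκD0, hCκ, h8, h9, h12]

/-- the weight of a pair of times. -/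
noncomputable def nearC (L : ℝ) (B : Set ℝ) (q : ℝ × ℝ) : ℝ≥0∞ :=
  ‖eta L q.1‖ₑ * (‖eta L q.2‖ₑ * B.indicator (fun _ => (1 : ℝ≥0∞)) (q.2 - q.1))

lemma near_measurable_C {L : ℝ} (hL : 0 < L) {B : Set ℝ} (hB : MeasurableSet B) :
    Measurable (nearC L B) := by
  have hηm : Measurable (fun t => ‖eta L t‖ₑ) := (continuous_eta hL).measurable.enorm
  refine (hηm.comp measurable_fst).mul ((hηm.comp measurable_snd).mul ?_)
  exact (measurable_const.indicator hB).comp (measurable_snd.sub measurable_fst)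

lemma near_int_C {L : ℝ} (hL : 0 < L) {B : Set ℝ} (hB : MeasurableSet B) :
    ∫⁻ q : ℝ × ℝ, nearC L B q ≤ 8 * (ENNReal.ofReal (4 / L) * volume B) := by
  have hηm : Measurable (fun t => ‖eta L t‖ₑ) := (continuous_eta hL).measurable.enorm
  rw [Measure.volume_eq_prod, lintegral_prod _ (near_measurable_C hL hB).aemeasurable]
  have hin : ∀ t : ℝ, ∫⁻ t' : ℝ, nearC L B (t, t') ≤
      ‖eta L t‖ₑ * (ENNReal.ofReal (4 / L) * volume B) := by
    intro t
    change ∫⁻ t' : ℝ, ‖eta L t‖ₑ * (‖eta L t'‖ₑ *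
      B.indicator (fun _ => (1 : ℝ≥0∞)) (t' - t)) ≤ _
    rw [lintegral_const_mul' _ _ enorm_ne_top]
    refine mul_le_mul' le_rfl ?_
    calc ∫⁻ t' : ℝ, ‖eta L t'‖ₑ * B.indicator (fun _ => (1 : ℝ≥0∞)) (t' - t)
        ≤ ∫⁻ t' : ℝ, ENNReal.ofReal (4 / L) *
          B.indicator (fun _ => (1 : ℝ≥0∞)) (t' - t) := by
          refine lintegral_mono fun t' => mul_le_mul' ?_ le_rfl
          rw [Real.enorm_eq_ofReal_abs]
          exact ENNReal.ofReal_le_ofReal (eta_bound hL t')
      _ = ENNReal.ofReal (4 / L) * volume B := by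
          rw [lintegral_const_mul' _ _ ENNReal.ofReal_ne_top,
            lintegral_sub_right_eq_self (fun t' => B.indicator (fun _ => (1 : ℝ≥0∞)) t') t,
            lintegral_indicator hB, setLIntegral_const, one_mul]
  refine (lintegral_mono hin).trans ?_
  rw [lintegral_mul_const _ hηm]
  exact mul_le_mul' (lintegral_eta_le hL) le_rfl

/-- the integrand of the near part. -/
noncomputable def nearH (v : Plane → Plane) (θ L ρ : ℝ) (B : Set ℝ) (x : Plane)
    (Q : (Plane × Plane) × (ℝ × ℝ)) : ℝ≥0∞ :=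
  nearC L B Q.2 * (nearA v θ L ρ x Q.2.1 Q.1.2 * nearA v θ L ρ Q.1.1 Q.2.2 Q.1.2)

lemma near_measurable_H {v : Plane → Plane} (hvl : LipschitzWith 1 v) (θ : ℝ) {L : ℝ}
    (hL : 0 < L) (hL1 : L ≤ 1) (ρ : ℝ) {B : Set ℝ} (hB : MeasurableSet B) (x : Plane) :
    Measurable (nearH v θ L ρ B x) := by
  have h0 : Measurable (fun Q : (Plane × Plane) × (ℝ × ℝ) => nearC L B Q.2) :=
    near_meas_comp (near_measurable_C hL hB) measurable_snd
  have h1 : Measurable (fun Q : (Plane × Plane) × (ℝ × ℝ) =>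
      nearA v θ L ρ x Q.2.1 Q.1.2) :=
    near_measA hvl θ hL.le hL1 ρ measurable_const (measurable_fst.comp measurable_snd)
      (measurable_snd.comp measurable_fst)
  have h2 : Measurable (fun Q : (Plane × Plane) × (ℝ × ℝ) =>
      nearA v θ L ρ Q.1.1 Q.2.2 Q.1.2) :=
    near_measA hvl θ hL.le hL1 ρ (measurable_fst.comp measurable_fst)
      (measurable_snd.comp measurable_snd) (measurable_snd.comp measurable_fst)
  exact near_meas_mul h0 (near_meas_mul h1 h2)

/-- the pointwise bound for near points. -/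
lemma near_step1 {v : Plane → Plane} (hvl : LipschitzWith 1 v)
    {C₁ β L θ κ ρ : ℝ} (hC₁ : 1 ≤ C₁) (hL : 0 < L) (hL1 : L ≤ 1 / 64) (hθ : 0 < θ) (hθκ : θ ≤ κ)
    (hκ1 : κ ≤ 1) {x y : Plane} (hg : Good v L C₁ β x) (hD0 : 0 < DD v L x) (hρ : 0 < ρ)
    (hρD : ρ ≤ θ * DD v L x) (hnear : ‖v y - v x‖ < κ * (DD v L x / L)) :
    ‖∫ z, kern v θ L ρ x z * kern v θ L ρ y z‖ₑ ≤
      ∫⁻ z, ∫⁻ q : ℝ × ℝ, nearH v θ L ρ (nearBad v L (14 * C₁ * κ) x) x ((y, z), q) := by
  have hηm : Measurable (fun t => ‖eta L t‖ₑ) := (continuous_eta hL).measurable.enorm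
  refine (enorm_integral_le_lintegral_enorm _).trans (lintegral_mono fun z => ?_)
  have ha : ∀ p : Plane, Measurable (fun t : ℝ => nearA v θ L ρ p t z) := fun p =>
    near_measA hvl θ hL.le (by linarith only [hL1]) ρ measurable_const measurable_id measurable_const
  have hf1 : Measurable (fun t => ‖eta L t‖ₑ * nearA v θ L ρ x t z) := near_meas_mul hηm (ha x)
  have hf2 : Measurable (fun t => ‖eta L t‖ₑ * nearA v θ L ρ y t z) := near_meas_mul hηm (ha y)
  rw [enorm_mul]
  calc ‖kern v θ L ρ x z‖ₑ * ‖kern v θ L ρ y z‖ₑ ≤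
      (∫⁻ t : ℝ, ‖eta L t‖ₑ * nearA v θ L ρ x t z) *
        ∫⁻ t : ℝ, ‖eta L t‖ₑ * nearA v θ L ρ y t z :=
        mul_le_mul' (near_kern_le hL x z) (near_kern_le hL y z)
    _ = ∫⁻ q : ℝ × ℝ, (‖eta L q.1‖ₑ * nearA v θ L ρ x q.1 z) *
        (‖eta L q.2‖ₑ * nearA v θ L ρ y q.2 z) := by
        rw [Measure.volume_eq_prod, lintegral_prod_mul hf1.aemeasurable hf2.aemeasurable]
    _ ≤ _ := by
        refine lintegral_mono fun q => ?_
        unfold nearH nearC
        by_cases h1 : eta L q.1 = 0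
        · rw [h1, enorm_zero, zero_mul, zero_mul]; exact bot_le
        by_cases h2 : eta L q.2 = 0
        · rw [h2, enorm_zero, zero_mul, mul_zero]; exact bot_le
        by_cases h3 : nearA v θ L ρ x q.1 z = 0
        · rw [h3, mul_zero, zero_mul]; exact bot_le
        by_cases h4 : nearA v θ L ρ y q.2 z = 0
        · rw [h4, mul_zero, mul_zero]; exact bot_le
        have ht : |q.1| ≤ L := by
          by_contra hc
          exact h1 (eta_eq_zero hL (not_le.mp hc).le)
        have ht' : |q.2| ≤ L := by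
          by_contra hc
          exact h2 (eta_eq_zero hL (not_le.mp hc).le)
        have hmem := near_geometry hvl hC₁ hL hL1 hθ hθκ hκ1 hg hD0 hρD ht ht' hnear
          (near_A_supp hL.le hθ.le hρ h3) (near_A_supp hL.le hθ.le hρ h4)
        rw [indicator_of_mem hmem, mul_one]
        exact le_of_eq (by ring)

/-- integration in the space variables. -/
lemma near_step2 {v : Plane → Plane} (hvl : LipschitzWith 1 v) {θ L ρ : ℝ} (hL : 0 < L)
    (hL1 : L ≤ 1 / 64) (hθ : 0 ≤ θ) (hθ1 : θ ≤ 1) (hρ : 0 < ρ) {B : Set ℝ} (hB : MeasurableSet B)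
    (x : Plane) (q : ℝ × ℝ) :
    ∫⁻ P : Plane × Plane, nearH v θ L ρ B x (P, q) ≤ nearC L B q * 16 := by
  have hg1 : Measurable (fun P : Plane × Plane => ((P, q) : (Plane × Plane) × (ℝ × ℝ))) := by
    fun_prop
  have hm1 : Measurable (fun P : Plane × Plane => nearH v θ L ρ B x (P, q)) :=
    near_meas_comp (near_measurable_H hvl θ hL (by (clear * - hL hL1; linarith)) ρ hB x) hg1
  rw [Measure.volume_eq_prod Plane Plane, lintegral_prod_symm' _ hm1]
  unfold nearH
  by_cases h2 : eta L q.2 = 0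
  · have hc : nearC L B q = 0 := by
      unfold nearC
      rw [h2, enorm_zero, zero_mul, mul_zero]
    simp only [hc, zero_mul, lintegral_zero, le_refl]
  have ht' : |q.2| ≤ L := by
    by_contra hc
    exact h2 (eta_eq_zero hL (not_le.mp hc).le)
  have hmz : ∀ z : Plane, Measurable (fun y : Plane => nearA v θ L ρ y q.2 z) := fun z =>
    near_measA hvl θ hL.le (by linarith only [hL1]) ρ measurable_id measurable_const measurable_const
  have hmx : Measurable (fun z : Plane => nearA v θ L ρ x q.1 z) :=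
    near_measA hvl θ hL.le (by linarith) ρ measurable_const measurable_const measurable_id
  calc ∫⁻ z, ∫⁻ y, nearC L B q * (nearA v θ L ρ x q.1 z * nearA v θ L ρ y q.2 z)
      ≤ ∫⁻ z, nearC L B q * (nearA v θ L ρ x q.1 z * 8) := by
        refine lintegral_mono fun z => ?_
        rw [lintegral_const_mul _ ((hmz z).const_mul _), lintegral_const_mul _ (hmz z)]
        exact mul_le_mul' le_rfl (mul_le_mul' le_rfl
          (near_A_int_y hvl hL hL1 hθ hθ1 hρ z ht'))
    _ = nearC L B q * 16 := by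
        rw [lintegral_const_mul _ (hmx.mul_const _), lintegral_mul_const _ hmx,
          near_A_int_z hρ]
        norm_num

theorem near_bound (C₁ β : ℝ) (hC₁ : 1 ≤ C₁) (hβ : 0 < β) (hβ1 : β ≤ 1) : ∃ C : ℝ, 0 < C ∧
    ∀ (v : Plane → Plane), LipschitzWith 1 v → (∀ x, ‖v x‖ = 1) → ∀ (L θ κ ρ : ℝ), 0 < L →
    L ≤ 1 / 64 → 0 < θ → θ ≤ κ → κ ≤ 1 → (∀ x, Good v L C₁ β x) → ∀ x : Plane, 0 < ρ →
    ρ ≤ θ * DD v L x →
    ∫⁻ y in {y : Plane | ‖v y - v x‖ < κ * (DD v L x / L)},
      ‖∫ z, kern v θ L ρ x z * kern v θ L ρ y z‖ₑ ≤ ENNReal.ofReal (C * κ ^ β) := by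
  refine ⟨512 * (C₁ * (14 * C₁) ^ β), by (clear * - hC₁; positivity), ?_⟩
  intro v hvl hvu L θ κ ρ hL hL1 hθ hθκ hκ1 hgood x hρ hρD
  have hκ0 : 0 < κ := lt_of_lt_of_le hθ hθκ
  have hθ1 : θ ≤ 1 := hθκ.trans hκ1
  have hr0 : 0 < θ * DD v L x := lt_of_lt_of_le hρ hρD
  have hD0 : 0 < DD v L x := (mul_pos_iff_of_pos_left hθ).mp hr0
  have hBm := near_measurableSet_bad hvl L (14 * C₁ * κ) x
  have hNm : MeasurableSet {y : Plane | ‖v y - v x‖ < κ * (DD v L x / L)} :=
    (isOpen_lt ((hvl.continuous.sub continuous_const).norm) continuous_const).measurableSet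
  have hHm := near_measurable_H hvl θ hL (show L ≤ 1 by linarith) ρ hBm x
  have s1 : ∫⁻ y in {y : Plane | ‖v y - v x‖ < κ * (DD v L x / L)},
      ‖∫ z, kern v θ L ρ x z * kern v θ L ρ y z‖ₑ ≤
      ∫⁻ y, ∫⁻ z, ∫⁻ q : ℝ × ℝ, nearH v θ L ρ (nearBad v L (14 * C₁ * κ) x) x ((y, z), q) :=
    (setLIntegral_mono' hNm fun y hy => near_step1 hvl hC₁ hL hL1 hθ hθκ hκ1 (hgood x) hD0 hρ
      hρD hy).trans (setLIntegral_le_lintegral _ _)
  have s2 : ∫⁻ y, ∫⁻ z, ∫⁻ q : ℝ × ℝ,
      nearH v θ L ρ (nearBad v L (14 * C₁ * κ) x) x ((y, z), q) =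
      ∫⁻ P : Plane × Plane, ∫⁻ q : ℝ × ℝ,
        nearH v θ L ρ (nearBad v L (14 * C₁ * κ) x) x (P, q) := by
    rw [Measure.volume_eq_prod Plane Plane,
      lintegral_prod (fun P : Plane × Plane => ∫⁻ q : ℝ × ℝ,
        nearH v θ L ρ (nearBad v L (14 * C₁ * κ) x) x (P, q))
        hHm.lintegral_prod_right'.aemeasurable]
  have s3 : ∫⁻ P : Plane × Plane, ∫⁻ q : ℝ × ℝ,
      nearH v θ L ρ (nearBad v L (14 * C₁ * κ) x) x (P, q) =
      ∫⁻ q : ℝ × ℝ, ∫⁻ P : Plane × Plane,
        nearH v θ L ρ (nearBad v L (14 * C₁ * κ) x) x (P, q) :=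
    lintegral_lintegral_swap (f := fun P q =>
      nearH v θ L ρ (nearBad v L (14 * C₁ * κ) x) x (P, q)) hHm.aemeasurable
  have s4 : ∫⁻ q : ℝ × ℝ, ∫⁻ P : Plane × Plane,
      nearH v θ L ρ (nearBad v L (14 * C₁ * κ) x) x (P, q) ≤
      (8 * (ENNReal.ofReal (4 / L) * volume (nearBad v L (14 * C₁ * κ) x))) * 16 := by
    refine (lintegral_mono fun q => near_step2 hvl hL hL1 hθ.le hθ1 hρ hBm x q).trans ?_
    rw [lintegral_mul_const _ (near_measurable_C hL hBm)]
    exact mul_le_mul' (near_int_C hL hBm) le_rfl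
  have s5 : volume (nearBad v L (14 * C₁ * κ) x) ≤
      ENNReal.ofReal (C₁ * (14 * C₁ * κ) ^ β * L) := (hgood x).g3 _ (by (clear * - hC₁ hκ0; positivity))
  have s6 : (8 * (ENNReal.ofReal (4 / L) * ENNReal.ofReal (C₁ * (14 * C₁ * κ) ^ β * L))) * 16 =
      ENNReal.ofReal (512 * (C₁ * (14 * C₁) ^ β) * κ ^ β) := by
    rw [← ENNReal.ofReal_mul (by (clear * - hL; positivity)), show (8 : ℝ≥0∞) = ENNReal.ofReal 8 by norm_num,
      show (16 : ℝ≥0∞) = ENNReal.ofReal 16 by norm_num, ← ENNReal.ofReal_mul (by norm_num),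
      ← ENNReal.ofReal_mul (by (clear * - hL hC₁ hκ0; positivity)), Real.mul_rpow (by positivity) hκ0.le]
    congr 1
    field_simp
    ring
  rw [← s6]
  refine s1.trans ?_
  rw [s2, s3]
  refine s4.trans ?_
  exact mul_le_mul' (mul_le_mul' le_rfl (mul_le_mul' le_rfl s5)) le_rfl

end Vale.Agent.P112
end

section

/-! Task P112-FT17: transversal smoothing. -/

namespace Vale.Agent.P112

open MeasureTheory Filter Topology Set
open scoped ENNReal NNReal

lemma transv_norm_sq (z : Plane) : ‖z‖ ^ 2 = z 0 ^ 2 + z 1 ^ 2 := by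
  rw [EuclideanSpace.norm_sq_eq, Fin.sum_univ_two]
  simp only [Real.norm_eq_abs, sq_abs]

/-- the determinant of two unit vectors. -/
lemma transv_det {u w : Plane} (hu : ‖u‖ = 1) (hw : ‖w‖ = 1) (huw1 : ‖w - u‖ ≤ 1) :
    ‖w - u‖ / 2 ≤ |u 0 * w 1 - u 1 * w 0| := by
  have h1 := transv_norm_sq u
  have h2 := transv_norm_sq w
  have h3 := transv_norm_sq (w - u)
  rw [hu] at h1
  rw [hw] at h2
  rw [PiLp.sub_apply, PiLp.sub_apply] at h3
  have h0 := norm_nonneg (w - u)
  set a := ‖w - u‖ with ha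
  have hc : u 0 * w 0 + u 1 * w 1 = 1 - a ^ 2 / 2 := by
    linear_combination (-1 / 2) * h1 + (-1 / 2) * h2 + (1 / 2) * h3
  have hd : (u 0 * w 1 - u 1 * w 0) ^ 2 = 1 - (u 0 * w 0 + u 1 * w 1) ^ 2 := by
    linear_combination (-(w 0 ^ 2 + w 1 ^ 2)) * h1 - h2
  have hd2 : (u 0 * w 1 - u 1 * w 0) ^ 2 = a ^ 2 * (1 - a ^ 2 / 4) := by
    rw [hd, hc]; ring
  have ha2 : a ^ 2 ≤ 1 := pow_le_one₀ h0 huw1
  have h4 : (a / 2) ^ 2 ≤ (u 0 * w 1 - u 1 * w 0) ^ 2 := by
    have h5 : a ^ 2 * a ^ 2 ≤ a ^ 2 * 1 := mul_le_mul_of_nonneg_left ha2 (sq_nonneg a)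
    have h6 : a ^ 2 * (1 - a ^ 2 / 4) = a ^ 2 - a ^ 2 * a ^ 2 / 4 := by ring
    have h7 : (a / 2) ^ 2 = a ^ 2 / 4 := by ring
    have h8 := sq_nonneg a
    rw [hd2, h6, h7]
    linarith only [h5, h8]
  rw [← sq_abs (u 0 * w 1 - u 1 * w 0)] at h4
  exact (pow_le_pow_iff_left₀ (by (clear * -; positivity)) (abs_nonneg _) two_ne_zero).mp h4

/-- coordinates of the plane. -/
lemma transv_lintegral_coord (G : ℝ × ℝ → ℝ≥0∞) (hG : Measurable G) :
    ∫⁻ z : Plane, G (z 0, z 1) = ∫⁻ q : ℝ × ℝ, G q := by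
  have m2 := EuclideanSpace.volume_preserving_symm_measurableEquiv_toLp (Fin 2)
  have m3 := volume_preserving_finTwoArrow ℝ
  rw [← m3.lintegral_comp hG]
  have h3 : Measurable (fun a : Fin 2 → ℝ => G (MeasurableEquiv.finTwoArrow a)) :=
    hG.comp MeasurableEquiv.finTwoArrow.measurable
  rw [← m2.lintegral_comp h3]
  rfl

/-- the linear map with columns `-u`, `w`. -/
noncomputable def transvMap (u w : Plane) : Plane →ₗ[ℝ] Plane where
  toFun z := -(z 0 • u) + z 1 • w
  map_add' z z' := by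
    rw [PiLp.add_apply, PiLp.add_apply, add_smul, add_smul]; abel
  map_smul' r z := by
    rw [PiLp.smul_apply, PiLp.smul_apply, smul_assoc, smul_assoc, RingHom.id_apply, smul_add,
      smul_neg]

lemma transv_map_det (u w : Plane) :
    LinearMap.det (transvMap u w) = -(u 0 * w 1 - u 1 * w 0) := by
  set b := (EuclideanSpace.basisFun (Fin 2) ℝ).toBasis with hb
  rw [← LinearMap.det_toMatrix b, Matrix.det_fin_two]
  have hMe : ∀ i j, LinearMap.toMatrix b b (transvMap u w) i j =
      (transvMap u w (EuclideanSpace.single j 1)) i := by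
    intro i j
    rw [LinearMap.toMatrix_apply]
    simp [hb]
  rw [hMe, hMe, hMe, hMe]
  simp only [transvMap, Fin.isValue, LinearMap.coe_mk, AddHom.coe_mk, PiLp.single_eq_same, one_smul, ne_eq, one_ne_zero, not_false_eq_true, PiLp.single_eq_of_ne, zero_smul, add_zero, PiLp.neg_apply, zero_ne_one, neg_zero, zero_add, neg_mul, mul_neg, sub_neg_eq_add, neg_sub]
  ring

/-- Linear substitution in the plane. -/
theorem lintegral_two_lines (u w : Plane) (hu : ‖u‖ = 1) (hw : ‖w‖ = 1) (huw : 0 < ‖w - u‖)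
    (huw1 : ‖w - u‖ ≤ 1) (p : Plane → ℝ≥0∞) (hp : Measurable p) (c : Plane) :
    ∫⁻ t : ℝ, ∫⁻ s : ℝ, p (c - t • u + s • w) ≤ ENNReal.ofReal (2 / ‖w - u‖) * ∫⁻ z, p z := by
  have hdet := transv_det hu hw huw1
  have hG : Measurable (fun q : ℝ × ℝ => p (c - q.1 • u + q.2 • w)) := by
    refine hp.comp (Continuous.measurable ?_)
    fun_prop
  have e1 : ∫⁻ t : ℝ, ∫⁻ s : ℝ, p (c - t • u + s • w) =
      ∫⁻ z : Plane, p (c + transvMap u w z) := by
    rw [lintegral_lintegral (f := fun t s => p (c - t • u + s • w)) hG.aemeasurable,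
      ← Measure.volume_eq_prod, ← transv_lintegral_coord _ hG]
    refine lintegral_congr fun z => ?_
    congr 1
    simp only [transvMap, LinearMap.coe_mk, AddHom.coe_mk]
    abel
  have hd0 : LinearMap.det (transvMap u w) ≠ 0 := by
    rw [transv_map_det, neg_ne_zero]
    intro h
    rw [h, abs_zero] at hdet
    linarith only [huw, hdet]
  have hpc : Measurable (fun y : Plane => p (c + y)) := hp.comp (measurable_const_add c)
  have hTm : Measurable (transvMap u w) :=
    (LinearMap.continuous_of_finiteDimensional (transvMap u w)).measurable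
  rw [e1, ← lintegral_map (f := fun y => p (c + y)) hpc hTm,
    Measure.map_linearMap_addHaar_eq_smul_addHaar volume hd0, lintegral_smul_measure,
    lintegral_add_left_eq_self (fun y => p y) c, smul_eq_mul]
  gcongr
  rw [transv_map_det, abs_inv, abs_neg, ← one_div, div_le_div_iff₀ (by linarith only [huw, hdet]) huw]
  linarith only [hdet]

/-- Transversal smoothing: translating the argument changes the double average little. -/
theorem transversal : ∃ C : ℝ, 0 < C ∧ ∀ (L : ℝ), 0 < L → ∀ (u w : Plane), ‖u‖ = 1 → ‖w‖ = 1 →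
    0 < ‖w - u‖ → ‖w - u‖ ≤ 1 → ∀ p : Plane → ℝ, Continuous p → HasCompactSupport p →
    (∀ z, 0 ≤ p z) → ∫ z, p z ≤ 1 → ∀ c k : Plane,
    |(∫ t : ℝ, ∫ s : ℝ, eta L t * eta L s * p (c + k - t • u + s • w)) -
      ∫ t : ℝ, ∫ s : ℝ, eta L t * eta L s * p (c - t • u + s • w)| ≤
      C * ‖k‖ / (L ^ 3 * ‖w - u‖ ^ 2) := by
  refine ⟨1280, by norm_num, ?_⟩
  intro L hL u w hu hw huw huw1 p hp hps hp0 hp1 c k
  have hdet := transv_det hu hw huw1
  set a := ‖w - u‖ with ha
  set δ := u 0 * w 1 - u 1 * w 0 with hδ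
  have hδ0 : δ ≠ 0 := by
    intro h
    rw [h, abs_zero] at hdet
    linarith only [huw, hdet]
  have hdpos : 0 < |δ| := abs_pos.mpr hδ0
  set α := -(k 0 * w 1 - k 1 * w 0) / δ with hα
  set β := -(k 0 * u 1 - k 1 * u 0) / δ with hβ
  have hk : k = -(α • u) + β • w := by
    have e0 : k 0 * δ = -(α * δ * u 0) + β * δ * w 0 := by
      rw [hα, hβ, div_mul_cancel₀ _ hδ0, div_mul_cancel₀ _ hδ0, hδ]; ring
    have e1 : k 1 * δ = -(α * δ * u 1) + β * δ * w 1 := by
      rw [hα, hβ, div_mul_cancel₀ _ hδ0, div_mul_cancel₀ _ hδ0, hδ]; ring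
    ext i
    fin_cases i
    · have : k 0 = -(α * u 0) + β * w 0 := by
        apply mul_right_cancel₀ hδ0; rw [e0]; ring
      simpa only [Fin.zero_eta, Fin.isValue, PiLp.add_apply, PiLp.neg_apply, PiLp.smul_apply, smul_eq_mul] using     this
    · have : k 1 = -(α * u 1) + β * w 1 := by
        apply mul_right_cancel₀ hδ0; rw [e1]; ring
      simpa only [Fin.mk_one, Fin.isValue, PiLp.add_apply, PiLp.neg_apply, PiLp.smul_apply, smul_eq_mul] using this
  -- Cauchy-Schwarz for the 2 by 2 determinant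
  have hcs : ∀ z : Plane, ‖z‖ = 1 → |k 0 * z 1 - k 1 * z 0| ≤ ‖k‖ := by
    intro z hz
    have h1 := transv_norm_sq z
    have h2 := transv_norm_sq k
    rw [hz] at h1
    refine abs_le_of_sq_le_sq ?_ (norm_nonneg k)
    rw [h2]
    have h3 : (k 0 * z 1 - k 1 * z 0) ^ 2 + (k 0 * z 0 + k 1 * z 1) ^ 2 =
        (k 0 ^ 2 + k 1 ^ 2) * (z 0 ^ 2 + z 1 ^ 2) := by ring
    rw [← h1] at h3
    have h4 := sq_nonneg (k 0 * z 0 + k 1 * z 1)
    linarith only [h3, h4]
  have hαb : |α| ≤ 2 * ‖k‖ / a := by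
    rw [hα, abs_div, abs_neg, div_le_div_iff₀ hdpos huw]
    have h1 := hcs w hw
    have h2 := norm_nonneg k
    calc |k 0 * w 1 - k 1 * w 0| * a ≤ ‖k‖ * (2 * |δ|) :=
          mul_le_mul h1 (by linarith only [hdet]) huw.le h2
      _ = 2 * ‖k‖ * |δ| := by ring
  have hβb : |β| ≤ 2 * ‖k‖ / a := by
    rw [hβ, abs_div, abs_neg, div_le_div_iff₀ hdpos huw]
    have h1 := hcs u hu
    have h2 := norm_nonneg k
    calc |k 0 * u 1 - k 1 * u 0| * a ≤ ‖k‖ * (2 * |δ|) :=
          mul_le_mul h1 (by linarith only [hdet]) huw.le h2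
      _ = 2 * ‖k‖ * |δ| := by ring
  -- integrals over the product
  have hcη := continuous_eta hL
  have hint : ∀ x y : ℝ, Integrable (fun q : ℝ × ℝ =>
      eta L (q.1 - x) * eta L (q.2 - y) * p (c - q.1 • u + q.2 • w)) := by
    intro x y
    refine Continuous.integrable_of_hasCompactSupport ?_ ?_
    · refine Continuous.mul (Continuous.mul ?_ ?_) ?_
      · exact hcη.comp (by fun_prop)
      · exact hcη.comp (by fun_prop)
      · exact hp.comp (by fun_prop)
    · refine HasCompactSupport.intro ((isCompact_Icc (a := x - L) (b := x + L)).prod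
        (isCompact_Icc (a := y - L) (b := y + L))) ?_
      rintro ⟨t, s⟩ hq
      rw [mem_prod, not_and_or] at hq
      rcases hq with hq | hq
      · have : eta L (t - x) = 0 := by
          apply eta_eq_zero hL
          by_contra hc
          rw [not_le, abs_lt] at hc
          exact hq (mem_Icc.mpr ⟨by linarith only [hc], by linarith only [hc]⟩)
        simp only [this, zero_mul]
      · have : eta L (s - y) = 0 := by
          apply eta_eq_zero hL
          by_contra hc
          rw [not_le, abs_lt] at hc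
          exact hq (mem_Icc.mpr ⟨by linarith only [hc], by linarith only [hc]⟩)
        simp only [this, mul_zero, zero_mul]
  have hI0 : ∫ t : ℝ, ∫ s : ℝ, eta L t * eta L s * p (c - t • u + s • w) =
      ∫ q : ℝ × ℝ, eta L q.1 * eta L q.2 * p (c - q.1 • u + q.2 • w) := by
    have h := hint 0 0
    simp only [sub_zero] at h
    rw [Measure.volume_eq_prod] at h ⊢
    rw [integral_prod _ h]
  have hshift : ∀ q : ℝ × ℝ, c + k - q.1 • u + q.2 • w =
      c - (q + (α, β)).1 • u + (q + (α, β)).2 • w := by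
    intro q
    rw [Prod.fst_add, Prod.snd_add, add_smul, add_smul]
    nth_rewrite 1 [hk]
    abel
  have hI1 : ∫ t : ℝ, ∫ s : ℝ, eta L t * eta L s * p (c + k - t • u + s • w) =
      ∫ q : ℝ × ℝ, eta L (q.1 - α) * eta L (q.2 - β) * p (c - q.1 • u + q.2 • w) := by
    have h1 : (fun q : ℝ × ℝ => eta L q.1 * eta L q.2 * p (c + k - q.1 • u + q.2 • w)) =
        fun q => (fun q : ℝ × ℝ => eta L (q.1 - α) * eta L (q.2 - β) *
          p (c - q.1 • u + q.2 • w)) (q + (α, β)) := by
      funext q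
      simp only
      rw [hshift q, Prod.fst_add, Prod.snd_add, add_sub_cancel_right, add_sub_cancel_right]
    have h2 : Integrable (fun q : ℝ × ℝ =>
        eta L q.1 * eta L q.2 * p (c + k - q.1 • u + q.2 • w)) := by
      rw [h1]
      exact (hint α β).comp_add_right (α, β)
    rw [← integral_add_right_eq_self (fun q : ℝ × ℝ => eta L (q.1 - α) * eta L (q.2 - β) *
          p (c - q.1 • u + q.2 • w)) (α, β), ← h1]
    rw [Measure.volume_eq_prod] at h2 ⊢
    rw [integral_prod _ h2]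
  have hint0 : Integrable (fun q : ℝ × ℝ =>
      eta L q.1 * eta L q.2 * p (c - q.1 • u + q.2 • w)) := by
    have h := hint 0 0
    simp only [sub_zero] at h
    exact h
  rw [hI0, hI1, ← integral_sub (hint α β) hint0]
  -- pointwise bound
  have hpt : ∀ t s : ℝ, |eta L (t - α) * eta L (s - β) - eta L t * eta L s| ≤
      160 / L ^ 3 * (|α| + |β|) := by
    intro t s
    have e : eta L (t - α) * eta L (s - β) - eta L t * eta L s =
        (eta L (t - α) - eta L t) * eta L (s - β) + eta L t * (eta L (s - β) - eta L s) := by ring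
    rw [e]
    refine (abs_add_le _ _).trans ?_
    rw [abs_mul, abs_mul]
    have h1 := eta_lip hL (t - α) t
    have h2 := eta_lip hL (s - β) s
    rw [sub_sub_cancel_left, abs_neg] at h1 h2
    have h3 := eta_bound hL (s - β)
    have h4 := eta_bound hL t
    have h5 : |eta L (t - α) - eta L t| * |eta L (s - β)| ≤ (40 / L ^ 2 * |α|) * (4 / L) :=
      mul_le_mul h1 h3 (abs_nonneg _) (by (clear * - hL; positivity))
    have h6 : |eta L t| * |eta L (s - β) - eta L s| ≤ (4 / L) * (40 / L ^ 2 * |β|) :=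
      mul_le_mul h4 h2 (abs_nonneg _) (by positivity)
    have h7 : (40 / L ^ 2 * |α|) * (4 / L) + (4 / L) * (40 / L ^ 2 * |β|) =
        160 / L ^ 3 * (|α| + |β|) := by
      field_simp; ring
    linarith only [h5, h6, h7]
  have hM0 : 0 ≤ 160 / L ^ 3 * (|α| + |β|) := by (clear * - hL; positivity)
  have hpl : ∫⁻ z, ENNReal.ofReal (p z) ≤ 1 := by
    rw [← ofReal_integral_eq_lintegral_ofReal (hp.integrable_of_hasCompactSupport hps)
      (Filter.Eventually.of_forall hp0)]
    exact ENNReal.ofReal_le_one.mpr hp1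
  have hbound : ‖∫ q : ℝ × ℝ, (eta L (q.1 - α) * eta L (q.2 - β) * p (c - q.1 • u + q.2 • w) -
      eta L q.1 * eta L q.2 * p (c - q.1 • u + q.2 • w))‖ₑ ≤
      ENNReal.ofReal (160 / L ^ 3 * (|α| + |β|)) * (ENNReal.ofReal (2 / a) * 1) := by
    have hpm : Measurable (fun z => ENNReal.ofReal (p z)) := hp.measurable.ennreal_ofReal
    have hG : Measurable (fun q : ℝ × ℝ => ENNReal.ofReal (p (c - q.1 • u + q.2 • w))) := by
      refine hpm.comp (Continuous.measurable ?_)
      fun_prop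
    calc _ ≤ ∫⁻ q : ℝ × ℝ, ‖eta L (q.1 - α) * eta L (q.2 - β) * p (c - q.1 • u + q.2 • w) -
          eta L q.1 * eta L q.2 * p (c - q.1 • u + q.2 • w)‖ₑ :=
          enorm_integral_le_lintegral_enorm _
      _ ≤ ∫⁻ q : ℝ × ℝ, ENNReal.ofReal (160 / L ^ 3 * (|α| + |β|)) *
          ENNReal.ofReal (p (c - q.1 • u + q.2 • w)) := by
          refine lintegral_mono fun q => ?_
          rw [← sub_mul, Real.enorm_eq_ofReal_abs, abs_mul, abs_of_nonneg (hp0 _),
            ← ENNReal.ofReal_mul hM0]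
          exact ENNReal.ofReal_le_ofReal (mul_le_mul_of_nonneg_right (hpt _ _) (hp0 _))
      _ = ENNReal.ofReal (160 / L ^ 3 * (|α| + |β|)) *
          ∫⁻ q : ℝ × ℝ, ENNReal.ofReal (p (c - q.1 • u + q.2 • w)) :=
          lintegral_const_mul _ hG
      _ ≤ _ := by
          gcongr
          have h1 := lintegral_two_lines u w hu hw huw huw1 (fun z => ENNReal.ofReal (p z)) hpm c
          rw [lintegral_lintegral (f := fun t s => ENNReal.ofReal (p (c - t • u + s • w)))
            hG.aemeasurable, ← Measure.volume_eq_prod] at h1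
          exact h1.trans (by (clear * - hpl; gcongr))
  rw [mul_one, ← ENNReal.ofReal_mul hM0, Real.enorm_eq_ofReal_abs] at hbound
  have hfin := (ENNReal.ofReal_le_ofReal_iff (by (clear * - hL huw; positivity))).mp hbound
  refine hfin.trans ?_
  calc 160 / L ^ 3 * (|α| + |β|) * (2 / a) ≤ 160 / L ^ 3 * (2 * ‖k‖ / a + 2 * ‖k‖ / a) * (2 / a) := by
        (clear * - hαb hβb hL huw; gcongr)
    _ = 1280 * ‖k‖ / (L ^ 3 * a ^ 2) := by
        field_simp; ring

end Vale.Agent.P112
end

section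

/-! Task P112-FT18: the far part of the `T T*` kernel. -/

namespace Vale.Agent.P112

open MeasureTheory Filter Topology Set
open scoped ENNReal NNReal

/-- Fubini for the product of two parameter integrals of continuous compactly supported
functions. -/
theorem far_fubini {Ω Ω' : Type*} [TopologicalSpace Ω] [T2Space Ω] [MeasurableSpace Ω]
    [OpensMeasurableSpace Ω] [TopologicalSpace Ω'] [T2Space Ω'] [MeasurableSpace Ω']
    [OpensMeasurableSpace Ω'] (μ : Measure Ω) (ν : Measure Ω') [IsFiniteMeasureOnCompacts μ]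
    [IsFiniteMeasureOnCompacts ν] {φ : Ω → Plane → ℝ} {ψ : Ω' → Plane → ℝ}
    (hφ : Continuous φ.uncurry) (hψ : Continuous ψ.uncurry) {k : Set Ω} {k' : Set Ω'}
    {m : Set Plane} (hk : IsCompact k) (hk' : IsCompact k') (hm : IsCompact m)
    (hφk : ∀ ω z, (ω ∉ k ∨ z ∉ m) → φ ω z = 0) (hψk : ∀ ω z, ω ∉ k' → ψ ω z = 0) :
    ∫ z, (∫ ω, φ ω z ∂μ) * (∫ ω', ψ ω' z ∂ν) =
      ∫ ω, (∫ ω', (∫ z, φ ω z * ψ ω' z) ∂ν) ∂μ := by
  have hψc : Continuous (fun z => ∫ ω', ψ ω' z ∂ν) := by
    rw [← continuousOn_univ]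
    refine continuousOn_integral_of_compact_support (f := fun z ω' => ψ ω' z) hk' ?_ ?_
    · refine Continuous.continuousOn ?_
      exact hψ.comp continuous_swap
    · intro z ω' _ h
      exact hψk ω' z h
  have e1 : ∀ z, (∫ ω, φ ω z ∂μ) * (∫ ω', ψ ω' z ∂ν) =
      ∫ ω, φ ω z * (∫ ω', ψ ω' z ∂ν) ∂μ := fun z => (integral_mul_const _ _).symm
  simp only [e1]
  rw [integral_integral_swap_of_hasCompactSupport
    (f := fun z ω => φ ω z * (∫ ω', ψ ω' z ∂ν))]
  · congr 1
    funext ω
    have e2 : ∀ z, φ ω z * (∫ ω', ψ ω' z ∂ν) = ∫ ω', φ ω z * ψ ω' z ∂ν := fun z =>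
      (integral_const_mul _ _).symm
    simp only [e2]
    refine integral_integral_swap_of_hasCompactSupport (f := fun z ω' => φ ω z * ψ ω' z) ?_ ?_
    · have h1 : Continuous (fun q : Plane × Ω' => φ ω q.1) :=
        hφ.comp (continuous_const.prodMk continuous_fst)
      have h2 : Continuous (fun q : Plane × Ω' => ψ q.2 q.1) := hψ.comp continuous_swap
      exact h1.mul h2
    · refine HasCompactSupport.intro (hm.prod hk') ?_
      rintro ⟨z, ω'⟩ h
      rw [mem_prod, not_and_or] at h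
      rcases h with h | h
      · have : φ ω z = 0 := hφk ω z (Or.inr h)
        simp [Function.uncurry, this]
      · have : ψ ω' z = 0 := hψk ω' z h
        simp [Function.uncurry, this]
  · have h1 : Continuous (fun q : Plane × Ω => φ q.2 q.1) := hφ.comp continuous_swap
    exact h1.mul (hψc.comp continuous_fst)
  · refine HasCompactSupport.intro (hm.prod hk) ?_
    rintro ⟨z, ω⟩ h
    have h' : ω ∉ k ∨ z ∉ m := by
      rw [mem_prod, not_and_or] at h
      exact h.symm
    have : φ ω z = 0 := hφk ω z h'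
    simp [Function.uncurry, this]

/-- the average of the rescaled bump along a segment. -/
noncomputable def farE (L ρ : ℝ) (u c : Plane) : ℝ := ∫ t : ℝ, eta L t * bumpr ρ (c - t • u)

/-- the autocorrelation of the rescaled bump. -/
noncomputable def farP (ρ : ℝ) (ζ : Plane) : ℝ := ∫ z, bumpr ρ (ζ - z) * bumpr ρ (-z)

/-- the double average of the autocorrelation. -/
noncomputable def farQ (L ρ : ℝ) (u w c : Plane) : ℝ :=
  ∫ t : ℝ, ∫ s : ℝ, eta L t * eta L s * farP ρ (c - t • u + s • w)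

lemma far_norm_lt {ρ : ℝ} (hρ : 0 < ρ) {z : Plane} (h : bumpr ρ z ≠ 0) : ‖z‖ < ρ := by
  by_contra hc
  exact h (bumpr_eq_zero hρ (not_lt.mp hc))

lemma far_eta_lt {L : ℝ} (hL : 0 < L) {t : ℝ} (h : eta L t ≠ 0) : |t| < L := by
  by_contra hc
  exact h (eta_eq_zero hL (not_lt.mp hc))

lemma far_continuous_E {L ρ : ℝ} (hL : 0 < L) (u : Plane) : Continuous (farE L ρ u) := by
  unfold farE
  rw [← continuousOn_univ]
  refine continuousOn_integral_of_compact_support
    (f := fun (c : Plane) (t : ℝ) => eta L t * bumpr ρ (c - t • u))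
    (isCompact_Icc (a := -L) (b := L)) ?_ ?_
  · refine Continuous.continuousOn ?_
    have h1 : Continuous (fun q : Plane × ℝ => eta L q.2) := (continuous_eta hL).comp continuous_snd
    have h2 : Continuous (fun q : Plane × ℝ => bumpr ρ (q.1 - q.2 • u)) :=
      (continuous_bumpr ρ).comp (by fun_prop)
    exact h1.mul h2
  · intro c t _ ht
    have : L ≤ |t| := by
      by_contra hc
      exact ht (mem_Icc.mpr (abs_le.mp (not_le.mp hc).le))
    rw [eta_eq_zero hL this, zero_mul]

lemma far_E_eq_zero {L ρ : ℝ} (hL : 0 < L) (hρ : 0 < ρ) {u : Plane} (hu : ‖u‖ = 1) {c : Plane}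
    (hc : L + ρ ≤ ‖c‖) : farE L ρ u c = 0 := by
  unfold farE
  have : ∀ t : ℝ, eta L t * bumpr ρ (c - t • u) = 0 := by
    intro t
    by_contra h
    have h1 := far_eta_lt hL (left_ne_zero_of_mul h)
    have h2 := far_norm_lt hρ (right_ne_zero_of_mul h)
    have h3 : ‖c‖ ≤ ‖c - t • u‖ + ‖t • u‖ := by
      have := norm_add_le (c - t • u) (t • u)
      rwa [sub_add_cancel] at this
    rw [norm_smul, hu, mul_one, Real.norm_eq_abs] at h3
    linarith
  simp [this]

lemma far_integral_bumpr_mul (ρ : ℝ) (A B : Plane) :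
    ∫ z, bumpr ρ (A - z) * bumpr ρ (B - z) = farP ρ (A - B) := by
  unfold farP
  rw [← integral_add_right_eq_self (fun z => bumpr ρ (A - z) * bumpr ρ (B - z)) B]
  congr 1
  funext z
  congr 2
  · abel
  · abel

/-- correlation of two segment averages. -/
lemma far_corr {L ρ : ℝ} (hL : 0 < L) (hρ : 0 < ρ) {u : Plane} (hu : ‖u‖ = 1) (w : Plane)
    (c c' : Plane) :
    ∫ z, farE L ρ u (c - z) * farE L ρ w (c' - z) = farQ L ρ u w (c - c') := by
  unfold farE farQ
  rw [far_fubini (φ := fun (t : ℝ) (z : Plane) => eta L t * bumpr ρ (c - z - t • u))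
    (ψ := fun (t : ℝ) (z : Plane) => eta L t * bumpr ρ (c' - z - t • w)) volume volume
    (k := Icc (-L) L) (k' := Icc (-L) L) (m := Metric.closedBall c (L + ρ))]
  · congr 1
    funext t
    congr 1
    funext s
    have e : ∀ z, eta L t * bumpr ρ (c - z - t • u) * (eta L s * bumpr ρ (c' - z - s • w)) =
        eta L t * eta L s * (bumpr ρ ((c - t • u) - z) * bumpr ρ ((c' - s • w) - z)) := by
      intro z
      rw [show c - z - t • u = (c - t • u) - z by abel,
        show c' - z - s • w = (c' - s • w) - z by abel]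
      ring
    simp only [e]
    rw [integral_const_mul, far_integral_bumpr_mul]
    congr 2
    abel
  · exact ((continuous_eta hL).comp continuous_fst).mul
      ((continuous_bumpr ρ).comp (by fun_prop))
  · exact ((continuous_eta hL).comp continuous_fst).mul
      ((continuous_bumpr ρ).comp (by fun_prop))
  · exact isCompact_Icc
  · exact isCompact_Icc
  · exact isCompact_closedBall _ _
  · intro t z h
    by_contra h0
    have h1 := far_eta_lt hL (left_ne_zero_of_mul h0)
    have h2 := far_norm_lt hρ (right_ne_zero_of_mul h0)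
    rcases h with h | h
    · exact h (mem_Icc.mpr (abs_le.mp h1.le))
    · apply h
      rw [Metric.mem_closedBall, dist_comm, dist_eq_norm]
      have h3 : ‖c - z‖ ≤ ‖c - z - t • u‖ + ‖t • u‖ := by
        have := norm_add_le (c - z - t • u) (t • u)
        rwa [sub_add_cancel] at this
      rw [norm_smul, hu, mul_one, Real.norm_eq_abs] at h3
      linarith only [h1, h2, h3]
  · intro t z h
    by_contra h0
    have h1 := far_eta_lt hL (left_ne_zero_of_mul h0)
    exact h (mem_Icc.mpr (abs_le.mp h1.le))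

lemma far_integrable_EE {L ρ : ℝ} (hL : 0 < L) (hρ : 0 < ρ) {u : Plane} (hu : ‖u‖ = 1)
    (w : Plane) (c c' : Plane) :
    Integrable (fun z => farE L ρ u (c - z) * farE L ρ w (c' - z)) := by
  refine Continuous.integrable_of_hasCompactSupport ?_ ?_
  · exact ((far_continuous_E hL u).comp (by fun_prop)).mul
      ((far_continuous_E hL w).comp (by (clear * -; fun_prop)))
  · refine HasCompactSupport.intro (isCompact_closedBall c (L + ρ)) ?_
    intro z hz
    rw [Metric.mem_closedBall, dist_comm, dist_eq_norm, not_le] at hz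
    rw [far_E_eq_zero hL hρ hu hz.le, zero_mul]

lemma far_integral_EE {L ρ : ℝ} (hL : 0 < L) (hρ : 0 < ρ) {u : Plane} (hu : ‖u‖ = 1)
    (w : Plane) (a b c d : Plane) :
    ∫ z, (farE L ρ u (a - z) - farE L ρ u (b - z)) * (farE L ρ w (c - z) - farE L ρ w (d - z)) =
      (farQ L ρ u w (a - c) - farQ L ρ u w (b - c)) -
        (farQ L ρ u w (a - d) - farQ L ρ u w (b - d)) := by
  have e : ∀ z, (farE L ρ u (a - z) - farE L ρ u (b - z)) *
      (farE L ρ w (c - z) - farE L ρ w (d - z)) =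
      (farE L ρ u (a - z) * farE L ρ w (c - z) - farE L ρ u (b - z) * farE L ρ w (c - z)) -
      (farE L ρ u (a - z) * farE L ρ w (d - z) - farE L ρ u (b - z) * farE L ρ w (d - z)) := by
    intro z; ring
  simp only [e]
  have i := fun c c' : Plane => far_integrable_EE hL hρ hu w c c'
  have i1 : Integrable (fun z => farE L ρ u (a - z) * farE L ρ w (c - z) -
      farE L ρ u (b - z) * farE L ρ w (c - z)) := (i a c).sub (i b c)
  have i2 : Integrable (fun z => farE L ρ u (a - z) * farE L ρ w (d - z) -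
      farE L ρ u (b - z) * farE L ρ w (d - z)) := (i a d).sub (i b d)
  rw [integral_sub i1 i2, integral_sub (i a c) (i b c),
    integral_sub (i a d) (i b d), far_corr hL hρ hu, far_corr hL hρ hu, far_corr hL hρ hu,
    far_corr hL hρ hu]

lemma far_kern_eq {v : Plane → Plane} {θ L ρ : ℝ} (hL : 0 < L) (x z : Plane) :
    kern v θ L ρ x z = ∫ h : Plane, bump h * (farE L ρ (v x) (x - z) -
      farE L ρ (v x) (x - (θ * DD v L x) • h - z)) := by
  unfold kern
  congr 1
  funext h
  congr 1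
  unfold farE
  have hi : ∀ c : Plane, Integrable (fun t : ℝ => eta L t * bumpr ρ (c - t • v x)) := by
    intro c
    refine Continuous.integrable_of_hasCompactSupport ?_ ?_
    · exact (continuous_eta hL).mul ((continuous_bumpr ρ).comp (by fun_prop))
    · exact (hasCompactSupport_eta hL).mul_right
  rw [← integral_sub (hi _) (hi _)]
  congr 1
  funext t
  rw [show x - t • v x - z = x - z - t • v x by abel,
    show x - t • v x - (θ * DD v L x) • h - z = x - (θ * DD v L x) • h - z - t • v x by abel]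
  ring

lemma far_bump_lt {h : Plane} (hh : bump h ≠ 0) : ‖h‖ < 1 := by
  by_contra hc
  exact hh (bump_zero_out (not_lt.mp hc))

theorem far_main_eq {v : Plane → Plane} (hvu : ∀ x, ‖v x‖ = 1) {θ L ρ : ℝ} (hL : 0 < L)
    (hρ : 0 < ρ) (x y : Plane) :
    ∫ z, kern v θ L ρ x z * kern v θ L ρ y z = ∫ h : Plane, ∫ h' : Plane, bump h * bump h' *
      ((farQ L ρ (v x) (v y) (x - y) -
          farQ L ρ (v x) (v y) (x - y - (θ * DD v L x) • h)) -
        (farQ L ρ (v x) (v y) (x - (y - (θ * DD v L y) • h')) -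
          farQ L ρ (v x) (v y) (x - (y - (θ * DD v L y) • h') - (θ * DD v L x) • h))) := by
  simp only [far_kern_eq hL]
  have hc : ∀ (a : Plane) (r : ℝ), Continuous (Function.uncurry fun (h : Plane) (z : Plane) =>
      bump h * (farE L ρ (v a) (a - z) - farE L ρ (v a) (a - r • h - z))) := by
    intro a r
    refine (continuous_bump.comp continuous_fst).mul (Continuous.sub ?_ ?_)
    · exact (far_continuous_E hL _).comp (by fun_prop)
    · exact (far_continuous_E hL _).comp (by fun_prop)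
  have h0 : ∀ (a : Plane) (r : ℝ) (h z : Plane), h ∉ Metric.closedBall (0 : Plane) 1 →
      bump h * (farE L ρ (v a) (a - z) - farE L ρ (v a) (a - r • h - z)) = 0 := by
    intro a r h z hh
    rw [mem_closedBall_zero_iff, not_le] at hh
    rw [bump_zero_out hh.le, zero_mul]
  rw [far_fubini (φ := fun (h z : Plane) => bump h * (farE L ρ (v x) (x - z) -
      farE L ρ (v x) (x - (θ * DD v L x) • h - z)))
    (ψ := fun (h z : Plane) => bump h * (farE L ρ (v y) (y - z) -
      farE L ρ (v y) (y - (θ * DD v L y) • h - z))) volume volume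
    (k := Metric.closedBall 0 1) (k' := Metric.closedBall 0 1)
    (m := Metric.closedBall x (L + ρ + |θ * DD v L x|)) (hc _ _) (hc _ _)
    (isCompact_closedBall _ _) (isCompact_closedBall _ _) (isCompact_closedBall _ _)
    _ (fun h z hh => h0 y _ h z hh)]
  · congr 1
    funext h
    congr 1
    funext h'
    have e : ∀ z, bump h * (farE L ρ (v x) (x - z) -
        farE L ρ (v x) (x - (θ * DD v L x) • h - z)) * (bump h' * (farE L ρ (v y) (y - z) -
        farE L ρ (v y) (y - (θ * DD v L y) • h' - z))) = bump h * bump h' *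
        ((farE L ρ (v x) (x - z) - farE L ρ (v x) (x - (θ * DD v L x) • h - z)) *
        (farE L ρ (v y) (y - z) - farE L ρ (v y) (y - (θ * DD v L y) • h' - z))) := by
      intro z; ring
    simp only [e]
    rw [integral_const_mul, far_integral_EE hL hρ (hvu x)]
    rw [show x - (θ * DD v L x) • h - y = x - y - (θ * DD v L x) • h by abel,
      show x - (θ * DD v L x) • h - (y - (θ * DD v L y) • h') =
        x - (y - (θ * DD v L y) • h') - (θ * DD v L x) • h by abel]
  · intro h z hh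
    rcases hh with hh | hh
    · exact h0 x _ h z hh
    · by_cases h1 : ‖h‖ ≤ 1
      · rw [Metric.mem_closedBall, dist_comm, dist_eq_norm, not_le] at hh
        have h2 : ‖(θ * DD v L x) • h‖ ≤ |θ * DD v L x| := by
          rw [norm_smul, Real.norm_eq_abs]
          exact mul_le_of_le_one_right (abs_nonneg _) h1
        have h3 : L + ρ ≤ ‖x - (θ * DD v L x) • h - z‖ := by
          have h4 : ‖x - z‖ ≤ ‖x - (θ * DD v L x) • h - z‖ + ‖(θ * DD v L x) • h‖ := by
            have := norm_add_le (x - (θ * DD v L x) • h - z) ((θ * DD v L x) • h)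
            rwa [show x - (θ * DD v L x) • h - z + (θ * DD v L x) • h = x - z by abel] at this
          linarith only [hh, h2, h4]
        have h5 : L + ρ ≤ ‖x - z‖ := by
          have := abs_nonneg (θ * DD v L x)
          linarith only [hh, this]
        rw [far_E_eq_zero hL hρ (hvu x) h3, far_E_eq_zero hL hρ (hvu x) h5, sub_self, mul_zero]
      · apply h0
        rw [mem_closedBall_zero_iff]
        exact h1


lemma far_continuous_P {ρ : ℝ} (hρ : 0 < ρ) : Continuous (farP ρ) := by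
  unfold farP
  rw [← continuousOn_univ]
  refine continuousOn_integral_of_compact_support
    (f := fun (ζ z : Plane) => bumpr ρ (ζ - z) * bumpr ρ (-z))
    (isCompact_closedBall (0 : Plane) ρ) ?_ ?_
  · refine Continuous.continuousOn ?_
    exact ((continuous_bumpr ρ).comp (by fun_prop)).mul ((continuous_bumpr ρ).comp (by fun_prop))
  · intro ζ z _ hz
    rw [mem_closedBall_zero_iff, not_le] at hz
    rw [bumpr_eq_zero hρ (z := -z) (by rw [norm_neg]; exact hz.le), mul_zero]

lemma far_P_nonneg {ρ : ℝ} (hρ : 0 < ρ) (ζ : Plane) : 0 ≤ farP ρ ζ :=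
  integral_nonneg fun _ => mul_nonneg (bumpr_nonneg hρ _) (bumpr_nonneg hρ _)

lemma far_P_eq_zero {ρ : ℝ} (hρ : 0 < ρ) {ζ : Plane} (hζ : 2 * ρ ≤ ‖ζ‖) : farP ρ ζ = 0 := by
  unfold farP
  have : ∀ z, bumpr ρ (ζ - z) * bumpr ρ (-z) = 0 := by
    intro z
    by_contra h
    have h1 := far_norm_lt hρ (left_ne_zero_of_mul h)
    have h2 := far_norm_lt hρ (right_ne_zero_of_mul h)
    rw [norm_neg] at h2
    have h3 : ‖ζ‖ ≤ ‖ζ - z‖ + ‖z‖ := by
      have := norm_add_le (ζ - z) z
      rwa [sub_add_cancel] at this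
    linarith
  simp only [this, integral_zero]

lemma far_P_hcs {ρ : ℝ} (hρ : 0 < ρ) : HasCompactSupport (farP ρ) := by
  refine HasCompactSupport.intro (isCompact_closedBall (0 : Plane) (2 * ρ)) ?_
  intro z hz
  apply far_P_eq_zero hρ
  rw [mem_closedBall_zero_iff, not_le] at hz
  exact hz.le

lemma far_integral_P {ρ : ℝ} (hρ : 0 < ρ) : ∫ ζ, farP ρ ζ = 1 := by
  unfold farP
  rw [integral_integral_swap_of_hasCompactSupport
    (f := fun (ζ z : Plane) => bumpr ρ (ζ - z) * bumpr ρ (-z))]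
  · have e : ∀ z : Plane, ∫ ζ, bumpr ρ (ζ - z) * bumpr ρ (-z) = bumpr ρ z := by
      intro z
      rw [integral_mul_const, integral_sub_right_eq_self (fun ζ => bumpr ρ ζ) z,
        integral_bumpr hρ, one_mul, bumpr_neg]
    simp only [e]
    exact integral_bumpr hρ
  · exact ((continuous_bumpr ρ).comp (by fun_prop)).mul ((continuous_bumpr ρ).comp (by fun_prop))
  · refine HasCompactSupport.intro ((isCompact_closedBall (0 : Plane) (2 * ρ)).prod
      (isCompact_closedBall (0 : Plane) ρ)) ?_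
    rintro ⟨ζ, z⟩ hz
    by_contra h
    have h1 := far_norm_lt hρ (left_ne_zero_of_mul h)
    have h2 := far_norm_lt hρ (right_ne_zero_of_mul h)
    rw [norm_neg] at h2
    simp only at h1 h2
    apply hz
    rw [mem_prod, mem_closedBall_zero_iff, mem_closedBall_zero_iff]
    refine ⟨?_, h2.le⟩
    have h3 : ‖ζ‖ ≤ ‖ζ - z‖ + ‖z‖ := by
      have := norm_add_le (ζ - z) z
      rwa [sub_add_cancel] at this
    simp only
    linarith only [h1, h2, h3]

lemma far_Q_eq_zero {L ρ : ℝ} (hL : 0 < L) (hρ : 0 < ρ) {u w c : Plane}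
    (h : ∀ t s : ℝ, |t| ≤ L → |s| ≤ L → 2 * ρ ≤ ‖c - t • u + s • w‖) : farQ L ρ u w c = 0 := by
  unfold farQ
  have : ∀ t s : ℝ, eta L t * eta L s * farP ρ (c - t • u + s • w) = 0 := by
    intro t s
    by_contra h0
    have h1 := far_eta_lt hL (left_ne_zero_of_mul (left_ne_zero_of_mul h0))
    have h2 := far_eta_lt hL (right_ne_zero_of_mul (left_ne_zero_of_mul h0))
    exact (right_ne_zero_of_mul h0) (far_P_eq_zero hρ (h t s h1.le h2.le))
  simp only [this, integral_zero]

/-- the weight used to bound the brackets. -/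
noncomputable def farG (L m α β : ℝ) : ℝ≥0∞ :=
  (Icc (-(3 * L)) (3 * L)).indicator (fun _ => (1 : ℝ≥0∞)) α *
    ENNReal.ofReal (2 * (L / m) ^ 2 / (1 + (β / (4 * m)) ^ 2))

lemma far_measurable_G (L m : ℝ) : Measurable (fun q : ℝ × ℝ => farG L m q.1 q.2) := by
  unfold farG
  refine Measurable.mul ?_ ?_
  · exact (measurable_const.indicator measurableSet_Icc).comp measurable_fst
  · refine ENNReal.measurable_ofReal.comp ?_
    fun_prop

open scoped RealInnerProductSpace in
theorem far_Qdiff : ∃ C : ℝ, 0 < C ∧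
    ∀ (v : Plane → Plane), LipschitzWith 1 v → (∀ x, ‖v x‖ = 1) → ∀ (L θ κ ρ : ℝ), 0 < L →
    L ≤ 1 / 64 → 0 < θ → θ ≤ κ → κ ≤ 1 → ∀ (x y y' h : Plane)
    (b : OrthonormalBasis (Fin 2) ℝ Plane), 0 < ρ → ρ ≤ θ * DD v L x → b 0 = v x →
    κ * (DD v L x / L) ≤ ‖v y - v x‖ → ‖y - y'‖ ≤ θ * DD v L y → ‖h‖ ≤ 1 →
    ‖farQ L ρ (v x) (v y) (x - y') -
      farQ L ρ (v x) (v y) (x - y' - (θ * DD v L x) • h)‖ₑ ≤
      ENNReal.ofReal (C * (θ * DD v L x) / L ^ 3) *
        farG L (κ * DD v L x) ⟪b 0, y' - x⟫ ⟪b 1, y' - x⟫ := by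
  obtain ⟨C, hC, htr⟩ := transversal
  refine ⟨C, hC, ?_⟩
  intro v hvl hvu L θ κ ρ hL hL1 hθ hθκ hκ1 x y y' h b hρ hρD hb0 hfar hyy' hh
  set D := DD v L x with hD
  set r := θ * D with hr
  have hr0 : 0 < r := lt_of_lt_of_le hρ hρD
  have hD0 : 0 < D := (mul_pos_iff_of_pos_left hθ).mp hr0
  have hκ : 0 < κ := lt_of_lt_of_le hθ hθκ
  set m := κ * D with hm
  have hm0 : 0 < m := mul_pos hκ hD0
  have hrm : r ≤ m := mul_le_mul_of_nonneg_right hθκ hD0.le
  have hDL : D ≤ L ^ 2 := DD_le hvl hvu hL.le x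
  have hmD : m ≤ D := mul_le_of_le_one_left hD0.le hκ1
  have hrL : r ≤ L ^ 2 := (hrm.trans hmD).trans hDL
  have hL2 : L ^ 2 ≤ L / 64 := by
    have h := mul_le_mul_of_nonneg_left hL1 hL.le
    rw [sq]; linarith only [h]
  set a := ‖v y - v x‖ with ha
  have ham : m / L ≤ a := by
    rw [hm, mul_div_assoc]; exact hfar
  have ha0 : 0 < a := lt_of_lt_of_le (div_pos hm0 hL) ham
  have hmLa : m ≤ L * a := by
    rw [div_le_iff₀ hL] at ham
    linarith only [ham]
  by_cases hz : ∃ t s : ℝ, |t| ≤ L ∧ |s| ≤ L ∧ ‖x - y' - t • v x + s • v y‖ ≤ 3 * r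
  · obtain ⟨t, s, ht, hs, hts⟩ := hz
    set ξ := x - y' - t • v x + s • v y with hξ
    have he : y' - x = s • v y - t • v x - ξ := by rw [hξ]; abel
    have hue : ‖y' - x‖ ≤ 2 * L + 3 * r := by
      rw [he]
      have h1 := norm_sub_le (s • v y - t • v x) ξ
      have h2 := norm_sub_le (s • v y) (t • v x)
      rw [norm_smul, norm_smul, hvu, hvu, mul_one, mul_one, Real.norm_eq_abs,
        Real.norm_eq_abs] at h2
      linarith only [ht, hs, hts, h1, h2]
    have hα : |⟪b 0, y' - x⟫| ≤ 3 * L := by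
      have h1 := abs_real_inner_le_norm (b 0) (y' - x)
      rw [b.norm_eq_one, one_mul] at h1
      linarith only [hD0, hrm, hDL, hmD, hL2, hue, h1]
    have hβ : |⟪b 1, y' - x⟫| ≤ 4 * (L * a) := by
      have h0 : ⟪b 1, v x⟫ = 0 := by
        rw [← hb0]
        exact b.orthonormal.2 (by decide)
      have h1 : ⟪b 1, y' - x⟫ = s * ⟪b 1, v y - v x⟫ - ⟪b 1, ξ⟫ := by
        rw [he, inner_sub_right, inner_sub_right, inner_smul_right, inner_smul_right,
          inner_sub_right, h0]
        ring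
      have h2 := abs_real_inner_le_norm (b 1) (v y - v x)
      have h3 := abs_real_inner_le_norm (b 1) ξ
      rw [b.norm_eq_one, one_mul] at h2 h3
      rw [h1]
      have h4 := abs_sub (s * ⟪b 1, v y - v x⟫) ⟪b 1, ξ⟫
      rw [abs_mul] at h4
      have h5 : |s| * |⟪b 1, v y - v x⟫| ≤ L * a :=
        mul_le_mul hs h2 (abs_nonneg _) hL.le
      linarith only [hrm, hmLa, hts, h3, h4, h5]
    have ha1 : a ≤ 1 := by
      have h1 : a ≤ ‖y - x‖ := by
        have := hvl.dist_le_mul y x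
        rw [dist_eq_norm, dist_eq_norm, NNReal.coe_one, one_mul] at this
        exact this
      have h2 : ‖y - x‖ ≤ ‖y - y'‖ + ‖y' - x‖ := by
        have := norm_add_le (y - y') (y' - x)
        rwa [sub_add_sub_cancel] at this
      have h3 : θ * DD v L y ≤ L ^ 2 := by
        have h4 := DD_le hvl hvu hL.le y
        have h5 := DD_nonneg v hL.le y
        calc θ * DD v L y ≤ 1 * DD v L y :=
              mul_le_mul_of_nonneg_right (hθκ.trans hκ1) h5
          _ ≤ L ^ 2 := by rw [one_mul]; exact h4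
      linarith only [hL1, hyy', hD0, hrm, hDL, hmD, hL2, hue, h1, h2, h3]
    have hk : ‖-(r • h)‖ ≤ r := by
      rw [norm_neg, norm_smul, Real.norm_eq_abs, abs_of_pos hr0]
      exact mul_le_of_le_one_right hr0.le hh
    have hmain := htr L hL (v x) (v y) (hvu x) (hvu y) ha0 ha1 (farP ρ) (far_continuous_P hρ)
      (far_P_hcs hρ) (far_P_nonneg hρ) (far_integral_P hρ).le (x - y') (-(r • h))
    have hmain' : |farQ L ρ (v x) (v y) (x - y' - r • h) - farQ L ρ (v x) (v y) (x - y')| ≤
        C * ‖-(r • h)‖ / (L ^ 3 * a ^ 2) := by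
      rw [sub_eq_add_neg (x - y') (r • h)]
      exact hmain
    have hG : farG L m ⟪b 0, y' - x⟫ ⟪b 1, y' - x⟫ =
        ENNReal.ofReal (2 * (L / m) ^ 2 / (1 + (⟪b 1, y' - x⟫ / (4 * m)) ^ 2)) := by
      unfold farG
      rw [indicator_of_mem (mem_Icc.mpr (abs_le.mp hα)), one_mul]
    rw [hG, ← ENNReal.ofReal_mul (by (clear * - hC hθ hD0 hL; positivity)), Real.enorm_eq_ofReal_abs, abs_sub_comm]
    refine ENNReal.ofReal_le_ofReal (hmain'.trans ?_)
    set β := ⟪b 1, y' - x⟫ with hβd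
    set X := L * a / m with hX
    have hX1 : 1 ≤ X := by rw [hX, le_div_iff₀ hm0]; linarith only [hmLa]
    have hq : |β / (4 * m)| ≤ X := by
      rw [abs_div, abs_of_pos (show 0 < 4 * m by (clear * - hκ hD0; positivity)), hX, div_le_div_iff₀ (by (clear * - hκ hD0; positivity))
        hm0]
      have h := mul_le_mul_of_nonneg_right hβ hm0.le
      linarith only [h]
    have hq2 : (β / (4 * m)) ^ 2 ≤ X ^ 2 := by
      rw [← sq_abs]
      exact pow_le_pow_left₀ (abs_nonneg _) hq 2
    have hX2 : 1 ≤ X ^ 2 := one_le_pow₀ hX1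
    have h1 : 1 / a ^ 2 ≤ 2 * (L / m) ^ 2 / (1 + (β / (4 * m)) ^ 2) := by
      rw [div_le_div_iff₀ (by (clear * - ha0; positivity)) (by (clear * -; positivity))]
      have h2 : 2 * (L / m) ^ 2 * a ^ 2 = 2 * X ^ 2 := by
        rw [hX]; (clear * - ha0 hm0 hL; field_simp)
      rw [h2]; linarith only [hq2, hX2]
    calc C * ‖-(r • h)‖ / (L ^ 3 * a ^ 2) ≤ C * r / (L ^ 3 * a ^ 2) := by (clear * - hk hC hL ha0; gcongr)
      _ = C * r / L ^ 3 * (1 / a ^ 2) := by (clear * - ha0 hL hr0 hC; field_simp)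
      _ ≤ _ := by (clear * - h1 hC hθ hD0 hL; gcongr)
  · push Not at hz
    have z1 : farQ L ρ (v x) (v y) (x - y') = 0 := by
      refine far_Q_eq_zero hL hρ fun t s ht hs => ?_
      have := hz t s ht hs
      linarith only [hρ, hρD, this]
    have z2 : farQ L ρ (v x) (v y) (x - y' - r • h) = 0 := by
      refine far_Q_eq_zero hL hρ fun t s ht hs => ?_
      have h1 := hz t s ht hs
      have h2 : ‖r • h‖ ≤ r := by
        rw [norm_smul, Real.norm_eq_abs, abs_of_pos hr0]
        exact mul_le_of_le_one_right hr0.le hh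
      have h3 : ‖x - y' - t • v x + s • v y‖ ≤
          ‖x - y' - r • h - t • v x + s • v y‖ + ‖r • h‖ := by
        have := norm_add_le (x - y' - r • h - t • v x + s • v y) (r • h)
        rwa [show x - y' - r • h - t • v x + s • v y + r • h =
          x - y' - t • v x + s • v y by abel] at this
      linarith only [hρD, h1, h2, h3]
    rw [z1, z2, sub_self, enorm_zero]
    exact bot_le

open scoped RealInnerProductSpace in
lemma far_exists_basis (u : Plane) (hu : ‖u‖ = 1) :
    ∃ b : OrthonormalBasis (Fin 2) ℝ Plane, b 0 = u := by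
  have hv : Orthonormal ℝ (({0} : Set (Fin 2)).domRestrict (fun _ : Fin 2 => u)) := by
    refine ⟨fun i => hu, ?_⟩
    intro i j hij
    exact absurd (Subsingleton.elim i j) hij
  obtain ⟨b, hb⟩ := hv.exists_orthonormalBasis_extension_of_card_eq (by simp only [finrank_euclideanSpace, Fintype.card_fin])
  exact ⟨b, hb 0 rfl⟩

open scoped RealInnerProductSpace in
lemma far_lintegral_basis (b : OrthonormalBasis (Fin 2) ℝ Plane) (G : ℝ × ℝ → ℝ≥0∞)
    (hG : Measurable G) : ∫⁻ z : Plane, G (⟪b 0, z⟫, ⟪b 1, z⟫) = ∫⁻ q : ℝ × ℝ, G q := by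
  have m1 := b.measurePreserving_repr
  have m2 := EuclideanSpace.volume_preserving_symm_measurableEquiv_toLp (Fin 2)
  have m3 := volume_preserving_finTwoArrow ℝ
  rw [← m3.lintegral_comp hG]
  have h3 : Measurable (fun a : Fin 2 → ℝ => G (MeasurableEquiv.finTwoArrow a)) :=
    hG.comp MeasurableEquiv.finTwoArrow.measurable
  rw [← m2.lintegral_comp h3]
  have h4 : Measurable (fun a : EuclideanSpace ℝ (Fin 2) =>
    G (MeasurableEquiv.finTwoArrow ((MeasurableEquiv.toLp 2 (Fin 2 → ℝ)).symm a))) :=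
    h3.comp (MeasurableEquiv.measurable _)
  rw [← m1.lintegral_comp h4]
  refine lintegral_congr fun z => ?_
  congr 1
  rw [Prod.ext_iff]
  constructor
  · exact (b.repr_apply_apply z 0).symm
  · exact (b.repr_apply_apply z 1).symm

lemma far_lintegral_inv (c : ℝ) (hc : 0 < c) :
    ∫⁻ β : ℝ, ENNReal.ofReal (1 / (1 + (β / c) ^ 2)) = ENNReal.ofReal (c * Real.pi) := by
  have hi : Integrable (fun β : ℝ => 1 / (1 + (β / c) ^ 2)) := by
    have h1 := (integrable_inv_one_add_sq).comp_div hc.ne'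
    refine h1.congr (Filter.Eventually.of_forall fun β => ?_)
    simp only [one_div]
  rw [← ofReal_integral_eq_lintegral_ofReal hi (Filter.Eventually.of_forall fun β => by positivity)]
  congr 1
  have h2 := Measure.integral_comp_div (fun β : ℝ => (1 + β ^ 2)⁻¹) c
  rw [integral_univ_inv_one_add_sq, smul_eq_mul, abs_of_pos hc] at h2
  rw [← h2]
  congr 1
  funext β
  rw [one_div]

lemma far_lintegral_G {L m : ℝ} (hL : 0 < L) (hm : 0 < m) :
    ∫⁻ q : ℝ × ℝ, farG L m q.1 q.2 = ENNReal.ofReal (48 * Real.pi * L ^ 3 / m) := by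
  unfold farG
  have e : ∀ β : ℝ, ENNReal.ofReal (2 * (L / m) ^ 2 / (1 + (β / (4 * m)) ^ 2)) =
      ENNReal.ofReal (2 * (L / m) ^ 2) * ENNReal.ofReal (1 / (1 + (β / (4 * m)) ^ 2)) := by
    intro β
    rw [← ENNReal.ofReal_mul (by positivity)]
    congr 1
    ring
  simp only [e]
  rw [Measure.volume_eq_prod, lintegral_prod_mul
    (f := (Icc (-(3 * L)) (3 * L)).indicator (fun _ => (1 : ℝ≥0∞)))
    (g := fun β : ℝ => ENNReal.ofReal (2 * (L / m) ^ 2) *
      ENNReal.ofReal (1 / (1 + (β / (4 * m)) ^ 2)))]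
  · rw [lintegral_indicator measurableSet_Icc, setLIntegral_const, one_mul, Real.volume_Icc,
      lintegral_const_mul, far_lintegral_inv _ (by positivity), ← ENNReal.ofReal_mul (by positivity),
      ← ENNReal.ofReal_mul (by linarith only [hL])]
    · congr 1
      field_simp
      ring
    · refine ENNReal.measurable_ofReal.comp ?_
      fun_prop
  · exact (measurable_const.indicator measurableSet_Icc).aemeasurable
  · refine Measurable.aemeasurable ?_
    refine Measurable.const_mul ?_ _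
    refine ENNReal.measurable_ofReal.comp ?_
    fun_prop

open scoped RealInnerProductSpace in
lemma far_lintegral_g (b : OrthonormalBasis (Fin 2) ℝ Plane) (x : Plane) {L m : ℝ} (hL : 0 < L)
    (hm : 0 < m) :
    ∫⁻ y : Plane, farG L m ⟪b 0, y - x⟫ ⟪b 1, y - x⟫ =
      ENNReal.ofReal (48 * Real.pi * L ^ 3 / m) := by
  rw [lintegral_sub_right_eq_self (fun y : Plane => farG L m ⟪b 0, y⟫ ⟪b 1, y⟫) x,
    ← far_lintegral_G hL hm, ← far_lintegral_basis b _ (far_measurable_G L m)]

open scoped RealInnerProductSpace in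
/-- the pointwise bound of the correlation of two kernels. -/
lemma far_pointwise {v : Plane → Plane} (hvu : ∀ x, ‖v x‖ = 1) {θ L ρ : ℝ} (hL : 0 < L)
    (hρ : 0 < ρ) (hθ : 0 ≤ θ) (x y : Plane) (c₀ : ℝ≥0∞) (g : Plane → ℝ≥0∞)
    (hQ : ∀ y' h : Plane, ‖y - y'‖ ≤ θ * DD v L y → ‖h‖ ≤ 1 →
      ‖farQ L ρ (v x) (v y) (x - y') -
        farQ L ρ (v x) (v y) (x - y' - (θ * DD v L x) • h)‖ₑ ≤ c₀ * g y') :
    ‖∫ z, kern v θ L ρ x z * kern v θ L ρ y z‖ₑ ≤
      ∫⁻ h' : Plane, ‖bump h'‖ₑ * (c₀ * (g y + g (y - (θ * DD v L y) • h'))) := by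
  rw [far_main_eq hvu hL hρ]
  have hy0 : 0 ≤ θ * DD v L y := mul_nonneg hθ (DD_nonneg v hL.le y)
  calc _ ≤ ∫⁻ h : Plane, ∫⁻ h' : Plane, ‖bump h * bump h' *
      ((farQ L ρ (v x) (v y) (x - y) -
          farQ L ρ (v x) (v y) (x - y - (θ * DD v L x) • h)) -
        (farQ L ρ (v x) (v y) (x - (y - (θ * DD v L y) • h')) -
          farQ L ρ (v x) (v y) (x - (y - (θ * DD v L y) • h') - (θ * DD v L x) • h)))‖ₑ :=
        (enorm_integral_le_lintegral_enorm _).trans
          (lintegral_mono fun h => enorm_integral_le_lintegral_enorm _)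
    _ ≤ ∫⁻ h : Plane, ∫⁻ h' : Plane, ‖bump h‖ₑ *
        (‖bump h'‖ₑ * (c₀ * (g y + g (y - (θ * DD v L y) • h')))) := by
        refine lintegral_mono fun h => lintegral_mono fun h' => ?_
        rw [enorm_mul, enorm_mul, mul_assoc]
        by_cases hh : bump h = 0
        · rw [hh, enorm_zero, zero_mul]; exact bot_le
        by_cases hh' : bump h' = 0
        · rw [hh', enorm_zero, zero_mul, mul_zero]; exact bot_le
        have h1 := (far_bump_lt hh).le
        have h2 := (far_bump_lt hh').le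
        gcongr
        refine (enorm_sub_le).trans ?_
        rw [mul_add]
        refine add_le_add (hQ y h ?_ h1) (hQ _ h ?_ h1)
        · rw [sub_self, norm_zero]; exact hy0
        · rw [sub_sub_cancel, norm_smul, Real.norm_eq_abs, abs_of_nonneg hy0]
          exact mul_le_of_le_one_right hy0 h2
    _ = _ := by
        have hm : ∀ h : Plane, ∫⁻ h' : Plane, ‖bump h‖ₑ *
            (‖bump h'‖ₑ * (c₀ * (g y + g (y - (θ * DD v L y) • h')))) = ‖bump h‖ₑ *
            ∫⁻ h' : Plane, (‖bump h'‖ₑ * (c₀ * (g y + g (y - (θ * DD v L y) • h')))) := fun h =>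
          lintegral_const_mul' _ _ enorm_ne_top
        simp only [hm]
        rw [lintegral_mul_const _ continuous_bump.measurable.enorm, lintegral_bump, one_mul]

/-- integration of the pointwise bound. -/
lemma far_integrate {v : Plane → Plane} (hvl : LipschitzWith 1 v) {θ L : ℝ} (hL : 0 < L)
    (hL1 : L ≤ 1 / 64) (hθ : 0 ≤ θ) (hθ1 : θ ≤ 1) (c₀ : ℝ≥0∞) (g : Plane → ℝ≥0∞)
    (hg : Measurable g) :
    ∫⁻ y : Plane, ∫⁻ h' : Plane, ‖bump h'‖ₑ * (c₀ * (g y + g (y - (θ * DD v L y) • h'))) ≤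
      c₀ * (5 * ∫⁻ y, g y) := by
  have hDl : ∀ x y, |DD v L x - DD v L y| ≤ 6 * L * ‖x - y‖ := fun x y =>
    DD_lip hvl hL.le (by linarith) x y
  have hDc : Continuous (DD v L) := by
    have : LipschitzWith (Real.toNNReal (6 * L)) (DD v L) := by
      refine LipschitzWith.of_dist_le_mul fun x y => ?_
      rw [Real.dist_eq, dist_eq_norm, Real.coe_toNNReal _ (by positivity)]
      exact hDl x y
    exact this.continuous
  have hS : Measurable (fun q : Plane × Plane => q.1 - (θ * DD v L q.1) • q.2) := by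
    refine Continuous.measurable ?_
    fun_prop
  have hm1 : Measurable (fun q : Plane × Plane =>
      ‖bump q.2‖ₑ * (c₀ * (g q.1 + g (q.1 - (θ * DD v L q.1) • q.2)))) := by
    refine (continuous_bump.measurable.enorm.comp measurable_snd).mul ?_
    refine Measurable.const_mul ?_ _
    exact (hg.comp measurable_fst).add (hg.comp hS)
  rw [lintegral_lintegral_swap hm1.aemeasurable]
  have key : ∀ h' : Plane, ∫⁻ y : Plane, ‖bump h'‖ₑ *
      (c₀ * (g y + g (y - (θ * DD v L y) • h'))) ≤ ‖bump h'‖ₑ * (c₀ * (5 * ∫⁻ y, g y)) := by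
    intro h'
    by_cases hh' : bump h' = 0
    · rw [hh', enorm_zero]; simp
    have h2 := (far_bump_lt hh').le
    have hS' : Measurable (fun y : Plane => g (y - (θ * DD v L y) • h')) := by
      refine hg.comp (Continuous.measurable ?_)
      fun_prop
    have hS2 : Measurable (fun y : Plane => g y + g (y - (θ * DD v L y) • h')) := hg.add hS'
    rw [lintegral_const_mul' _ _ enorm_ne_top, lintegral_const_mul _ hS2,
      lintegral_add_left hg]
    gcongr
    have hc : LipschitzWith (1 / 4 : ℝ≥0) (fun y : Plane => (y - (θ * DD v L y) • h') - y) := by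
      refine LipschitzWith.of_dist_le_mul fun y y' => ?_
      rw [dist_eq_norm, dist_eq_norm]
      have e : y - (θ * DD v L y) • h' - y - (y' - (θ * DD v L y') • h' - y') =
          (θ * (DD v L y' - DD v L y)) • h' := by
        rw [mul_sub, sub_smul]; abel
      rw [e, norm_smul, norm_mul, Real.norm_eq_abs, Real.norm_eq_abs, abs_of_nonneg hθ,
        abs_sub_comm]
      have h3 := hDl y y'
      have h4 : ((1 / 4 : ℝ≥0) : ℝ) = 1 / 4 := by norm_num
      rw [h4]
      have h5 : θ * |DD v L y - DD v L y'| ≤ 1 / 4 * ‖y - y'‖ := by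
        have h6 : θ * |DD v L y - DD v L y'| ≤ 1 * |DD v L y - DD v L y'| :=
          mul_le_mul_of_nonneg_right hθ1 (abs_nonneg _)
        have h7 : 6 * L * ‖y - y'‖ ≤ 1 / 4 * ‖y - y'‖ :=
          mul_le_mul_of_nonneg_right (by linarith only [hL, hL1]) (norm_nonneg _)
        linarith only [h3, h6, h7]
      calc θ * |DD v L y - DD v L y'| * ‖h'‖ ≤ θ * |DD v L y - DD v L y'| * 1 :=
            mul_le_mul_of_nonneg_left h2 (by (clear * - hθ; positivity))
        _ ≤ 1 / 4 * ‖y - y'‖ := by rw [mul_one]; exact h5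
    have h8 := lintegral_comp_le (c := 1 / 4) le_rfl hc g hg
    calc (∫⁻ y, g y) + ∫⁻ y, g (y - (θ * DD v L y) • h') ≤ (∫⁻ y, g y) + 4 * ∫⁻ y, g y := by
          (clear * - h8; gcongr)
      _ = 5 * ∫⁻ y, g y := by ring
  calc _ ≤ ∫⁻ h' : Plane, ‖bump h'‖ₑ * (c₀ * (5 * ∫⁻ y, g y)) := lintegral_mono key
    _ = _ := by
      rw [lintegral_mul_const _ continuous_bump.measurable.enorm, lintegral_bump, one_mul]

open scoped RealInnerProductSpace in
theorem far_bound : ∃ C : ℝ, 0 < C ∧
    ∀ (v : Plane → Plane), LipschitzWith 1 v → (∀ x, ‖v x‖ = 1) → ∀ (L θ κ ρ : ℝ), 0 < L →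
    L ≤ 1 / 64 → 0 < θ → θ ≤ κ → κ ≤ 1 → ∀ x : Plane, 0 < ρ →
    ρ ≤ θ * DD v L x →
    ∫⁻ y in {y : Plane | κ * (DD v L x / L) ≤ ‖v y - v x‖},
      ‖∫ z, kern v θ L ρ x z * kern v θ L ρ y z‖ₑ ≤ ENNReal.ofReal (C * (θ / κ)) := by
  obtain ⟨C, hC, hQ⟩ := far_Qdiff
  refine ⟨C * (240 * Real.pi), by positivity, ?_⟩
  intro v hvl hvu L θ κ ρ hL hL1 hθ hθκ hκ1 x hρ hρD
  obtain ⟨b, hb⟩ := far_exists_basis (v x) (hvu x)
  have hκ : 0 < κ := lt_of_lt_of_le hθ hθκ
  have hr0 : 0 < θ * DD v L x := lt_of_lt_of_le hρ hρD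
  have hD0 : 0 < DD v L x := (mul_pos_iff_of_pos_left hθ).mp hr0
  set g : Plane → ℝ≥0∞ := fun y' => farG L (κ * DD v L x) ⟪b 0, y' - x⟫ ⟪b 1, y' - x⟫ with hg
  set c₀ : ℝ≥0∞ := ENNReal.ofReal (C * (θ * DD v L x) / L ^ 3) with hc₀
  have hgm : Measurable g := by
    have h1 : Measurable (fun y' : Plane => ((⟪b 0, y' - x⟫ : ℝ), (⟪b 1, y' - x⟫ : ℝ))) := by
      refine Continuous.measurable ?_
      fun_prop
    exact (far_measurable_G L (κ * DD v L x)).comp h1
  have hmeas : MeasurableSet {y : Plane | κ * (DD v L x / L) ≤ ‖v y - v x‖} :=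
    (isClosed_le continuous_const ((hvl.continuous.sub continuous_const).norm)).measurableSet
  calc ∫⁻ y in {y : Plane | κ * (DD v L x / L) ≤ ‖v y - v x‖},
      ‖∫ z, kern v θ L ρ x z * kern v θ L ρ y z‖ₑ
      ≤ ∫⁻ y in {y : Plane | κ * (DD v L x / L) ≤ ‖v y - v x‖},
        ∫⁻ h' : Plane, ‖bump h'‖ₑ * (c₀ * (g y + g (y - (θ * DD v L y) • h'))) := by
        refine setLIntegral_mono' hmeas fun y hy => ?_
        refine far_pointwise hvu hL hρ hθ.le x y c₀ g fun y' h hy' hh => ?_
        exact hQ v hvl hvu L θ κ ρ hL hL1 hθ hθκ hκ1 x y y' h b hρ hρD hb hy hy' hh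
    _ ≤ ∫⁻ y : Plane, ∫⁻ h' : Plane, ‖bump h'‖ₑ *
        (c₀ * (g y + g (y - (θ * DD v L y) • h'))) := setLIntegral_le_lintegral _ _
    _ ≤ c₀ * (5 * ∫⁻ y, g y) :=
        far_integrate hvl hL hL1 hθ.le (hθκ.trans hκ1) c₀ g hgm
    _ = ENNReal.ofReal (C * (240 * Real.pi) * (θ / κ)) := by
        rw [hg, far_lintegral_g b x hL (mul_pos hκ hD0), hc₀,
          show (5 : ℝ≥0∞) = ENNReal.ofReal 5 by norm_num, ← ENNReal.ofReal_mul (by norm_num),
          ← ENNReal.ofReal_mul (by (clear * - hC hθ hD0 hL; positivity))]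
        congr 1
        have hD' := hD0.ne'
        field_simp
        ring

end Vale.Agent.P112
end
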