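import Vale.Agent.P112.Bdl.B2
import Vale.Agent.P112.Bdl.B3
attribute [-instance] ProperSMul.toContinuousSMul IsTopologicalTorsor.toContinuousSMul IdemSemiring.toCanonicallyOrderedAdd IdemSemiring.toMulLeftMono IdemSemiring.toMulRightMono AddQuantale.instAddLeftMono AddQuantale.instAddRightMono Quantale.instMulLeftMono Quantale.instMulRightMono FiniteDimensional.rclike_to_real IsScalarTower.complexToReal FiniteDimensional.complexToReal

set_option linter.all false

attribute [local instance] Vale.Agent.P112.SC.i0 Vale.Agent.P112.SC.i1 Vale.Agent.P112.SC.i2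
  Vale.Agent.P112.SC.i3 Vale.Agent.P112.SC.i4 Vale.Agent.P112.SC.i5 Vale.Agent.P112.SC.i6
  Vale.Agent.P112.SC.i7

section

/-! Task P112-FT14: the `T T*` kernel lemma. -/

namespace Vale.Agent.P112

open MeasureTheory Filter Topology Set
open scoped ENNReal NNReal

/-- bounded functions with bounded support are integrable on products -/
theorem ttstar_int2 {f : Plane × Plane → ℝ} (hf : Measurable f) {c r : ℝ} (hc : ∀ x, |f x| ≤ c)
    (hr1 : ∀ x, r < ‖x.1‖ → f x = 0) (hr2 : ∀ x, r < ‖x.2‖ → f x = 0) :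
    Integrable f (volume.prod volume) := by
  have h1 : Integrable ((Metric.closedBall (0 : Plane) r ×ˢ Metric.closedBall (0 : Plane) r).indicator
      (fun _ => c)) (volume.prod volume) := by
    refine (integrable_indicator_iff (Metric.isClosed_closedBall.measurableSet.prod
      Metric.isClosed_closedBall.measurableSet)).2 ?_
    refine integrableOn_const ?_
    rw [Measure.prod_prod]
    exact (ENNReal.mul_lt_top (measure_closedBall_lt_top (x := (0 : Plane)) (r := r))
      (measure_closedBall_lt_top (x := (0 : Plane)) (r := r))).ne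
  refine h1.mono' hf.aestronglyMeasurable (Eventually.of_forall fun x => ?_)
  by_cases hx : r < ‖x.1‖ ∨ r < ‖x.2‖
  · have h0 : f x = 0 := hx.elim (hr1 x) (hr2 x)
    rw [h0]
    simp only [norm_zero]
    refine indicator_nonneg (fun _ _ => ?_) _
    exact (abs_nonneg _).trans (hc x)
  · push Not at hx
    rw [indicator_of_mem (by simpa only [mem_prod, Metric.mem_closedBall, dist_zero_right] using hx), Real.norm_eq_abs]
    exact hc x

/-- bounded functions with bounded support are integrable on triple products -/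
theorem ttstar_int3 {f : Plane × (Plane × Plane) → ℝ} (hf : Measurable f) {c r : ℝ}
    (hc : ∀ x, |f x| ≤ c)
    (hr1 : ∀ x, r < ‖x.1‖ → f x = 0) (hr2 : ∀ x, r < ‖x.2.1‖ → f x = 0)
    (hr3 : ∀ x, r < ‖x.2.2‖ → f x = 0) :
    Integrable f (volume.prod (volume.prod volume)) := by
  have h1 : Integrable ((Metric.closedBall (0 : Plane) r ×ˢ (Metric.closedBall (0 : Plane) r
      ×ˢ Metric.closedBall (0 : Plane) r)).indicator
      (fun _ => c)) (volume.prod (volume.prod volume)) := by
    refine (integrable_indicator_iff (Metric.isClosed_closedBall.measurableSet.prod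
      (Metric.isClosed_closedBall.measurableSet.prod
      Metric.isClosed_closedBall.measurableSet))).2 ?_
    refine integrableOn_const ?_
    rw [Measure.prod_prod, Measure.prod_prod]
    exact (ENNReal.mul_lt_top (measure_closedBall_lt_top (x := (0 : Plane)) (r := r))
      (ENNReal.mul_lt_top (measure_closedBall_lt_top (x := (0 : Plane)) (r := r))
      (measure_closedBall_lt_top (x := (0 : Plane)) (r := r)))).ne
  refine h1.mono' hf.aestronglyMeasurable (Eventually.of_forall fun x => ?_)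
  by_cases hx : r < ‖x.1‖ ∨ r < ‖x.2.1‖ ∨ r < ‖x.2.2‖
  · have h0 : f x = 0 := hx.elim (hr1 x) (fun h => h.elim (hr2 x) (hr3 x))
    rw [h0]
    simp only [norm_zero]
    refine indicator_nonneg (fun _ _ => ?_) _
    exact (abs_nonneg _).trans (hc x)
  · push Not at hx
    rw [indicator_of_mem (by simpa only [mem_prod, Metric.mem_closedBall, dist_zero_right] using hx), Real.norm_eq_abs]
    exact hc x

theorem ttstar_young (a b : ℝ) : 2 * (‖a‖ₑ * ‖b‖ₑ) ≤ ‖a‖ₑ ^ 2 + ‖b‖ₑ ^ 2 := by
  have h : 2 * (|a| * |b|) ≤ |a| ^ 2 + |b| ^ 2 := by (clear * -; linarith [sq_nonneg (|a| - |b|)])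
  rw [Real.enorm_eq_ofReal_abs, Real.enorm_eq_ofReal_abs, ← ENNReal.ofReal_mul (abs_nonneg _),
    ← ENNReal.ofReal_pow (abs_nonneg _), ← ENNReal.ofReal_pow (abs_nonneg _),
    ← ENNReal.ofReal_add (by positivity) (by positivity),
    show (2 : ℝ≥0∞) = ENNReal.ofReal 2 by simp, ← ENNReal.ofReal_mul (by norm_num)]
  exact ENNReal.ofReal_le_ofReal h

/-- Schur type estimate -/
theorem ttstar_schur (K : Plane → Plane → ℝ) (hK : Measurable (fun p : Plane × Plane => K p.1 p.2))
    (hs : ∀ x y, K x y = K y x) (B : ℝ≥0∞) (hB : ∀ x, ∫⁻ y, ‖K x y‖ₑ ≤ B)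
    (G : Plane → ℝ) (hG : Measurable G) :
    ∫⁻ p : Plane × Plane, ‖K p.1 p.2‖ₑ * (‖G p.1‖ₑ * ‖G p.2‖ₑ) ∂(volume.prod volume) ≤
      B * sqn G := by
  have hKm : Measurable (fun p : Plane × Plane => ‖K p.1 p.2‖ₑ) := hK.enorm
  have h1 : ∫⁻ p : Plane × Plane, ‖K p.1 p.2‖ₑ * ‖G p.1‖ₑ ^ 2 ∂(volume.prod volume) ≤
      B * sqn G := by
    rw [lintegral_prod _ (by (clear * - hK hG; fun_prop))]
    calc ∫⁻ x, ∫⁻ y, ‖K x y‖ₑ * ‖G x‖ₑ ^ 2 ≤ ∫⁻ x, B * ‖G x‖ₑ ^ 2 := by
          refine lintegral_mono fun x => ?_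
          simp only
          rw [lintegral_mul_const _ (by exact hKm.comp (measurable_prodMk_left))]
          exact mul_le_mul_left (hB x) _
      _ = B * sqn G := by
          rw [lintegral_const_mul _ (by (clear * - hG; fun_prop))]
          rfl
  have h2 : ∫⁻ p : Plane × Plane, ‖K p.1 p.2‖ₑ * ‖G p.2‖ₑ ^ 2 ∂(volume.prod volume) ≤
      B * sqn G := by
    rw [lintegral_prod_symm _ (by fun_prop)]
    calc ∫⁻ y, ∫⁻ x, ‖K x y‖ₑ * ‖G y‖ₑ ^ 2 ≤ ∫⁻ y, B * ‖G y‖ₑ ^ 2 := by
          refine lintegral_mono fun y => ?_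
          simp only
          rw [lintegral_mul_const _ (by exact hKm.comp (measurable_prodMk_right))]
          refine mul_le_mul_left ?_ _
          simpa only [hs] using hB y
      _ = B * sqn G := by
          rw [lintegral_const_mul _ (by fun_prop)]
          rfl
  have h3 : 2 * ∫⁻ p : Plane × Plane, ‖K p.1 p.2‖ₑ * (‖G p.1‖ₑ * ‖G p.2‖ₑ)
      ∂(volume.prod volume) ≤ 2 * (B * sqn G) := by
    rw [← lintegral_const_mul _ (by fun_prop)]
    calc _ ≤ ∫⁻ p : Plane × Plane, (‖K p.1 p.2‖ₑ * ‖G p.1‖ₑ ^ 2 + ‖K p.1 p.2‖ₑ * ‖G p.2‖ₑ ^ 2)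
          ∂(volume.prod volume) := by
          refine lintegral_mono fun p => ?_
          calc 2 * (‖K p.1 p.2‖ₑ * (‖G p.1‖ₑ * ‖G p.2‖ₑ))
              = ‖K p.1 p.2‖ₑ * (2 * (‖G p.1‖ₑ * ‖G p.2‖ₑ)) := by ring
            _ ≤ ‖K p.1 p.2‖ₑ * (‖G p.1‖ₑ ^ 2 + ‖G p.2‖ₑ ^ 2) :=
                mul_le_mul_right (ttstar_young _ _) _
            _ = _ := by ring
      _ ≤ 2 * (B * sqn G) := by
          rw [lintegral_add_left (by fun_prop), two_mul]
          exact add_le_add h1 h2
  exact (ENNReal.mul_le_mul_iff_right (by simp) (by simp)).1 h3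


/-- the estimate for the adjoint kernel -/
theorem ttstar_adj (A : Plane → Plane → ℝ) (hA : Measurable (fun p : Plane × Plane => A p.1 p.2))
    (b R : ℝ) (hb : ∀ x z, |A x z| ≤ b) (hR : ∀ x z, R < ‖x - z‖ → A x z = 0) (B : ℝ)
    (hB : ∀ x, ∫⁻ y, ‖∫ z, A x z * A y z‖ₑ ≤ ENNReal.ofReal B)
    (G : Plane → ℝ) (hG : Measurable G) (c r : ℝ) (hc : ∀ x, |G x| ≤ c)
    (hr : ∀ x, r < ‖x‖ → G x = 0) :
    sqn (fun z => ∫ x, A x z * G x) ≤ ENNReal.ofReal B * sqn G := by
  set ρ : ℝ := max r 0 + max R 0 with hρ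
  have hρr : r ≤ ρ := by
    have h1 := le_max_left r 0
    have h2 := le_max_right R 0
    linarith
  have hb0 : 0 ≤ b := (abs_nonneg _).trans (hb 0 0)
  have hc0 : 0 ≤ c := (abs_nonneg _).trans (hc 0)
  have hz : ∀ x z, ρ < ‖z‖ → A x z * G x = 0 := by
    intro x z h
    by_cases hx : r < ‖x‖
    · rw [hr x hx, mul_zero]
    · rw [hR x z, zero_mul]
      have h1 : ‖z‖ ≤ ‖x‖ + ‖x - z‖ := by
        have h2 : ‖z‖ = ‖x - (x - z)‖ := by rw [sub_sub_cancel]
        rw [h2]
        exact norm_sub_le _ _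
      have h3 := le_max_left r 0
      have h4 := le_max_left R 0
      push Not at hx
      linarith only [h, h1, h3, h4, hx]
  have hbd : ∀ x z, |A x z * G x| ≤ b * c := by
    intro x z
    rw [abs_mul]
    exact mul_le_mul (hb x z) (hc x) (abs_nonneg _) hb0
  have hm3 : Measurable (fun q : Plane × (Plane × Plane) =>
      (A q.2.1 q.1 * G q.2.1) * (A q.2.2 q.1 * G q.2.2)) := by
    have h1 : Measurable (fun q : Plane × (Plane × Plane) => A q.2.1 q.1) :=
      hA.comp (by fun_prop : Measurable (fun q : Plane × (Plane × Plane) => (q.2.1, q.1)))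
    have h2 : Measurable (fun q : Plane × (Plane × Plane) => A q.2.2 q.1) :=
      hA.comp (by fun_prop : Measurable (fun q : Plane × (Plane × Plane) => (q.2.2, q.1)))
    fun_prop
  have hI3 : Integrable (fun q : Plane × (Plane × Plane) =>
      (A q.2.1 q.1 * G q.2.1) * (A q.2.2 q.1 * G q.2.2)) (volume.prod (volume.prod volume)) := by
    refine ttstar_int3 hm3 (c := (b * c) * (b * c)) (r := ρ) ?_ ?_ ?_ ?_
    · intro q
      rw [abs_mul]
      exact mul_le_mul (hbd _ _) (hbd _ _) (abs_nonneg _) (by (clear * - hb0 hc0; positivity))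
    · intro q hq
      simp only [hz _ _ hq, zero_mul]
    · intro q hq
      simp only [hr _ (hρr.trans_lt hq), mul_zero, zero_mul]
    · intro q hq
      simp only [hr _ (hρr.trans_lt hq), mul_zero]
  have hm2 : Measurable (fun q : Plane × Plane => A q.2 q.1 * G q.2) := by
    have h1 : Measurable (fun q : Plane × Plane => A q.2 q.1) :=
      hA.comp (by fun_prop : Measurable (fun q : Plane × Plane => (q.2, q.1)))
    fun_prop
  have hHm : Measurable (fun z => ∫ x, A x z * G x) :=
    (StronglyMeasurable.integral_prod_right' (ν := volume) hm2.stronglyMeasurable).measurable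
  have hH2 : ∀ z, (∫ x, A x z * G x) ^ 2 =
      ∫ p : Plane × Plane, (A p.1 z * G p.1) * (A p.2 z * G p.2) ∂(volume.prod volume) := by
    intro z
    rw [sq]
    exact (integral_prod_mul (fun x => A x z * G x) (fun x => A x z * G x)).symm
  have hHi : Integrable (fun z => (∫ x, A x z * G x) ^ 2) := by
    simp only [hH2]
    exact hI3.integral_prod_left
  have hswap : ∫ z, (∫ x, A x z * G x) ^ 2 =
      ∫ p : Plane × Plane, (∫ z, A p.1 z * A p.2 z) * (G p.1 * G p.2) ∂(volume.prod volume) := by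
    simp only [hH2]
    rw [integral_integral_swap hI3]
    refine integral_congr_ae (Eventually.of_forall fun p => ?_)
    simp only
    rw [← integral_mul_const]
    refine integral_congr_ae (Eventually.of_forall fun z => ?_)
    simp only
    ring
  have hK : Measurable (fun p : Plane × Plane => ∫ z, A p.1 z * A p.2 z) := by
    have h0 : Measurable (fun q : (Plane × Plane) × Plane => A q.1.1 q.2 * A q.1.2 q.2) := by
      have h1 : Measurable (fun q : (Plane × Plane) × Plane => A q.1.1 q.2) :=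
        hA.comp (by (clear * -; fun_prop) : Measurable (fun q : (Plane × Plane) × Plane => (q.1.1, q.2)))
      have h2 : Measurable (fun q : (Plane × Plane) × Plane => A q.1.2 q.2) :=
        hA.comp (by fun_prop : Measurable (fun q : (Plane × Plane) × Plane => (q.1.2, q.2)))
      exact h1.mul h2
    exact (StronglyMeasurable.integral_prod_right' (ν := volume) h0.stronglyMeasurable).measurable
  have hsq : sqn (fun z => ∫ x, A x z * G x) = ENNReal.ofReal (∫ z, (∫ x, A x z * G x) ^ 2) := by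
    rw [ofReal_integral_eq_lintegral_ofReal hHi (Eventually.of_forall fun z => sq_nonneg _)]
    refine lintegral_congr fun z => ?_
    rw [← sq_abs, ENNReal.ofReal_pow (abs_nonneg _), ← Real.enorm_eq_ofReal_abs]
  rw [hsq, hswap]
  calc ENNReal.ofReal (∫ p : Plane × Plane, (∫ z, A p.1 z * A p.2 z) * (G p.1 * G p.2)
        ∂(volume.prod volume))
      ≤ ‖∫ p : Plane × Plane, (∫ z, A p.1 z * A p.2 z) * (G p.1 * G p.2)
        ∂(volume.prod volume)‖ₑ := by
        rw [Real.enorm_eq_ofReal_abs]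
        exact ENNReal.ofReal_le_ofReal (le_abs_self _)
    _ ≤ ∫⁻ p : Plane × Plane, ‖(∫ z, A p.1 z * A p.2 z) * (G p.1 * G p.2)‖ₑ
        ∂(volume.prod volume) := enorm_integral_le_lintegral_enorm _
    _ = ∫⁻ p : Plane × Plane, ‖∫ z, A p.1 z * A p.2 z‖ₑ * (‖G p.1‖ₑ * ‖G p.2‖ₑ)
        ∂(volume.prod volume) := by
        refine lintegral_congr fun p => ?_
        rw [enorm_mul, enorm_mul]
    _ ≤ ENNReal.ofReal B * sqn G :=
        ttstar_schur (fun x y => ∫ z, A x z * A y z) hK (fun x y => by simp only [mul_comm])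
          _ hB G hG

theorem TTstar (A : Plane → Plane → ℝ) (hA : Measurable (fun p : Plane × Plane => A p.1 p.2))
    (b R : ℝ) (hb : ∀ x z, |A x z| ≤ b) (hR : ∀ x z, R < ‖x - z‖ → A x z = 0) (B : ℝ) (hB0 : 0 ≤ B)
    (hB : ∀ x, ∫⁻ y, ‖∫ z, A x z * A y z‖ₑ ≤ ENNReal.ofReal B) (F : Plane → ℝ) (hF : CC F) :
    sqn (fun x => ∫ z, A x z * F z) ≤ ENNReal.ofReal B * sqn F := by
  obtain ⟨hFc, hFs⟩ := hF
  have hFm : Measurable F := hFc.measurable
  have hFi : Integrable F := hFc.integrable_of_hasCompactSupport hFs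
  obtain ⟨r, hr⟩ : ∃ r : ℝ, ∀ x, r < ‖x‖ → F x = 0 := by
    obtain ⟨r, hr⟩ := (hFs.isCompact.isBounded).subset_closedBall 0
    refine ⟨r, fun x hx => ?_⟩
    by_contra h
    have := hr (subset_closure h)
    rw [Metric.mem_closedBall, dist_zero_right] at this
    linarith
  obtain ⟨c, hc⟩ : ∃ c : ℝ, ∀ x, |F x| ≤ c := by
    obtain ⟨c, hc⟩ := hFc.bounded_above_of_compact_support hFs
    exact ⟨c, fun x => by simpa only [Real.norm_eq_abs] using hc x⟩
  have hb0 : 0 ≤ b := (abs_nonneg _).trans (hb 0 0)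
  have hc0 : 0 ≤ c := (abs_nonneg _).trans (hc 0)
  set G : Plane → ℝ := fun x => ∫ z, A x z * F z with hGdef
  have hm2 : Measurable (fun q : Plane × Plane => A q.1 q.2 * F q.2) := by fun_prop
  have hGm : Measurable G :=
    (StronglyMeasurable.integral_prod_right' (ν := volume) hm2.stronglyMeasurable).measurable
  set ρ : ℝ := max r 0 + max R 0 with hρ
  have hρr : r ≤ ρ := by
    have h1 := le_max_left r 0
    have h2 := le_max_right R 0
    linarith only [h1, h2]
  have hz : ∀ x z, ρ < ‖x‖ → A x z * F z = 0 := by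
    intro x z h
    by_cases hx : r < ‖z‖
    · rw [hr z hx, mul_zero]
    · rw [hR x z, zero_mul]
      have h1 : ‖x‖ ≤ ‖z‖ + ‖x - z‖ := by
        have h2 : ‖x‖ = ‖z + (x - z)‖ := by rw [add_sub_cancel]
        rw [h2]
        exact norm_add_le _ _
      have h3 := le_max_left r 0
      have h4 := le_max_left R 0
      push Not at hx
      linarith only [h, h1, h3, h4, hx]
  have hGr : ∀ x, ρ < ‖x‖ → G x = 0 := by
    intro x hx
    simp only [hGdef, hz x _ hx, integral_zero]
  have hGb : ∀ x, |G x| ≤ b * ∫ z, |F z| := by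
    intro x
    rw [← integral_const_mul, ← Real.norm_eq_abs]
    refine norm_integral_le_of_norm_le (hFi.abs.const_mul b) (Eventually.of_forall fun z => ?_)
    rw [Real.norm_eq_abs, abs_mul]
    exact mul_le_mul_of_nonneg_right (hb x z) (abs_nonneg _)
  have hadj := ttstar_adj A hA b R hb hR B hB G hGm _ ρ hGb hGr
  -- Fubini
  have hI2 : Integrable (fun q : Plane × Plane => (A q.1 q.2 * F q.2) * G q.1)
      (volume.prod volume) := by
    refine ttstar_int2 (by fun_prop) (c := (b * c) * (b * ∫ z, |F z|)) (r := ρ) ?_ ?_ ?_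
    · intro q
      rw [abs_mul, abs_mul]
      have hI0 : 0 ≤ ∫ z, |F z| := integral_nonneg fun z => abs_nonneg _
      exact mul_le_mul (mul_le_mul (hb _ _) (hc _) (abs_nonneg _) hb0) (hGb _) (abs_nonneg _)
        (by (clear * - hb0 hc0; positivity))
    · intro q hq
      simp only [hz _ _ hq, zero_mul]
    · intro q hq
      simp only [hr _ (hρr.trans_lt hq), mul_zero, zero_mul]
  have hG2 : ∀ x, G x ^ 2 = ∫ z, (A x z * F z) * G x := by
    intro x
    rw [integral_mul_const, sq]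
  have hG2i : Integrable (fun x => G x ^ 2) := by
    simp only [hG2]
    exact hI2.integral_prod_left
  have hsq : sqn G = ENNReal.ofReal (∫ x, G x ^ 2) := by
    rw [ofReal_integral_eq_lintegral_ofReal hG2i (Eventually.of_forall fun z => sq_nonneg _)]
    refine lintegral_congr fun z => ?_
    rw [← sq_abs, ENNReal.ofReal_pow (abs_nonneg _), ← Real.enorm_eq_ofReal_abs]
  have hswap : ∫ x, G x ^ 2 = ∫ z, F z * ∫ x, A x z * G x := by
    simp only [hG2]
    rw [integral_integral_swap hI2]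
    refine integral_congr_ae (Eventually.of_forall fun z => ?_)
    simp only
    rw [← integral_const_mul]
    refine integral_congr_ae (Eventually.of_forall fun x => ?_)
    simp only
    ring
  have hHm : Measurable (fun z => ∫ x, A x z * G x) := by
    have h0 : Measurable (fun q : Plane × Plane => A q.2 q.1 * G q.2) := by
      have h1 : Measurable (fun q : Plane × Plane => A q.2 q.1) :=
        hA.comp (by fun_prop : Measurable (fun q : Plane × Plane => (q.2, q.1)))
      (clear * - hA hGm; fun_prop)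
    exact (StronglyMeasurable.integral_prod_right' (ν := volume) h0.stronglyMeasurable).measurable
  have h1 : sqn G ≤ ∫⁻ z, ‖F z‖ₑ * ‖∫ x, A x z * G x‖ₑ := by
    rw [hsq, hswap]
    calc ENNReal.ofReal (∫ z, F z * ∫ x, A x z * G x)
        ≤ ‖∫ z, F z * ∫ x, A x z * G x‖ₑ := by
          rw [Real.enorm_eq_ofReal_abs]
          exact ENNReal.ofReal_le_ofReal (le_abs_self _)
      _ ≤ ∫⁻ z, ‖F z * ∫ x, A x z * G x‖ₑ := enorm_integral_le_lintegral_enorm _
      _ = _ := by
          refine lintegral_congr fun p => ?_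
          rw [enorm_mul]
  have h2 : ∫⁻ z, ‖F z‖ₑ * ‖∫ x, A x z * G x‖ₑ ≤
      (sqn F) ^ (1 / 2 : ℝ) * (sqn (fun z => ∫ x, A x z * G x)) ^ (1 / 2 : ℝ) := by
    have h3 := ENNReal.lintegral_mul_le_Lp_mul_Lq (μ := (volume : Measure Plane))
      (Real.HolderConjugate.two_two) (f := fun z => ‖F z‖ₑ)
      (g := fun z => ‖∫ x, A x z * G x‖ₑ) hFm.enorm.aemeasurable hHm.enorm.aemeasurable
    simpa only [sqn, one_div, ge_iff_le, Pi.mul_apply, ENNReal.rpow_ofNat] using h3
  have h4 : sqn G ^ 2 ≤ (ENNReal.ofReal B * sqn F) * sqn G := by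
    have h5 : sqn G ≤ (sqn F) ^ (1 / 2 : ℝ) * (ENNReal.ofReal B * sqn G) ^ (1 / 2 : ℝ) :=
      h1.trans (h2.trans (mul_le_mul_right (ENNReal.rpow_le_rpow hadj (by norm_num)) _))
    calc sqn G ^ 2 ≤ ((sqn F) ^ (1 / 2 : ℝ) * (ENNReal.ofReal B * sqn G) ^ (1 / 2 : ℝ)) ^ 2 := by
          (clear * - h5; gcongr)
      _ = (ENNReal.ofReal B * sqn F) * sqn G := by
          rw [mul_pow, ← ENNReal.rpow_natCast, ← ENNReal.rpow_natCast, ← ENNReal.rpow_mul,
            ← ENNReal.rpow_mul]
          norm_num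
          ring
  have h5 : sqn G ≠ ∞ := by rw [hsq]; exact ENNReal.ofReal_ne_top
  rcases eq_or_ne (sqn G) 0 with h0 | h0
  · rw [h0]; exact bot_le
  · rw [sq] at h4
    exact (ENNReal.mul_le_mul_iff_left h0 h5).1 h4

end Vale.Agent.P112
end

section

/-! Task P112-FT04: averaging operators. -/

namespace Vale.Agent.P112

open MeasureTheory Filter Topology Set
open scoped ENNReal NNReal

/-- Cauchy–Schwarz with a weight. -/
lemma avg_cs {Ω : Type*} [MeasurableSpace Ω] (ν : Measure Ω) (w g : Ω → ℝ≥0∞) (hw : Measurable w)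
    (hg : Measurable g) :
    (∫⁻ ω, w ω * g ω ∂ν) ^ 2 ≤ (∫⁻ ω, w ω ∂ν) * ∫⁻ ω, w ω * g ω ^ 2 ∂ν := by
  have h := ENNReal.lintegral_mul_le_Lp_mul_Lq ν (Real.HolderConjugate.two_two)
    (f := fun ω => w ω ^ (1 / 2 : ℝ)) (g := fun ω => w ω ^ (1 / 2 : ℝ) * g ω)
    (hw.pow_const _).aemeasurable ((hw.pow_const _).mul hg).aemeasurable
  have e0 : ∀ ω, w ω ^ (1 / 2 : ℝ) * w ω ^ (1 / 2 : ℝ) = w ω := by
    intro ω
    rw [← ENNReal.rpow_add_of_nonneg _ _ (by (clear * -; norm_num)) (by norm_num)]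
    norm_num
  have e1 : ∀ ω, (((fun ω => w ω ^ (1 / 2 : ℝ)) * fun ω => w ω ^ (1 / 2 : ℝ) * g ω) : Ω → ℝ≥0∞) ω
      = w ω * g ω := by
    intro ω
    simp only [Pi.mul_apply]
    rw [← mul_assoc, e0]
  have e2 : ∀ ω, (w ω ^ (1 / 2 : ℝ)) ^ (2 : ℝ) = w ω := by
    intro ω
    rw [← ENNReal.rpow_mul]; norm_num
  have e3 : ∀ ω, (w ω ^ (1 / 2 : ℝ) * g ω) ^ (2 : ℝ) = w ω * g ω ^ 2 := by
    intro ω
    rw [ENNReal.mul_rpow_of_nonneg _ _ (by norm_num), e2, ENNReal.rpow_two]
  rw [lintegral_congr e1] at h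
  simp only [e2, e3] at h
  calc (∫⁻ ω, w ω * g ω ∂ν) ^ 2
      ≤ ((∫⁻ ω, w ω ∂ν) ^ (1 / 2 : ℝ) * (∫⁻ ω, w ω * g ω ^ 2 ∂ν) ^ (1 / 2 : ℝ)) ^ 2 := by
        (clear * - h; gcongr)
    _ = (∫⁻ ω, w ω ∂ν) * ∫⁻ ω, w ω * g ω ^ 2 ∂ν := by
        rw [mul_pow, ← ENNReal.rpow_two, ← ENNReal.rpow_two, ← ENNReal.rpow_mul,
          ← ENNReal.rpow_mul]
        norm_num

/-- `L²` bound for a positive averaging operator. -/
theorem lintegral_avg_sq_le {Ω : Type*} [MeasurableSpace Ω] (ν : Measure Ω) [SFinite ν]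
    (w : Ω → ℝ≥0∞) (hw : Measurable w) (S : Ω → Plane → Plane)
    (hS : Measurable (fun p : Ω × Plane => S p.1 p.2)) (A : ℝ≥0∞)
    (hA : ∀ ω, w ω ≠ 0 → ∀ G : Plane → ℝ≥0∞, Measurable G → ∫⁻ x, G (S ω x) ≤ A * ∫⁻ x, G x)
    (F : Plane → ℝ≥0∞) (hF : Measurable F) :
    ∫⁻ x, (∫⁻ ω, w ω * F (S ω x) ∂ν) ^ 2 ≤ A * (∫⁻ ω, w ω ∂ν) ^ 2 * ∫⁻ x, F x ^ 2 := by
  have hFS : Measurable (fun p : Ω × Plane => F (S p.1 p.2)) := hF.comp hS
  have hsec : ∀ x, Measurable (fun ω => F (S ω x)) := fun x =>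
    hFS.comp (measurable_id.prodMk measurable_const)
  have hswap : Measurable (fun p : Plane × Ω => w p.2 * F (S p.2 p.1) ^ 2) :=
    (hw.comp measurable_snd).mul ((hFS.comp measurable_swap).pow_const 2)
  calc ∫⁻ x, (∫⁻ ω, w ω * F (S ω x) ∂ν) ^ 2
      ≤ ∫⁻ x, (∫⁻ ω, w ω ∂ν) * ∫⁻ ω, w ω * F (S ω x) ^ 2 ∂ν := by
        apply lintegral_mono
        intro x
        exact avg_cs ν w _ hw (hsec x)
    _ = (∫⁻ ω, w ω ∂ν) * ∫⁻ x, ∫⁻ ω, w ω * F (S ω x) ^ 2 ∂ν := by
        apply lintegral_const_mul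
        exact hswap.lintegral_prod_right'
    _ = (∫⁻ ω, w ω ∂ν) * ∫⁻ ω, (∫⁻ x, w ω * F (S ω x) ^ 2) ∂ν := by
        rw [lintegral_lintegral_swap hswap.aemeasurable]
    _ ≤ (∫⁻ ω, w ω ∂ν) * ∫⁻ ω, w ω * (A * ∫⁻ x, F x ^ 2) ∂ν := by
        gcongr with ω
        have h1 : Measurable (fun x => F (S ω x) ^ 2) :=
          (hFS.comp (measurable_const.prodMk measurable_id)).pow_const 2
        rw [lintegral_const_mul _ h1]
        by_cases h0 : w ω = 0
        · rw [h0, zero_mul, zero_mul]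
        · gcongr
          exact hA ω h0 (fun x => F x ^ 2) (hF.pow_const 2)
    _ = (∫⁻ ω, w ω ∂ν) * ((∫⁻ ω, w ω ∂ν) * (A * ∫⁻ x, F x ^ 2)) := by
        rw [lintegral_mul_const _ hw]
    _ = A * (∫⁻ ω, w ω ∂ν) ^ 2 * ∫⁻ x, F x ^ 2 := by ring

/-- Signed version. -/
theorem sqn_avg_le {Ω : Type*} [MeasurableSpace Ω] (ν : Measure Ω) [SFinite ν]
    (w : Ω → ℝ) (hw : Measurable w) (S : Ω → Plane → Plane)
    (hS : Measurable (fun p : Ω × Plane => S p.1 p.2)) (A : ℝ≥0∞)
    (hA : ∀ ω, w ω ≠ 0 → ∀ G : Plane → ℝ≥0∞, Measurable G → ∫⁻ x, G (S ω x) ≤ A * ∫⁻ x, G x)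
    (F : Plane → ℝ) (hF : Measurable F) :
    sqn (fun x => ∫ ω, w ω * F (S ω x) ∂ν) ≤ A * (∫⁻ ω, ‖w ω‖ₑ ∂ν) ^ 2 * sqn F := by
  unfold sqn
  calc ∫⁻ x, ‖∫ ω, w ω * F (S ω x) ∂ν‖ₑ ^ 2
      ≤ ∫⁻ x, (∫⁻ ω, ‖w ω‖ₑ * ‖F (S ω x)‖ₑ ∂ν) ^ 2 := by
        apply lintegral_mono
        intro x
        dsimp only
        gcongr
        refine (enorm_integral_le_lintegral_enorm _).trans (le_of_eq ?_)
        congr 1
        ext ω
        exact enorm_mul _ _
    _ ≤ A * (∫⁻ ω, ‖w ω‖ₑ ∂ν) ^ 2 * ∫⁻ x, ‖F x‖ₑ ^ 2 := by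
        apply lintegral_avg_sq_le ν (fun ω => ‖w ω‖ₑ) hw.enorm S hS A _ (fun x => ‖F x‖ₑ) hF.enorm
        intro ω hω G hG
        apply hA ω _ G hG
        intro h0
        apply hω
        simp only [h0, enorm_zero]

/-- Averages of continuous compactly supported functions over a compact parameter set are
continuous and compactly supported. -/
theorem cc_avg {Ω : Type*} [TopologicalSpace Ω] [MeasurableSpace Ω] [BorelSpace Ω]
    [SecondCountableTopology Ω] (ν : Measure Ω) [IsFiniteMeasureOnCompacts ν]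
    (w : Ω → ℝ) (hw : Continuous w) (hws : HasCompactSupport w) (S : Ω → Plane → Plane)
    (hS : Continuous (fun p : Ω × Plane => S p.1 p.2)) (R : ℝ)
    (hR : ∀ ω x, w ω ≠ 0 → ‖S ω x - x‖ ≤ R) (F : Plane → ℝ) (hF : CC F) :
    CC (fun x => ∫ ω, w ω * F (S ω x) ∂ν) := by
  obtain ⟨hFc, hFs⟩ := hF
  constructor
  · obtain ⟨M, hM⟩ := hFs.exists_bound_of_continuous hFc
    have hwi : Integrable w ν := hw.integrable_of_hasCompactSupport hws
    apply continuous_of_dominated (bound := fun ω => |w ω| * M)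
    · intro x
      apply Continuous.aestronglyMeasurable
      exact hw.mul (hFc.comp (hS.comp (continuous_id.prodMk continuous_const)))
    · intro x
      filter_upwards with ω
      rw [norm_mul, Real.norm_eq_abs]
      gcongr
      exact hM _
    · exact hwi.abs.mul_const M
    · filter_upwards with ω
      exact continuous_const.mul (hFc.comp (hS.comp (continuous_const.prodMk continuous_id)))
  · obtain ⟨ρ, hρ⟩ := hFs.isCompact.isBounded.subset_closedBall (0 : Plane)
    apply HasCompactSupport.intro (isCompact_closedBall (0 : Plane) (ρ + R))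
    intro x hx
    rw [Metric.mem_closedBall, dist_zero_right, not_le] at hx
    apply integral_eq_zero_of_ae
    filter_upwards with ω
    by_cases h0 : w ω = 0
    · simp [h0]
    · have h1 := hR ω x h0
      have h2 : F (S ω x) = 0 := by
        by_contra hne
        have h3 : S ω x ∈ tsupport F := subset_tsupport F hne
        have h4 := hρ h3
        rw [Metric.mem_closedBall, dist_zero_right] at h4
        have h5 : ‖x‖ ≤ ‖S ω x‖ + ‖S ω x - x‖ := by
          have := norm_sub_le (S ω x) (S ω x - x)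
          rwa [sub_sub_cancel] at this
        linarith only [hx, h1, h4, h5]
      simp [h2]

end Vale.Agent.P112
end

section

/-! Task P112-FT07: the inverse displacement `Psi`. -/

namespace Vale.Agent.P112

open MeasureTheory Filter Topology Set
open scoped ENNReal NNReal

lemma clamp_abs_le (s : ℝ) : |clamp s| ≤ 1 / 4 := by
  unfold clamp
  rw [abs_le]
  exact ⟨le_max_left _ _, max_le (by norm_num) (min_le_left _ _)⟩

lemma clamp_of_le {s : ℝ} (hs : |s| ≤ 1 / 4) : clamp s = s := by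
  unfold clamp
  rw [abs_le] at hs
  rw [min_eq_right hs.2, max_eq_right hs.1]

lemma clamp_lip (s t : ℝ) : |clamp s - clamp t| ≤ |s - t| := by
  unfold clamp
  have h1 := abs_max_sub_max_le_max (-(1/4) : ℝ) (min (1/4) s) (-(1/4)) (min (1/4) t)
  have h2 := abs_min_sub_min_le_max (1/4 : ℝ) s (1/4) t
  rw [sub_self, abs_zero] at h1 h2
  have h3 := max_eq_right (abs_nonneg (min (1 / 4) s - min (1 / 4) t))
  have h4 := max_eq_right (abs_nonneg (s - t))
  rw [h3] at h1
  rw [h4] at h2
  exact h1.trans h2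

lemma psi_surj {v : Plane → Plane} (hv : LipschitzWith 1 v) (s : ℝ) :
    Function.Surjective (Phi v (clamp s)) := by
  intro y
  have hcontr : ContractingWith (1 / 4) (fun z => y + clamp s • v z) := by
    refine ⟨by rw [← NNReal.coe_lt_coe]; (clear * -; norm_num), ?_⟩
    apply LipschitzWith.of_dist_le_mul
    intro a b
    rw [dist_add_left, dist_smul₀]
    have h1 := hv.dist_le_mul a b
    rw [NNReal.coe_one, one_mul] at h1
    have h2 := clamp_abs_le s
    rw [Real.norm_eq_abs]
    push_cast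
    gcongr
  refine ⟨hcontr.fixedPoint _, ?_⟩
  have h := hcontr.fixedPoint_isFixedPt
  unfold Function.IsFixedPt at h
  set z := hcontr.fixedPoint (fun z => y + clamp s • v z) with hz
  dsimp only at h
  unfold Phi
  have h2 : z - clamp s • v z = (y + clamp s • v z) - clamp s • v z := by rw [h]
  rw [h2]; abel

lemma psi_inj {v : Plane → Plane} (hv : LipschitzWith 1 v) (s : ℝ) :
    Function.Injective (Phi v (clamp s)) :=
  Phi_injective hv (lt_of_le_of_lt (clamp_abs_le s) (by norm_num))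

lemma Phi_Psi {v : Plane → Plane} (hv : LipschitzWith 1 v) (s : ℝ) (x : Plane) :
    Phi v (clamp s) (Psi v s x) = x :=
  Function.rightInverse_invFun (psi_surj hv s) x

lemma Psi_Phi {v : Plane → Plane} (hv : LipschitzWith 1 v) (s : ℝ) (x : Plane) :
    Psi v s (Phi v (clamp s) x) = x :=
  Function.leftInverse_invFun (psi_inj hv s) x

/-- The defining relation of `Psi`, clamped version. -/
lemma Psi_eq' {v : Plane → Plane} (hv : LipschitzWith 1 v) (s : ℝ) (x : Plane) :
    Psi v s x = x + clamp s • v (Psi v s x) := by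
  have h := Phi_Psi hv s x
  unfold Phi at h
  rw [sub_eq_iff_eq_add] at h
  exact h

/-- The defining relation of `Psi`. -/
lemma Psi_eq {v : Plane → Plane} (hv : LipschitzWith 1 v) {s : ℝ} (hs : |s| ≤ 1 / 4) (x : Plane) :
    Psi v s x = x + s • v (Psi v s x) := by
  have h := Psi_eq' hv s x
  rwa [clamp_of_le hs] at h

lemma Psi_unique {v : Plane → Plane} (hv : LipschitzWith 1 v) {s : ℝ} (hs : |s| ≤ 1 / 4)
    {x z : Plane} (h : z = x + s • v z) : Psi v s x = z := by
  have h1 : Phi v (clamp s) z = x := by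
    unfold Phi
    rw [clamp_of_le hs, sub_eq_iff_eq_add]; exact h
  rw [← h1]; exact Psi_Phi hv s z

/-- joint Lipschitz estimate -/
lemma psi_joint {v : Plane → Plane} (hv : LipschitzWith 1 v) (s t : ℝ) (x y : Plane) :
    ‖Psi v s x - Psi v t y‖ ≤ 4 / 3 * (‖x - y‖ + |s - t| * ‖v (Psi v t y)‖) := by
  have h1 := Psi_eq' hv s x
  have h2 := Psi_eq' hv t y
  set z := Psi v s x with hz
  set z' := Psi v t y with hz'
  have h3 : z - z' = (x - y) + (clamp s • (v z - v z') + (clamp s - clamp t) • v z') := by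
    rw [smul_sub, sub_smul]
    conv_lhs => rw [h1, h2]
    abel
  have h4 : ‖z - z'‖ ≤ ‖x - y‖ + (|clamp s| * ‖v z - v z'‖ + |clamp s - clamp t| * ‖v z'‖) := by
    conv_lhs => rw [h3]
    refine (norm_add_le _ _).trans ?_
    gcongr
    refine (norm_add_le _ _).trans ?_
    rw [norm_smul, norm_smul, Real.norm_eq_abs, Real.norm_eq_abs]
  have h5 : ‖v z - v z'‖ ≤ ‖z - z'‖ := by
    have := hv.dist_le_mul z z'
    rw [NNReal.coe_one, one_mul, dist_eq_norm, dist_eq_norm] at this
    exact this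
  have h6 : |clamp s| * ‖v z - v z'‖ ≤ 1 / 4 * ‖z - z'‖ := by
    gcongr; exact clamp_abs_le s
  have h7 : |clamp s - clamp t| * ‖v z'‖ ≤ |s - t| * ‖v z'‖ :=
    mul_le_mul_of_nonneg_right (clamp_lip s t) (norm_nonneg _)
  linarith only [h4, h6, h7]

lemma Psi_lip {v : Plane → Plane} (hv : LipschitzWith 1 v) (s : ℝ) :
    LipschitzWith (4 / 3) (Psi v s) := by
  apply LipschitzWith.of_dist_le_mul
  intro x y
  have h := psi_joint hv s s x y
  rw [sub_self, abs_zero, zero_mul, add_zero] at h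
  rw [dist_eq_norm, dist_eq_norm]
  push_cast
  exact h

lemma Psi_sub_lip {v : Plane → Plane} (hv : LipschitzWith 1 v) {s : ℝ} (hs : |s| ≤ 1 / 8) :
    LipschitzWith (1 / 4) (fun x => Psi v s x - x) := by
  apply LipschitzWith.of_dist_le_mul
  intro x y
  have hs4 : |s| ≤ 1 / 4 := by linarith only [hs]
  have h1 : Psi v s x - x = s • v (Psi v s x) := by
    rw [sub_eq_iff_eq_add, add_comm]; exact Psi_eq hv hs4 x
  have h2 : Psi v s y - y = s • v (Psi v s y) := by
    rw [sub_eq_iff_eq_add, add_comm]; exact Psi_eq hv hs4 y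
  rw [dist_eq_norm, dist_eq_norm, h1, h2, ← smul_sub, norm_smul, Real.norm_eq_abs]
  have h3 := hv.dist_le_mul (Psi v s x) (Psi v s y)
  rw [NNReal.coe_one, one_mul, dist_eq_norm, dist_eq_norm] at h3
  have h4 := (Psi_lip hv s).dist_le_mul x y
  rw [dist_eq_norm, dist_eq_norm] at h4
  push_cast at h4 ⊢
  calc |s| * ‖v (Psi v s x) - v (Psi v s y)‖ ≤ 1 / 8 * (4 / 3 * ‖x - y‖) := by
        gcongr; exact h3.trans h4
    _ ≤ 1 / 4 * ‖x - y‖ := by
        have := norm_nonneg (x - y)
        linarith only [this]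

lemma norm_Psi_sub {v : Plane → Plane} (hv : LipschitzWith 1 v) (hvu : ∀ x, ‖v x‖ = 1) {s : ℝ}
    (hs : |s| ≤ 1 / 4) (x : Plane) : ‖Psi v s x - x‖ ≤ |s| := by
  have h1 : Psi v s x - x = s • v (Psi v s x) := by
    rw [sub_eq_iff_eq_add, add_comm]; exact Psi_eq hv hs x
  rw [h1, norm_smul, hvu, mul_one, Real.norm_eq_abs]

lemma continuous_Psi {v : Plane → Plane} (hv : LipschitzWith 1 v) (hvu : ∀ x, ‖v x‖ = 1) :
    Continuous (fun p : ℝ × Plane => Psi v p.1 p.2) := by
  have h : LipschitzWith (8 / 3) (fun p : ℝ × Plane => Psi v p.1 p.2) := by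
    apply LipschitzWith.of_dist_le_mul
    intro p q
    have h1 := psi_joint hv p.1 q.1 p.2 q.2
    rw [hvu, mul_one] at h1
    have h2 : ‖p.2 - q.2‖ ≤ dist p q := by
      rw [← dist_eq_norm]; exact le_max_right _ _
    have h3 : |p.1 - q.1| ≤ dist p q := by
      rw [← Real.dist_eq]; exact le_max_left _ _
    rw [dist_eq_norm]
    push_cast
    linarith only [h1, h2, h3]
  exact h.continuous

end Vale.Agent.P112
end

section

/-! Task P112-FT11: the three families of operators act on `CC` and are bounded. -/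

namespace Vale.Agent.P112

open MeasureTheory Filter Topology Set
open scoped ENNReal NNReal

variable {v : Plane → Plane} {L θ : ℝ} {F : Plane → ℝ}

lemma continuous_DD (hvl : LipschitzWith 1 v) (hL : 0 ≤ L) (hL1 : L ≤ 1) :
    Continuous (DD v L) := by
  have h : LipschitzWith (6 * L).toNNReal (DD v L) := by
    apply LipschitzWith.of_dist_le_mul
    intro x y
    rw [Real.dist_eq, dist_eq_norm, Real.coe_toNNReal _ (by positivity)]
    exact DD_lip hvl hL hL1 x y
  exact h.continuous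

/-- composition with an affine-like map is comparable -/
lemma pieces_comp_le {S : Plane → Plane} {c : ℝ} (hc0 : 0 ≤ c) (hc : c ≤ 1 / 4)
    (hS : ∀ x y, ‖(S x - x) - (S y - y)‖ ≤ c * ‖x - y‖) (G : Plane → ℝ≥0∞) (hG : Measurable G) :
    ∫⁻ x, G (S x) ≤ 4 * ∫⁻ x, G x := by
  apply lintegral_comp_le (c := c.toNNReal) _ _ G hG
  · rw [← NNReal.coe_le_coe, Real.coe_toNNReal _ hc0]; exact_mod_cast hc
  · apply LipschitzWith.of_dist_le_mul
    intro x y
    rw [dist_eq_norm, dist_eq_norm, Real.coe_toNNReal _ hc0]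
    exact hS x y

lemma pieces_lip_Tp (hvl : LipschitzWith 1 v) (t : ℝ) (x y : Plane) :
    ‖((x - t • v x) - x) - ((y - t • v y) - y)‖ ≤ |t| * ‖x - y‖ := by
  have h1 : ((x - t • v x) - x) - ((y - t • v y) - y) = - (t • (v x - v y)) := by
    rw [smul_sub]; abel
  rw [h1, norm_neg, norm_smul, Real.norm_eq_abs]
  gcongr
  exact turn_lip_v hvl x y

lemma pieces_comp_Tp (hvl : LipschitzWith 1 v) {t : ℝ} (ht : |t| ≤ 1 / 4) (G : Plane → ℝ≥0∞)
    (hG : Measurable G) : ∫⁻ x, G (x - t • v x) ≤ 4 * ∫⁻ x, G x :=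
  pieces_comp_le (abs_nonneg t) ht (pieces_lip_Tp hvl t) G hG

lemma pieces_comp_Ta (hvl : LipschitzWith 1 v) {s : ℝ} (hs : |s| ≤ 1 / 8) (G : Plane → ℝ≥0∞)
    (hG : Measurable G) : ∫⁻ x, G (Psi v s x) ≤ 4 * ∫⁻ x, G x :=
  lintegral_comp_le le_rfl (Psi_sub_lip hvl hs) G hG

lemma pieces_comp_Tl (hvl : LipschitzWith 1 v) (hL : 0 < L) (hL1 : L ≤ 1 / 64) (hθ : 0 ≤ θ)
    (hθ1 : θ ≤ 1) {t : ℝ} {h : Plane} (ht : |t| ≤ 2 * L) (hh : ‖h‖ ≤ 2) (G : Plane → ℝ≥0∞)
    (hG : Measurable G) : ∫⁻ x, G (x - t • v x - (θ * DD v L x) • h) ≤ 4 * ∫⁻ x, G x := by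
  apply pieces_comp_le (c := 14 * L) (by positivity) (by linarith) _ G hG
  intro x y
  have h1 : x - t • v x - (θ * DD v L x) • h - x - (y - t • v y - (θ * DD v L y) • h - y) =
      - (t • (v x - v y)) - (θ * (DD v L x - DD v L y)) • h := by
    rw [smul_sub, mul_sub, sub_smul]; abel
  rw [h1]
  refine (norm_sub_le _ _).trans ?_
  rw [norm_neg, norm_smul, norm_smul, Real.norm_eq_abs, Real.norm_eq_abs, abs_mul, abs_of_nonneg hθ]
  have h2 := turn_lip_v hvl x y
  have h3 := DD_lip hvl hL.le (by linarith only [hL1]) x y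
  have h4 : |t| * ‖v x - v y‖ ≤ 2 * L * ‖x - y‖ := by gcongr
  have h5 : θ * |DD v L x - DD v L y| * ‖h‖ ≤ 1 * (6 * L * ‖x - y‖) * 2 := by (clear * - hθ1 h3 hh hL; gcongr)
  linarith only [h4, h5]

lemma cc_Tp (hvl : LipschitzWith 1 v) (hvu : ∀ x, ‖v x‖ = 1) (hL : 0 < L) (hF : CC F) :
    CC (Tp v L F) := by
  have hvc := hvl.continuous
  apply cc_avg volume (eta L) (continuous_eta hL) (hasCompactSupport_eta hL)
    (fun t x => x - t • v x) (by fun_prop) L _ F hF
  intro t x ht
  rw [sub_sub_cancel_left, norm_neg, norm_smul, hvu, mul_one, Real.norm_eq_abs]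
  exact (eta_supp hL ht).2.le

lemma cc_Ta (hvl : LipschitzWith 1 v) (hvu : ∀ x, ‖v x‖ = 1) (hL : 0 < L) (hL1 : L ≤ 1 / 64)
    (hF : CC F) : CC (Ta v L F) := by
  apply cc_avg volume (eta L) (continuous_eta hL) (hasCompactSupport_eta hL)
    (fun s x => Psi v s x) (continuous_Psi hvl hvu) L _ F hF
  intro s x hs
  have h1 := (eta_supp hL hs).2
  exact (norm_Psi_sub hvl hvu (by linarith only [hL1, h1]) x).trans h1.le

/-- the product weight -/
noncomputable def pw (L : ℝ) (p : ℝ × Plane) : ℝ := eta L p.1 * bump p.2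

lemma continuous_pw (hL : 0 < L) : Continuous (pw L) :=
  ((continuous_eta hL).comp continuous_fst).mul (continuous_bump.comp continuous_snd)

lemma pw_ne_zero (hL : 0 < L) {p : ℝ × Plane} (h : pw L p ≠ 0) : |p.1| < L ∧ ‖p.2‖ < 1 := by
  unfold pw at h
  refine ⟨(eta_supp hL (left_ne_zero_of_mul h)).2, ?_⟩
  by_contra hcon
  push Not at hcon
  exact (right_ne_zero_of_mul h) (bump_zero_out hcon)

lemma hasCompactSupport_pw (hL : 0 < L) : HasCompactSupport (pw L) := by
  apply HasCompactSupport.intro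
    ((isCompact_Icc (a := -L) (b := L)).prod (isCompact_closedBall (0 : Plane) 1))
  intro p hp
  by_contra hne
  obtain ⟨h1, h2⟩ := pw_ne_zero hL hne
  apply hp
  refine ⟨abs_le.mp h1.le, ?_⟩
  rw [Metric.mem_closedBall, dist_zero_right]; exact h2.le

lemma lintegral_pw_le (hL : 0 < L) : ∫⁻ p, ‖pw L p‖ₑ ≤ 8 := by
  have h1 : ∀ p : ℝ × Plane, ‖pw L p‖ₑ = ‖eta L p.1‖ₑ * ‖bump p.2‖ₑ := fun p => enorm_mul _ _
  simp_rw [h1]
  rw [Measure.volume_eq_prod, lintegral_prod_mul (continuous_eta hL).measurable.enorm.aemeasurable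
    continuous_bump.measurable.enorm.aemeasurable, lintegral_bump, mul_one]
  exact lintegral_eta_le hL

lemma Tl_eq_prod (hvl : LipschitzWith 1 v) (hL : 0 < L) (hF : Continuous F) (x : Plane) :
    Tl v θ L F x = ∫ p : ℝ × Plane, pw L p * F (x - p.1 • v x - (θ * DD v L x) • p.2) := by
  have hint : Integrable (fun p : ℝ × Plane => pw L p * F (x - p.1 • v x - (θ * DD v L x) • p.2)) := by
    apply Continuous.integrable_of_hasCompactSupport
    · exact (continuous_pw hL).mul (hF.comp (by fun_prop))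
    · exact (hasCompactSupport_pw hL).mul_right
  rw [Measure.volume_eq_prod] at hint ⊢
  rw [integral_prod _ hint]
  unfold Tl
  congr 1
  ext t
  rw [← integral_const_mul]
  congr 1
  ext h
  unfold pw
  ring

lemma cc_Tl (hvl : LipschitzWith 1 v) (hvu : ∀ x, ‖v x‖ = 1) (hL : 0 < L) (hL1 : L ≤ 1 / 64)
    (hθ : 0 ≤ θ) (hθ1 : θ ≤ 1) (hF : CC F) : CC (Tl v θ L F) := by
  have hvc := hvl.continuous
  have hDc : Continuous (DD v L) := continuous_DD hvl hL.le (by linarith)
  have h1 : Tl v θ L F = fun x => ∫ p : ℝ × Plane, pw L p * F (x - p.1 • v x - (θ * DD v L x) • p.2) := by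
    ext1 x; exact Tl_eq_prod hvl hL hF.1 x
  rw [h1]
  apply cc_avg volume (pw L) (continuous_pw hL) (hasCompactSupport_pw hL)
    (fun (p : ℝ × Plane) x => x - p.1 • v x - (θ * DD v L x) • p.2) (by fun_prop) (L + L ^ 2) _ F hF
  intro p x hp
  obtain ⟨h2, h3⟩ := pw_ne_zero hL hp
  have h4 : x - p.1 • v x - (θ * DD v L x) • p.2 - x = - (p.1 • v x) - (θ * DD v L x) • p.2 := by abel
  rw [h4]
  refine (norm_sub_le _ _).trans ?_
  rw [norm_neg, norm_smul, hvu, mul_one, Real.norm_eq_abs, norm_smul, Real.norm_eq_abs]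
  have h5 := DD_nonneg v hL.le x
  have h6 := DD_le hvl hvu hL.le x
  rw [abs_of_nonneg (mul_nonneg hθ h5)]
  have h7 : θ * DD v L x * ‖p.2‖ ≤ 1 * L ^ 2 * 1 := by (clear * - hθ1 h6 h5 h3 hL; gcongr)
  linarith only [h2, h7]

lemma pieces_const (w : ℝ≥0∞) (hw : w ≤ 8) (s : ℝ≥0∞) :
    4 * w ^ 2 * s ≤ ENNReal.ofReal (16 ^ 2) * s := by
  have h1 : (4 : ℝ≥0∞) * w ^ 2 ≤ 4 * 8 ^ 2 := by gcongr
  have h2 : (4 : ℝ≥0∞) * 8 ^ 2 = ENNReal.ofReal (16 ^ 2) := by norm_num
  rw [← h2]
  (clear * - h1; gcongr)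

lemma sqn_Tp_le (hvl : LipschitzWith 1 v) (hvu : ∀ x, ‖v x‖ = 1) (hL : 0 < L) (hL1 : L ≤ 1 / 64)
    (hF : CC F) : sqn (Tp v L F) ≤ ENNReal.ofReal (16 ^ 2) * sqn F := by
  have hvc := hvl.continuous
  refine (sqn_avg_le volume (eta L) (continuous_eta hL).measurable (fun t x => x - t • v x)
    (Continuous.measurable (by fun_prop)) 4 ?_ F hF.1.measurable).trans
    (pieces_const _ (lintegral_eta_le hL) _)
  intro t ht G hG
  exact pieces_comp_Tp hvl (by linarith only [(eta_supp hL ht).2, hL1]) G hG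

lemma sqn_Ta_le (hvl : LipschitzWith 1 v) (hvu : ∀ x, ‖v x‖ = 1) (hL : 0 < L) (hL1 : L ≤ 1 / 64)
    (hF : CC F) : sqn (Ta v L F) ≤ ENNReal.ofReal (16 ^ 2) * sqn F := by
  refine (sqn_avg_le volume (eta L) (continuous_eta hL).measurable (fun s x => Psi v s x)
    (continuous_Psi hvl hvu).measurable 4 ?_ F hF.1.measurable).trans
    (pieces_const _ (lintegral_eta_le hL) _)
  intro s hs G hG
  exact pieces_comp_Ta hvl (by linarith only [(eta_supp hL hs).2, hL1]) G hG

lemma sqn_Tl_le (hvl : LipschitzWith 1 v) (hvu : ∀ x, ‖v x‖ = 1) (hL : 0 < L) (hL1 : L ≤ 1 / 64)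
    (hθ : 0 ≤ θ) (hθ1 : θ ≤ 1) (hF : CC F) :
    sqn (Tl v θ L F) ≤ ENNReal.ofReal (16 ^ 2) * sqn F := by
  have hvc := hvl.continuous
  have hDc : Continuous (DD v L) := continuous_DD hvl hL.le (by linarith only [hL1])
  have h1 : Tl v θ L F = fun x => ∫ p : ℝ × Plane, pw L p * F (x - p.1 • v x - (θ * DD v L x) • p.2) := by
    ext1 x; exact Tl_eq_prod hvl hL hF.1 x
  rw [h1]
  refine (sqn_avg_le volume (pw L) (continuous_pw hL).measurable
    (fun (p : ℝ × Plane) x => x - p.1 • v x - (θ * DD v L x) • p.2)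
    (Continuous.measurable (by fun_prop)) 4 ?_ F hF.1.measurable).trans
    (pieces_const _ (lintegral_pw_le hL) _)
  intro p hp G hG
  obtain ⟨h2, h3⟩ := pw_ne_zero hL hp
  exact pieces_comp_Tl hvl hL hL1 hθ hθ1 (by linarith only [hL, h2]) (by linarith only [h3]) G hG

lemma Tp_add (hvl : LipschitzWith 1 v) (hL : 0 < L) {F G : Plane → ℝ} (hF : CC F) (hG : CC G) :
    Tp v L (F + G) = Tp v L F + Tp v L G := by
  have key : ∀ H : Plane → ℝ, CC H → ∀ x, Integrable (fun t : ℝ => eta L t * H (x - t • v x)) := by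
    intro H hH x
    apply Continuous.integrable_of_hasCompactSupport
    · exact (continuous_eta hL).mul (hH.1.comp (by fun_prop))
    · exact (hasCompactSupport_eta hL).mul_right
  ext x
  simp only [Tp, Pi.add_apply, mul_add]
  exact integral_add (key F hF x) (key G hG x)

lemma Ta_add (hvl : LipschitzWith 1 v) (hvu : ∀ x, ‖v x‖ = 1) (hL : 0 < L) {F G : Plane → ℝ}
    (hF : CC F) (hG : CC G) : Ta v L (F + G) = Ta v L F + Ta v L G := by
  have key : ∀ H : Plane → ℝ, CC H → ∀ x, Integrable (fun s : ℝ => eta L s * H (Psi v s x)) := by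
    intro H hH x
    apply Continuous.integrable_of_hasCompactSupport
    · exact (continuous_eta hL).mul (hH.1.comp
        ((continuous_Psi hvl hvu).comp (continuous_id.prodMk continuous_const)))
    · exact (hasCompactSupport_eta hL).mul_right
  ext x
  simp only [Ta, Pi.add_apply, mul_add]
  exact integral_add (key F hF x) (key G hG x)

lemma Tl_add (hvl : LipschitzWith 1 v) (hL : 0 < L) {F G : Plane → ℝ} (hF : CC F) (hG : CC G) :
    Tl v θ L (F + G) = Tl v θ L F + Tl v θ L G := by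
  have key : ∀ H : Plane → ℝ, CC H → ∀ x, Integrable (fun p : ℝ × Plane =>
      pw L p * H (x - p.1 • v x - (θ * DD v L x) • p.2)) := by
    intro H hH x
    apply Continuous.integrable_of_hasCompactSupport
    · exact (continuous_pw hL).mul (hH.1.comp (by (clear * -; fun_prop)))
    · exact (hasCompactSupport_pw hL).mul_right
  ext x
  rw [Pi.add_apply, Tl_eq_prod hvl hL (hF.1.add hG.1), Tl_eq_prod hvl hL hF.1,
    Tl_eq_prod hvl hL hG.1, ← integral_add (key F hF x) (key G hG x)]
  congr 1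
  ext p
  simp only [Pi.add_apply]
  ring

lemma Tp_smul (c : ℝ) (F : Plane → ℝ) : Tp v L (c • F) = c • Tp v L F := by
  ext x
  simp only [Tp, Pi.smul_apply, smul_eq_mul]
  rw [← integral_const_mul]
  congr 1; ext t; ring

lemma Ta_smul (c : ℝ) (F : Plane → ℝ) : Ta v L (c • F) = c • Ta v L F := by
  ext x
  simp only [Ta, Pi.smul_apply, smul_eq_mul]
  rw [← integral_const_mul]
  congr 1; ext t; ring

lemma Tl_smul (c : ℝ) (F : Plane → ℝ) : Tl v θ L (c • F) = c • Tl v θ L F := by
  ext x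
  simp only [Tl, Pi.smul_apply, smul_eq_mul]
  rw [← integral_const_mul]
  congr 1; ext t
  have h1 : ∫ h : Plane, bump h * (c * F (x - t • v x - (θ * DD v L x) • h)) =
      c * ∫ h : Plane, bump h * F (x - t • v x - (θ * DD v L x) • h) := by
    rw [← integral_const_mul]
    congr 1; ext h; ring
  rw [h1]; ring

end Vale.Agent.P112
end

section

/-! Task P112-FT19a: removing the regularisation. -/

namespace Vale.Agent.P112

open MeasureTheory Filter Topology Set
open scoped ENNReal NNReal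

/-- mollification of `F` -/
noncomputable def e1lMol (ρ : ℝ) (F : Plane → ℝ) (y : Plane) : ℝ := ∫ z, bumpr ρ (y - z) * F z

lemma e1l_integrable {ρ : ℝ} {F : Plane → ℝ} (hF : CC F) (y : Plane) :
    Integrable (fun z => bumpr ρ (y - z) * F z) := by
  apply Continuous.integrable_of_hasCompactSupport
  · exact ((continuous_bumpr ρ).comp (by fun_prop)).mul hF.1
  · exact hF.2.mul_left

lemma e1l_approx {F : Plane → ℝ} (hF : CC F) {ε : ℝ} (hε : 0 < ε) :
    ∃ δ : ℝ, 0 < δ ∧ ∀ ρ, 0 < ρ → ρ < δ → ∀ y, |e1lMol ρ F y - F y| ≤ ε := by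
  have huc : UniformContinuous F := hF.2.uniformContinuous_of_continuous hF.1
  rw [Metric.uniformContinuous_iff] at huc
  obtain ⟨δ, hδ, h⟩ := huc ε hε
  refine ⟨δ, hδ, fun ρ hρ hρδ y => ?_⟩
  have h1 : Integrable (fun z => bumpr ρ (y - z)) := (integrable_bumpr hρ).comp_sub_left y
  have h2 : ∫ z, bumpr ρ (y - z) = 1 := by
    rw [integral_sub_left_eq_self (bumpr ρ) volume y]
    exact integral_bumpr hρ
  have h3 : F y = ∫ z, bumpr ρ (y - z) * F y := by
    rw [integral_mul_const, h2, one_mul]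
  unfold e1lMol
  rw [h3, ← integral_sub (e1l_integrable hF y) (h1.mul_const _)]
  have h4 : ‖∫ z, (bumpr ρ (y - z) * F z - bumpr ρ (y - z) * F y)‖ ≤ ∫ z, bumpr ρ (y - z) * ε := by
    refine norm_integral_le_of_norm_le (h1.mul_const _) ?_
    filter_upwards with z
    rw [← mul_sub, norm_mul, Real.norm_eq_abs, Real.norm_eq_abs,
      abs_of_nonneg (bumpr_nonneg hρ _)]
    by_cases hz : ρ ≤ ‖y - z‖
    · rw [bumpr_eq_zero hρ hz]; simp only [zero_mul, Std.le_refl]
    · push Not at hz
      apply mul_le_mul_of_nonneg_left _ (bumpr_nonneg hρ _)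
      have := h (a := z) (b := y) (by rw [dist_comm, dist_eq_norm]; linarith)
      rw [Real.dist_eq] at this
      exact this.le
  rw [integral_mul_const, h2, one_mul] at h4
  exact h4

/-- the inner kernel -/
noncomputable def e1lk (ρ c : ℝ) (a w : Plane) (p : Plane × ℝ × Plane) : ℝ :=
  bumpr ρ (a - p.2.1 • w - p.2.2) - bumpr ρ (a - p.2.1 • w - c • p.1 - p.2.2)

lemma e1l_k_cont (ρ c : ℝ) (a w : Plane) : Continuous (e1lk ρ c a w) := by
  have hb := continuous_bumpr ρ
  unfold e1lk
  exact (hb.comp (by fun_prop)).sub (hb.comp (by fun_prop))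

lemma e1l_i1 {ρ c : ℝ} {a w : Plane} {L : ℝ} (hL : 0 < L) {F : Plane → ℝ} (hF : CC F) (h : Plane) :
    Integrable (fun p : Plane × ℝ => eta L p.2 * e1lk ρ c a w (h, p.2, p.1) * F p.1) := by
  have hk := e1l_k_cont ρ c a w
  have hec := continuous_eta hL
  have hFc := hF.1
  apply Continuous.integrable_of_hasCompactSupport
  · exact ((hec.comp continuous_snd).mul (hk.comp (by fun_prop))).mul (hFc.comp continuous_fst)
  · apply HasCompactSupport.intro (hF.2.isCompact.prod (isCompact_Icc (a := -L) (b := L)))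
    intro p hp
    by_contra hne
    apply hp
    refine ⟨subset_tsupport F (right_ne_zero_of_mul hne), ?_⟩
    have := eta_supp hL (left_ne_zero_of_mul (left_ne_zero_of_mul hne))
    exact abs_le.mp this.2.le

lemma e1l_c2 {ρ c : ℝ} (hρ : 0 < ρ) {a w : Plane} {L : ℝ} (hL : 0 < L) :
    Continuous (fun p : Plane × Plane => ∫ t : ℝ, eta L t * e1lk ρ c a w (p.2, t, p.1)) := by
  have hk := e1l_k_cont ρ c a w
  have hec := continuous_eta hL
  obtain ⟨B, hB⟩ := bumpr_bound hρ
  apply continuous_of_dominated (bound := fun t => |eta L t| * (2 * B))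
  · intro p
    exact (hec.mul (hk.comp (by fun_prop))).aestronglyMeasurable
  · intro p
    filter_upwards with t
    rw [norm_mul, Real.norm_eq_abs, Real.norm_eq_abs]
    apply mul_le_mul_of_nonneg_left _ (abs_nonneg _)
    have h1 := hB (a - t • w - p.1)
    have h2 := hB (a - t • w - c • p.2 - p.1)
    have h3 := abs_sub (bumpr ρ (a - t • w - p.1)) (bumpr ρ (a - t • w - c • p.2 - p.1))
    have h4 : |e1lk ρ c a w (p.2, t, p.1)| ≤ |bumpr ρ (a - t • w - p.1)| +
      |bumpr ρ (a - t • w - c • p.2 - p.1)| := h3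
    linarith only [h1, h2, h4]
  · exact (integrable_eta hL).abs.mul_const _
  · filter_upwards with t
    exact continuous_const.mul (hk.comp (by fun_prop))

lemma e1l_i2 {ρ c : ℝ} (hρ : 0 < ρ) {a w : Plane} {L : ℝ} (hL : 0 < L) {F : Plane → ℝ}
    (hF : CC F) : Integrable (fun p : Plane × Plane =>
      bump p.2 * (∫ t : ℝ, eta L t * e1lk ρ c a w (p.2, t, p.1)) * F p.1) := by
  have hbc := continuous_bump
  have hFc := hF.1
  apply Continuous.integrable_of_hasCompactSupport
  · exact ((hbc.comp continuous_snd).mul (e1l_c2 hρ hL)).mul (hFc.comp continuous_fst)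
  · apply HasCompactSupport.intro (hF.2.isCompact.prod (isCompact_closedBall (0 : Plane) 1))
    intro p hp
    by_contra hne
    apply hp
    refine ⟨subset_tsupport F (right_ne_zero_of_mul hne), ?_⟩
    rw [Metric.mem_closedBall, dist_zero_right]
    by_contra hcon
    push Not at hcon
    exact (left_ne_zero_of_mul (left_ne_zero_of_mul hne)) (bump_zero_out hcon.le)

/-- The action of the kernel on `F` in terms of the mollification. -/
lemma e1l_kern0 {ρ c : ℝ} (hρ : 0 < ρ) {a w : Plane} {L : ℝ} (hL : 0 < L) {F : Plane → ℝ}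
    (hF : CC F) :
    ∫ z, (∫ h : Plane, bump h * ∫ t : ℝ, eta L t * e1lk ρ c a w (h, t, z)) * F z =
      ∫ h : Plane, bump h * ∫ t : ℝ, eta L t *
        (e1lMol ρ F (a - t • w) - e1lMol ρ F (a - t • w - c • h)) := by
  have e1 : ∀ z, (∫ h : Plane, bump h * ∫ t : ℝ, eta L t * e1lk ρ c a w (h, t, z)) * F z =
      ∫ h : Plane, bump h * (∫ t : ℝ, eta L t * e1lk ρ c a w (h, t, z)) * F z := by
    intro z
    rw [integral_mul_const]
  rw [integral_congr_ae (ae_of_all _ e1)]
  rw [integral_integral_swap (f := fun z h => bump h *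
    (∫ t : ℝ, eta L t * e1lk ρ c a w (h, t, z)) * F z) (e1l_i2 hρ hL hF)]
  apply integral_congr_ae
  filter_upwards with h
  have e2 : ∀ z, bump h * (∫ t : ℝ, eta L t * e1lk ρ c a w (h, t, z)) * F z =
      bump h * ∫ t : ℝ, eta L t * e1lk ρ c a w (h, t, z) * F z := by
    intro z
    rw [integral_mul_const, mul_assoc]
  rw [integral_congr_ae (ae_of_all _ e2)]
  rw [integral_const_mul, integral_integral_swap
    (f := fun z t => eta L t * e1lk ρ c a w (h, t, z) * F z) (e1l_i1 hL hF h)]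
  congr 1
  apply integral_congr_ae
  filter_upwards with t
  have e3 : ∀ z, eta L t * e1lk ρ c a w (h, t, z) * F z = eta L t * (bumpr ρ (a - t • w - z) * F z -
      bumpr ρ (a - t • w - c • h - z) * F z) := by
    intro z; unfold e1lk; ring
  rw [integral_congr_ae (ae_of_all _ e3)]
  rw [integral_const_mul, integral_sub (e1l_integrable hF _) (e1l_integrable hF _)]
  rfl

/-- The action of the kernel on `F` in terms of the mollification. -/
lemma e1l_kern {v : Plane → Plane} {θ L ρ : ℝ} (hL : 0 < L) (hρ : 0 < ρ) {F : Plane → ℝ}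
    (hF : CC F) (x : Plane) :
    ∫ z, kern v θ L ρ x z * F z = ∫ h : Plane, bump h * ∫ t : ℝ, eta L t *
      (e1lMol ρ F (x - t • v x) - e1lMol ρ F (x - t • v x - (θ * DD v L x) • h)) :=
  e1l_kern0 (a := x) (w := v x) (c := θ * DD v L x) hρ hL hF

/-- The difference `Tp - Tl` as an iterated integral. -/
lemma e1l_diff {v : Plane → Plane} (hvl : LipschitzWith 1 v) {θ L : ℝ} (hL : 0 < L)
    {F : Plane → ℝ} (hF : CC F) (x : Plane) :
    Tp v L F x - Tl v θ L F x = ∫ h : Plane, bump h * ∫ t : ℝ, eta L t *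
      (F (x - t • v x) - F (x - t • v x - (θ * DD v L x) • h)) := by
  have hFc := hF.1
  have hec := continuous_eta hL
  have hbc := continuous_bump
  have i1 : ∀ h : Plane, Integrable (fun t : ℝ => eta L t * F (x - t • v x - (θ * DD v L x) • h)) := by
    intro h
    apply Continuous.integrable_of_hasCompactSupport
    · fun_prop
    · exact (hasCompactSupport_eta hL).mul_right
  have i0 : Integrable (fun t : ℝ => eta L t * F (x - t • v x)) := by
    apply Continuous.integrable_of_hasCompactSupport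
    · fun_prop
    · exact (hasCompactSupport_eta hL).mul_right
  have h1 : ∀ h : Plane, bump h * ∫ t : ℝ, eta L t *
      (F (x - t • v x) - F (x - t • v x - (θ * DD v L x) • h)) =
      bump h * Tp v L F x - bump h * ∫ t : ℝ, eta L t * F (x - t • v x - (θ * DD v L x) • h) := by
    intro h
    rw [← mul_sub]
    congr 1
    unfold Tp
    rw [← integral_sub i0 (i1 h)]
    congr 1; ext t; ring
  simp_rw [h1]
  have i3 : Integrable (fun p : Plane × ℝ => bump p.1 * (eta L p.2 *
      F (x - p.2 • v x - (θ * DD v L x) • p.1))) := by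
    apply Continuous.integrable_of_hasCompactSupport
    · fun_prop
    · apply HasCompactSupport.intro ((isCompact_closedBall (0 : Plane) 1).prod
        (isCompact_Icc (a := -L) (b := L)))
      intro p hp
      by_contra hne
      apply hp
      refine ⟨?_, ?_⟩
      · rw [Metric.mem_closedBall, dist_zero_right]
        by_contra hcon
        push Not at hcon
        exact (left_ne_zero_of_mul hne) (bump_zero_out hcon.le)
      · have := eta_supp hL (left_ne_zero_of_mul (right_ne_zero_of_mul hne))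
        exact abs_le.mp this.2.le
  have i4 : Integrable (fun h : Plane => bump h * ∫ t : ℝ, eta L t *
      F (x - t • v x - (θ * DD v L x) • h)) := by
    have := i3.integral_prod_left
    refine this.congr ?_
    filter_upwards with h
    rw [← integral_const_mul]
  rw [integral_sub (integrable_bump.mul_const _) i4, integral_mul_const, integral_bump, one_mul]
  congr 1
  have h2 : ∀ h : Plane, bump h * ∫ t : ℝ, eta L t * F (x - t • v x - (θ * DD v L x) • h) =
      ∫ t : ℝ, bump h * (eta L t * F (x - t • v x - (θ * DD v L x) • h)) := by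
    intro h; rw [integral_const_mul]
  simp_rw [h2]
  rw [integral_integral_swap (f := fun h t => bump h * (eta L t *
    F (x - t • v x - (θ * DD v L x) • h))) i3]
  unfold Tl
  congr 1
  ext t
  rw [← integral_const_mul]
  congr 1; ext h; ring

/-- pointwise closeness of the regularised operator -/
lemma e1l_close {v : Plane → Plane} (hvl : LipschitzWith 1 v) {θ L : ℝ} (hL : 0 < L)
    {F : Plane → ℝ} (hF : CC F) (x : Plane) {ρ ε : ℝ} (hρ : 0 < ρ) (hε : 0 ≤ ε)
    (h : ∀ y, |e1lMol ρ F y - F y| ≤ ε) :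
    |(∫ z, kern v θ L ρ x z * F z) - (Tp v L F x - Tl v θ L F x)| ≤
      2 * ε * ∫ t : ℝ, |eta L t| := by
  have hFc := hF.1
  have hec := continuous_eta hL
  have hbc := continuous_bump
  have hMc : Continuous (e1lMol ρ F) := by
    unfold e1lMol
    obtain ⟨B, hB⟩ := bumpr_bound hρ
    apply continuous_of_dominated (bound := fun z => B * |F z|)
    · intro y
      apply Continuous.aestronglyMeasurable
      exact ((continuous_bumpr ρ).comp (by fun_prop)).mul hF.1
    · intro y
      filter_upwards with z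
      rw [norm_mul, Real.norm_eq_abs, Real.norm_eq_abs]
      gcongr
      exact hB _
    · exact ((hF.1.integrable_of_hasCompactSupport hF.2).abs).const_mul _
    · filter_upwards with z
      exact ((continuous_bumpr ρ).comp (by fun_prop)).mul continuous_const
  rw [e1l_kern hL hρ hF x, e1l_diff hvl hL hF x]
  -- integrability
  have iG : ∀ G : Plane → ℝ, Continuous G → Integrable (fun h : Plane => bump h * ∫ t : ℝ, eta L t *
      (G (x - t • v x) - G (x - t • v x - (θ * DD v L x) • h))) := by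
    intro G hG
    have i3 : Integrable (fun p : Plane × ℝ => bump p.1 * (eta L p.2 *
        (G (x - p.2 • v x) - G (x - p.2 • v x - (θ * DD v L x) • p.1)))) := by
      apply Continuous.integrable_of_hasCompactSupport
      · fun_prop
      · apply HasCompactSupport.intro ((isCompact_closedBall (0 : Plane) 1).prod
          (isCompact_Icc (a := -L) (b := L)))
        intro p hp
        by_contra hne
        apply hp
        refine ⟨?_, ?_⟩
        · rw [Metric.mem_closedBall, dist_zero_right]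
          by_contra hcon
          push Not at hcon
          exact (left_ne_zero_of_mul hne) (bump_zero_out hcon.le)
        · have := eta_supp hL (left_ne_zero_of_mul (right_ne_zero_of_mul hne))
          exact abs_le.mp this.2.le
    have := i3.integral_prod_left
    refine this.congr ?_
    filter_upwards with h
    rw [← integral_const_mul]
  have iT : ∀ G : Plane → ℝ, Continuous G → ∀ h : Plane, Integrable (fun t : ℝ => eta L t *
      (G (x - t • v x) - G (x - t • v x - (θ * DD v L x) • h))) := by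
    intro G hG h
    apply Continuous.integrable_of_hasCompactSupport
    · fun_prop
    · exact (hasCompactSupport_eta hL).mul_right
  rw [← integral_sub (iG _ hMc) (iG _ hFc)]
  have h5 := norm_integral_le_of_norm_le (μ := volume)
    (f := fun h' : Plane => (bump h' * ∫ t : ℝ, eta L t *
      (e1lMol ρ F (x - t • v x) - e1lMol ρ F (x - t • v x - (θ * DD v L x) • h'))) -
      bump h' * ∫ t : ℝ, eta L t * (F (x - t • v x) - F (x - t • v x - (θ * DD v L x) • h')))
    (g := fun h' => bump h' * (2 * ε * ∫ t : ℝ, |eta L t|)) (integrable_bump.mul_const _) (by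
      filter_upwards with h'
      rw [← mul_sub, norm_mul, Real.norm_eq_abs, Real.norm_eq_abs, abs_of_nonneg (bump_nonneg h')]
      apply mul_le_mul_of_nonneg_left _ (bump_nonneg h')
      rw [← integral_sub (iT _ hMc h') (iT _ hFc h')]
      have h6 := norm_integral_le_of_norm_le (μ := volume)
        (f := fun t : ℝ => eta L t * (e1lMol ρ F (x - t • v x) -
          e1lMol ρ F (x - t • v x - (θ * DD v L x) • h')) -
          eta L t * (F (x - t • v x) - F (x - t • v x - (θ * DD v L x) • h')))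
        (g := fun t => 2 * ε * |eta L t|) ((integrable_eta hL).abs.const_mul _) (by
          filter_upwards with t
          have e : eta L t * (e1lMol ρ F (x - t • v x) -
              e1lMol ρ F (x - t • v x - (θ * DD v L x) • h')) -
              eta L t * (F (x - t • v x) - F (x - t • v x - (θ * DD v L x) • h')) =
              eta L t * ((e1lMol ρ F (x - t • v x) - F (x - t • v x)) -
                (e1lMol ρ F (x - t • v x - (θ * DD v L x) • h') -
                  F (x - t • v x - (θ * DD v L x) • h'))) := by ring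
          rw [e, norm_mul, Real.norm_eq_abs, Real.norm_eq_abs, mul_comm (2 * ε)]
          gcongr
          have a1 := h (x - t • v x)
          have a2 := h (x - t • v x - (θ * DD v L x) • h')
          have a3 := abs_sub (e1lMol ρ F (x - t • v x) - F (x - t • v x))
            (e1lMol ρ F (x - t • v x - (θ * DD v L x) • h') - F (x - t • v x - (θ * DD v L x) • h'))
          linarith only [a1, a2, a3])
      rw [integral_const_mul] at h6
      exact h6)
  rw [integral_mul_const, integral_bump, one_mul] at h5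
  exact h5

/-- Removing the regularisation. -/
theorem E1_limit {v : Plane → Plane} (hvl : LipschitzWith 1 v) (hvu : ∀ x, ‖v x‖ = 1) {L θ : ℝ}
    (hL : 0 < L) (hL1 : L ≤ 1 / 64) (hθ : 0 < θ) (hθ1 : θ ≤ 1) (B : ℝ≥0∞) (F : Plane → ℝ)
    (hF : CC F)
    (h : ∀ τ ρ : ℝ, 0 < τ → 0 < ρ → ρ ≤ θ * τ → ρ ≤ 1 →
      sqn (fun x => ∫ z, ({y | τ < DD v L y}.indicator (fun y => kern v θ L ρ y z) x) * F z) ≤
        B * sqn F) :
    sqn (fun x => Tp v L F x - Tl v θ L F x) ≤ B * sqn F := by
  set τ : ℕ → ℝ := fun n => 1 / ((n : ℝ) + 1) with hτ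
  have hτ0 : ∀ n, 0 < τ n := fun n => by rw [hτ]; (clear * -; positivity)
  have hτlim : Tendsto τ atTop (𝓝 0) := tendsto_one_div_add_atTop_nhds_zero_nat
  have hτ1 : ∀ n, τ n ≤ 1 := fun n => by
    rw [hτ]
    dsimp only
    rw [div_le_one (by (clear * -; positivity))]
    have : (0:ℝ) ≤ n := by (clear * -; positivity)
    linarith only []
  set g : ℕ → Plane → ℝ := fun n x =>
    ∫ z, ({y | τ n < DD v L y}.indicator (fun y => kern v θ L (θ * τ n) y z) x) * F z with hg
  have hgb : ∀ n, sqn (g n) ≤ B * sqn F := by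
    intro n
    apply h (τ n) (θ * τ n) (hτ0 n) (mul_pos hθ (hτ0 n)) le_rfl
    have := hτ0 n
    have := hτ1 n
    nlinarith only [hθ, hθ1, this]
  -- pointwise convergence
  have hlim : ∀ x, Tendsto (fun n => g n x) atTop (𝓝 (Tp v L F x - Tl v θ L F x)) := by
    intro x
    have hD0 := DD_nonneg v hL.le x
    rcases hD0.eq_or_lt with h0 | hpos
    · have h1 : ∀ n, g n x = 0 := by
        intro n
        rw [hg]
        dsimp only
        have : x ∉ {y | τ n < DD v L y} := by
          simp only [Set.mem_ofPred_eq, not_lt]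
          rw [← h0]; exact (hτ0 n).le
        simp only [indicator_of_notMem this, zero_mul, integral_zero]
      have h2 : Tp v L F x - Tl v θ L F x = 0 := by
        rw [e1l_diff hvl hL hF x, ← h0]
        simp only [mul_zero, zero_smul, sub_zero, sub_self, integral_zero]
      simp_rw [h1, h2]
      exact tendsto_const_nhds
    · rw [Metric.tendsto_atTop]
      intro ε hε
      set I := ∫ t : ℝ, |eta L t| with hI
      have hI0 : 0 ≤ I := integral_nonneg (fun t => abs_nonneg _)
      obtain ⟨δ, hδ, happ⟩ := e1l_approx hF (ε := ε / (4 * (I + 1))) (by (clear * - hε; positivity))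
      have hev1 : ∀ᶠ n in atTop, τ n < δ := hτlim.eventually (gt_mem_nhds hδ)
      have hev2 : ∀ᶠ n in atTop, τ n < DD v L x := hτlim.eventually (gt_mem_nhds hpos)
      obtain ⟨N, hN⟩ := (hev1.and hev2).exists_forall_of_atTop
      refine ⟨N, fun n hn => ?_⟩
      obtain ⟨hn1, hn2⟩ := hN n hn
      have hmem : x ∈ {y | τ n < DD v L y} := hn2
      have hgx : g n x = ∫ z, kern v θ L (θ * τ n) x z * F z := by
        rw [hg]
        dsimp only
        congr 1
        ext z
        rw [indicator_of_mem hmem]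
      rw [hgx, Real.dist_eq]
      have hθτ : 0 < θ * τ n := mul_pos hθ (hτ0 n)
      have hθτδ : θ * τ n < δ := by
        have := hτ0 n
        nlinarith only [hθ, hθ1, hδ, hn1]
      have := e1l_close hvl hL hF x (θ := θ) hθτ (by (clear * - hε; positivity) : 0 ≤ ε / (4 * (I + 1)))
        (happ _ hθτ hθτδ)
      refine lt_of_le_of_lt this ?_
      rw [← hI]
      have h3 : 2 * (ε / (4 * (I + 1))) * I ≤ ε / 2 := by
        rw [mul_div_assoc', div_mul_eq_mul_div, div_le_div_iff₀ (by (clear * -; positivity)) (by norm_num)]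
        linarith only [hε]
      linarith only [hε, h3]
  -- measurability
  have hmeas : ∀ n, Measurable (g n) := by
    intro n
    have h1 : Measurable (fun p : Plane × Plane =>
        ({y | τ n < DD v L y}.indicator (fun y => kern v θ L (θ * τ n) y p.2) p.1) * F p.2) := by
      have h2 := measurable_kern (θ := θ) hvl hL (by linarith only [hL1]) (mul_pos hθ (hτ0 n))
      have h3 : MeasurableSet {p : Plane × Plane | τ n < DD v L p.1} :=
        measurableSet_lt measurable_const
          ((continuous_DD hvl hL.le (by linarith only [hL1])).measurable.comp measurable_fst)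
      have h4 : (fun p : Plane × Plane =>
          ({y | τ n < DD v L y}.indicator (fun y => kern v θ L (θ * τ n) y p.2) p.1)) =
          {p : Plane × Plane | τ n < DD v L p.1}.indicator
            (fun p => kern v θ L (θ * τ n) p.1 p.2) := by
        ext p
        by_cases hp : τ n < DD v L p.1
        · rw [indicator_of_mem (by exact hp), indicator_of_mem (by exact hp)]
        · rw [indicator_of_notMem (by exact hp), indicator_of_notMem (by exact hp)]
      have h5 := (h2.indicator h3).mul (hF.1.measurable.comp measurable_snd)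
      rw [← h4] at h5
      exact h5
    exact h1.stronglyMeasurable.integral_prod_right.measurable
  unfold sqn at hgb ⊢
  calc ∫⁻ x, ‖Tp v L F x - Tl v θ L F x‖ₑ ^ 2
      = ∫⁻ x, liminf (fun n => ‖g n x‖ₑ ^ 2) atTop := by
        congr 1
        ext x
        have h6 : Tendsto (fun n => ‖g n x‖ₑ ^ 2) atTop (𝓝 (‖Tp v L F x - Tl v θ L F x‖ₑ ^ 2)) :=
          ((ENNReal.continuous_pow 2).tendsto _).comp (hlim x).enorm
        exact h6.liminf_eq.symm
    _ ≤ liminf (fun n => ∫⁻ x, ‖g n x‖ₑ ^ 2) atTop :=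
        lintegral_liminf_le (fun n => (hmeas n).enorm.pow_const 2)
    _ ≤ B * ∫⁻ x, ‖F x‖ₑ ^ 2 := by
        apply liminf_le_of_frequently_le'
        exact Frequently.of_forall hgb

end Vale.Agent.P112
end

section

/-! Task P112-FT19b: the mollification error. -/

namespace Vale.Agent.P112

open MeasureTheory Filter Topology Set
open scoped ENNReal NNReal

/-- the constants -/
lemma E1_const {β θ : ℝ} (hβ1 : β ≤ 1) (hθ : 0 < θ) (hθ1 : θ ≤ 1) {Cn Cf : ℝ}
    (hCn : 0 < Cn) (hCf : 0 < Cf) :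
    Cn * (θ ^ (1 / 2 : ℝ)) ^ β + Cf * (θ / θ ^ (1 / 2 : ℝ)) ≤
      (Real.sqrt (Cn + Cf) * θ ^ (β / 4)) ^ 2 := by
  have h1 : (θ ^ (1 / 2 : ℝ)) ^ β = θ ^ (β / 2) := by
    rw [← Real.rpow_mul hθ.le]
    congr 1
    ring
  have h2 : θ / θ ^ (1 / 2 : ℝ) = θ ^ (1 / 2 : ℝ) := by
    rw [div_eq_iff (Real.rpow_pos_of_pos hθ _).ne', ← Real.rpow_add hθ]
    norm_num
  have h3 : θ ^ (1 / 2 : ℝ) ≤ θ ^ (β / 2) :=
    Real.rpow_le_rpow_of_exponent_ge hθ hθ1 (by linarith only [hβ1])
  have h4 : (Real.sqrt (Cn + Cf) * θ ^ (β / 4)) ^ 2 = (Cn + Cf) * θ ^ (β / 2) := by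
    rw [mul_pow, Real.sq_sqrt (by positivity), ← Real.rpow_natCast (θ ^ (β / 4)) 2,
      ← Real.rpow_mul hθ.le]
    congr 2
    push_cast
    ring
  rw [h1, h2, h4]
  have h5 : Cf * θ ^ (1 / 2 : ℝ) ≤ Cf * θ ^ (β / 2) := mul_le_mul_of_nonneg_left h3 hCf.le
  linarith only [h5]

/-- the cut kernel -/
noncomputable def E1A (v : Plane → Plane) (θ L ρ τ : ℝ) (x z : Plane) : ℝ :=
  {y | τ < DD v L y}.indicator (fun y => kern v θ L ρ y z) x

lemma E1A_le (v : Plane → Plane) (θ L ρ τ : ℝ) (x y : Plane) :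
    ‖∫ z, E1A v θ L ρ τ x z * E1A v θ L ρ τ y z‖ₑ ≤
      ‖∫ z, kern v θ L ρ x z * kern v θ L ρ y z‖ₑ := by
  by_cases hx : τ < DD v L x
  · by_cases hy : τ < DD v L y
    · have h : ∀ z, E1A v θ L ρ τ x z * E1A v θ L ρ τ y z =
          kern v θ L ρ x z * kern v θ L ρ y z := by
        intro z
        unfold E1A
        rw [indicator_of_mem (show x ∈ {y | τ < DD v L y} from hx),
          indicator_of_mem (show y ∈ {y | τ < DD v L y} from hy)]
      simp only [h]
      exact le_rfl
    · have h : ∀ z, E1A v θ L ρ τ x z * E1A v θ L ρ τ y z = 0 := by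
        intro z
        unfold E1A
        rw [indicator_of_notMem (show y ∉ {y | τ < DD v L y} from hy), mul_zero]
      simp only [h, integral_zero, enorm_zero]
      exact zero_le
  · have h : ∀ z, E1A v θ L ρ τ x z * E1A v θ L ρ τ y z = 0 := by
      intro z
      unfold E1A
      rw [indicator_of_notMem (show x ∉ {y | τ < DD v L y} from hx), zero_mul]
    simp only [h, integral_zero, enorm_zero]
    exact zero_le

lemma E1A_zero {v : Plane → Plane} {θ L ρ τ : ℝ} {x : Plane} (hx : ¬ τ < DD v L x) (y : Plane) :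
    ‖∫ z, E1A v θ L ρ τ x z * E1A v θ L ρ τ y z‖ₑ = 0 := by
  have h : ∀ z, E1A v θ L ρ τ x z * E1A v θ L ρ τ y z = 0 := by
    intro z
    unfold E1A
    rw [indicator_of_notMem (show x ∉ {y | τ < DD v L y} from hx), zero_mul]
  simp only [h, integral_zero, enorm_zero]

lemma E1A_measurable {v : Plane → Plane} (hvl : LipschitzWith 1 v) {θ L ρ τ : ℝ} (hL : 0 < L)
    (hL1 : L ≤ 1) (hρ : 0 < ρ) :
    Measurable (fun p : Plane × Plane => E1A v θ L ρ τ p.1 p.2) := by
  have hS : MeasurableSet {p : Plane × Plane | τ < DD v L p.1} :=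
    (isOpen_lt continuous_const ((continuous_DD hvl hL.le hL1).comp continuous_fst)).measurableSet
  have h := (measurable_kern (θ := θ) hvl hL hL1 hρ).indicator hS
  have e : (fun p : Plane × Plane => E1A v θ L ρ τ p.1 p.2) =
      {p : Plane × Plane | τ < DD v L p.1}.indicator
        (fun p : Plane × Plane => kern v θ L ρ p.1 p.2) := by
    funext p
    unfold E1A
    by_cases hp : τ < DD v L p.1
    · rw [indicator_of_mem (show p.1 ∈ {y | τ < DD v L y} from hp),
        indicator_of_mem (show p ∈ {p : Plane × Plane | τ < DD v L p.1} from hp)]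
    · rw [indicator_of_notMem (show p.1 ∉ {y | τ < DD v L y} from hp),
        indicator_of_notMem (show p ∉ {p : Plane × Plane | τ < DD v L p.1} from hp)]
  rw [e]
  exact h

theorem E1_bound (C₁ β : ℝ) (hC₁ : 1 ≤ C₁) (hβ : 0 < β) (hβ1 : β ≤ 1) : ∃ C : ℝ, 0 < C ∧
    ∀ (v : Plane → Plane), LipschitzWith 1 v → (∀ x, ‖v x‖ = 1) → ∀ (L θ : ℝ), 0 < L →
    L ≤ 1 / 64 → 0 < θ → θ ≤ 1 → (∀ x, Good v L C₁ β x) → ∀ F, CC F →
    sqn (fun x => Tp v L F x - Tl v θ L F x) ≤
      ENNReal.ofReal ((C * θ ^ (β / 4)) ^ 2) * sqn F := by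
  obtain ⟨Cn, hCn, hnear⟩ := near_bound C₁ β hC₁ hβ hβ1
  obtain ⟨Cf, hCf, hfar⟩ := far_bound
  refine ⟨Real.sqrt (Cn + Cf), Real.sqrt_pos.2 (by (clear * - hCn hCf; positivity)), ?_⟩
  intro v hvl hvu L θ hL hL1 hθ hθ1 hgood F hF
  have hLone : L ≤ 1 := by linarith
  set κ : ℝ := θ ^ (1 / 2 : ℝ) with hκ
  have hκ0 : 0 < κ := Real.rpow_pos_of_pos hθ _
  have hκ1 : κ ≤ 1 := Real.rpow_le_one hθ.le hθ1 (by norm_num)
  have hθκ : θ ≤ κ := by
    have := Real.rpow_le_rpow_of_exponent_ge hθ hθ1 (show (1 / 2 : ℝ) ≤ 1 by norm_num)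
    rwa [Real.rpow_one] at this
  apply E1_limit hvl hvu hL hL1 hθ hθ1 _ F hF
  intro τ ρ hτ hρ hρθ hρ1
  refine (kern_bound (v := v) (θ := θ) hL hρ).elim fun b hb => ?_
  refine TTstar (E1A v θ L ρ τ) (E1A_measurable hvl hL hLone hρ) b 3 ?_ ?_ _ (by (clear * - hCn hCf hθ; positivity)) ?_ F hF
  · intro x z
    unfold E1A
    by_cases hx : τ < DD v L x
    · rw [indicator_of_mem (show x ∈ {y | τ < DD v L y} from hx)]
      exact hb x z
    · rw [indicator_of_notMem (show x ∉ {y | τ < DD v L y} from hx), abs_zero]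
      exact (abs_nonneg _).trans (hb x z)
  · intro x z h
    unfold E1A
    by_cases hx : τ < DD v L x
    · rw [indicator_of_mem (show x ∈ {y | τ < DD v L y} from hx)]
      exact kern_supp hvl hvu hL hL1 hθ.le hθ1 hρ hρ1 x z h
    · rw [indicator_of_notMem (show x ∉ {y | τ < DD v L y} from hx)]
  · intro x
    by_cases hx : τ < DD v L x
    · have hρD : ρ ≤ θ * DD v L x := hρθ.trans (mul_le_mul_of_nonneg_left hx.le hθ.le)
      have hS : MeasurableSet {y : Plane | ‖v y - v x‖ < κ * (DD v L x / L)} :=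
        (isOpen_lt ((hvl.continuous.sub continuous_const).norm) continuous_const).measurableSet
      have hSc : {y : Plane | ‖v y - v x‖ < κ * (DD v L x / L)}ᶜ =
          {y : Plane | κ * (DD v L x / L) ≤ ‖v y - v x‖} := by
        ext y
        simp only [mem_compl_iff, mem_setOf_eq, not_lt]
      calc ∫⁻ y, ‖∫ z, E1A v θ L ρ τ x z * E1A v θ L ρ τ y z‖ₑ
          ≤ ∫⁻ y, ‖∫ z, kern v θ L ρ x z * kern v θ L ρ y z‖ₑ :=
            lintegral_mono fun y => E1A_le v θ L ρ τ x y
        _ = (∫⁻ y in {y : Plane | ‖v y - v x‖ < κ * (DD v L x / L)},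
              ‖∫ z, kern v θ L ρ x z * kern v θ L ρ y z‖ₑ) +
            ∫⁻ y in {y : Plane | ‖v y - v x‖ < κ * (DD v L x / L)}ᶜ,
              ‖∫ z, kern v θ L ρ x z * kern v θ L ρ y z‖ₑ := (lintegral_add_compl _ hS).symm
        _ ≤ ENNReal.ofReal (Cn * κ ^ β) + ENNReal.ofReal (Cf * (θ / κ)) := by
            rw [hSc]
            exact add_le_add
              (hnear v hvl hvu L θ κ ρ hL hL1 hθ hθκ hκ1 hgood x hρ hρD)
              (hfar v hvl hvu L θ κ ρ hL hL1 hθ hθκ hκ1 x hρ hρD)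
        _ = ENNReal.ofReal (Cn * κ ^ β + Cf * (θ / κ)) :=
            (ENNReal.ofReal_add (by (clear * - hCn hθ; positivity)) (by (clear * - hCf hθ; positivity))).symm
        _ ≤ ENNReal.ofReal ((Real.sqrt (Cn + Cf) * θ ^ (β / 4)) ^ 2) :=
            ENNReal.ofReal_le_ofReal (E1_const hβ1 hθ hθ1 hCn hCf)
    · simp only [E1A_zero hx, lintegral_zero]
      exact zero_le

end Vale.Agent.P112
end

section

/-! Task P112-FT08: perturbation of averages against the bump. -/

namespace Vale.Agent.P112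

open MeasureTheory Filter Topology Set
open scoped ENNReal NNReal

theorem perturb : ∃ C : ℝ, 0 < C ∧ ∀ (δ : ℝ≥0), δ ≤ 1 / 4 → ∀ ε : Plane → Plane,
    LipschitzWith δ ε → ‖ε 0‖ ≤ δ → ∀ G : Plane → ℝ, Continuous G →
    |(∫ h, bump h * G (h + ε h)) - ∫ h, bump h * G h| ≤
      C * δ * ∫ k in Metric.closedBall (0 : Plane) 2, |G k| := by
  obtain ⟨B, hB1, hB2⟩ := exists_bump_bound
  refine ⟨16 * B + 1, by positivity, ?_⟩
  intro δ hδ ε hε hε0 G hG
  have hδr : (δ : ℝ) ≤ 1 / 4 := by exact_mod_cast hδ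
  have hδ0 : (0 : ℝ) ≤ δ := δ.2
  have hB0 : (0 : ℝ) ≤ B := B.2
  set S : Plane → Plane := fun h => h + ε h with hS
  have hSl : LipschitzWith δ (fun x => S x - x) := by
    have : (fun x => S x - x) = ε := by ext1 x; simp only [hS, add_sub_cancel_left]
    rw [this]; exact hε
  obtain ⟨R, hRS, hSR, hRl, J, hJm, hJ, -, hJi⟩ := change_var hδ hSl
  have hRcont : Continuous R := by
    have : R = fun y => (R y - y) + y := by ext1 y; abel
    rw [this]; exact hRl.continuous.add continuous_id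
  -- displacement of `R`
  have hdisp : ∀ y, ‖y‖ ≤ 2 → ‖R y - y‖ ≤ 6 * δ := by
    intro y hy
    have h1 := hRl.dist_le_mul y (S 0)
    rw [dist_eq_norm, dist_eq_norm, hRS] at h1
    have h2 : S 0 = ε 0 := by simp [hS]
    rw [h2] at h1
    push_cast at h1
    have h3 : ‖R y - y‖ ≤ ‖R y - y - (0 - ε 0)‖ + ‖ε 0‖ := by
      have : R y - y = (R y - y - (0 - ε 0)) + (- ε 0) := by abel
      calc ‖R y - y‖ = ‖(R y - y - (0 - ε 0)) + (- ε 0)‖ := by rw [← this]
        _ ≤ _ := by
          refine (norm_add_le _ _).trans ?_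
          rw [norm_neg]
    have h4 : ‖y - ε 0‖ ≤ 2 + 1 / 4 := by
      refine (norm_sub_le _ _).trans ?_
      linarith only [hδ, hε0, hy]
    have h5 : 2 * (δ : ℝ) * ‖y - ε 0‖ ≤ 2 * δ * (2 + 1 / 4) := by (clear * - h4; gcongr)
    linarith only [hε0, h1, h3, h5]
  -- support of the transported bump
  have hsupp : ∀ y, 2 < ‖y‖ → bump (R y) = 0 := by
    intro y hy
    by_contra hne
    have h1 : ‖R y‖ < 1 := by
      by_contra hcon
      push Not at hcon
      exact hne (bump_zero_out hcon)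
    have h2 : y = R y + ε (R y) := by
      have := hSR y
      rw [hS] at this
      exact this.symm
    have h3 : ‖ε (R y)‖ ≤ 1 / 2 := by
      have h4 := hε.dist_le_mul (R y) 0
      rw [dist_eq_norm, dist_eq_norm, sub_zero] at h4
      have h5 : ‖ε (R y)‖ ≤ ‖ε (R y) - ε 0‖ + ‖ε 0‖ := by
        have := norm_add_le (ε (R y) - ε 0) (ε 0)
        rwa [sub_add_cancel] at this
      have h6 : (δ : ℝ) * ‖R y‖ ≤ 1 / 4 * 1 := by (clear * - hδr h1; gcongr)
      linarith only [hδ, hε0, h4, h5, h6]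
    have h7 : ‖y‖ ≤ ‖R y‖ + ‖ε (R y)‖ := by
      conv_lhs => rw [h2]
      exact norm_add_le _ _
    linarith only [hy, h1, h3, h7]
  -- transported function
  have hint1 : Integrable (fun y => bump (R y) * G y) := by
    apply Continuous.integrable_of_hasCompactSupport
    · exact (continuous_bump.comp hRcont).mul hG
    · apply HasCompactSupport.intro (isCompact_closedBall (0 : Plane) 2)
      intro y hy
      rw [Metric.mem_closedBall, dist_zero_right, not_le] at hy
      rw [hsupp y hy, zero_mul]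
  have hint2 : Integrable (fun y => bump y * G y) := by
    apply Continuous.integrable_of_hasCompactSupport
    · exact continuous_bump.mul hG
    · exact hasCompactSupport_bump.mul_right
  have h1 : ∫ h, bump h * G (h + ε h) = ∫ y, J y * (bump (R y) * G y) := by
    rw [← (hJi _ hint1).2]
    congr 1
    ext h
    rw [hRS]
  have hint3 : Integrable (fun y => J y * (bump (R y) * G y)) := by
    apply Integrable.bdd_mul (c := 3) hint1 hJm.aestronglyMeasurable
    filter_upwards with y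
    rw [Real.norm_eq_abs]
    have h2 := hJ y
    have h3 := abs_sub_abs_le_abs_sub (J y) 1
    rw [abs_one] at h3
    linarith only [hδ, h2, h3]
  rw [h1, ← integral_sub hint3 hint2]
  -- pointwise bound
  have hpt : ∀ y, |J y * (bump (R y) * G y) - bump y * G y| ≤
      (Metric.closedBall (0 : Plane) 2).indicator (fun y => (16 * B + 1) * δ * |G y|) y := by
    intro y
    by_cases hy : y ∈ Metric.closedBall (0 : Plane) 2
    · rw [indicator_of_mem hy]
      have hy2 : ‖y‖ ≤ 2 := by rwa [Metric.mem_closedBall, dist_zero_right] at hy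
      have e1 : J y * (bump (R y) * G y) - bump y * G y =
          ((J y - 1) * bump (R y) + (bump (R y) - bump y)) * G y := by ring
      rw [e1, abs_mul]
      apply mul_le_mul_of_nonneg_right _ (abs_nonneg _)
      refine (abs_add_le _ _).trans ?_
      rw [abs_mul]
      have e2 : |J y - 1| * |bump (R y)| ≤ 8 * δ * B := by
        rw [abs_of_nonneg (bump_nonneg _)]
        exact mul_le_mul (hJ y) (hB1 _) (bump_nonneg _) (by (clear * -; positivity))
      have e3 : |bump (R y) - bump y| ≤ B * (6 * δ) := by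
        have := hB2.dist_le_mul (R y) y
        rw [Real.dist_eq, dist_eq_norm] at this
        refine this.trans ?_
        gcongr
        exact hdisp y hy2
      nlinarith only [e2, e3]
    · rw [indicator_of_notMem hy]
      have hy2 : 2 < ‖y‖ := by
        rwa [Metric.mem_closedBall, dist_zero_right, not_le] at hy
      rw [hsupp y hy2, bump_zero_out (by linarith only [hy2] : 1 ≤ ‖y‖)]
      simp
  have hgi : IntegrableOn (fun y => |G y|) (Metric.closedBall (0 : Plane) 2) :=
    hG.abs.continuousOn.integrableOn_compact (isCompact_closedBall _ _)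
  calc |∫ y, J y * (bump (R y) * G y) - bump y * G y|
      ≤ ∫ y, |J y * (bump (R y) * G y) - bump y * G y| := abs_integral_le_integral_abs
    _ ≤ ∫ y, (Metric.closedBall (0 : Plane) 2).indicator (fun y => (16 * B + 1) * δ * |G y|) y := by
        apply integral_mono (hint3.sub hint2).abs
        · rw [integrable_indicator_iff Metric.isClosed_closedBall.measurableSet]
          exact hgi.const_mul _
        · exact hpt
    _ = (16 * B + 1) * δ * ∫ k in Metric.closedBall (0 : Plane) 2, |G k| := by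
        rw [integral_indicator Metric.isClosed_closedBall.measurableSet, integral_const_mul]

end Vale.Agent.P112
end

section

/-! Task P112-FT10: the composition estimate. -/

namespace Vale.Agent.P112

open MeasureTheory Filter Topology Set
open scoped ENNReal NNReal

lemma triple_cs {Φ : ℝ × ℝ × Plane → ℝ} {a b c : ℝ}
    (h : ∀ s t h, Φ (s, t, h) ≠ 0 → |s| ≤ a ∧ |t| ≤ b ∧ ‖h‖ ≤ c) : HasCompactSupport Φ := by
  apply HasCompactSupport.intro (K := Icc (-a) a ×ˢ (Icc (-b) b ×ˢ Metric.closedBall (0 : Plane) c))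
    (isCompact_Icc.prod (isCompact_Icc.prod (isCompact_closedBall _ _)))
  rintro ⟨s, t, k⟩ hω
  by_contra hne
  obtain ⟨h1, h2, h3⟩ := h s t k hne
  apply hω
  rw [abs_le] at h1 h2
  exact ⟨h1, h2, by rwa [Metric.mem_closedBall, dist_zero_right]⟩

lemma triple_fub {Φ : ℝ × ℝ × Plane → ℝ} (hc : Continuous Φ) (hs : HasCompactSupport Φ) :
    (∀ s, Integrable (fun t => ∫ h, Φ (s, t, h))) ∧
    Integrable (fun s => ∫ t, ∫ h, Φ (s, t, h)) ∧
    ∫ s, ∫ t, ∫ h, Φ (s, t, h) = ∫ ω, Φ ω := by
  have h0 : Integrable Φ := hc.integrable_of_hasCompactSupport hs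
  have h1 : ∀ s, Integrable (fun q : ℝ × Plane => Φ (s, q)) := by
    intro s
    have hcs : Continuous (fun q : ℝ × Plane => Φ (s, q)) := hc.comp (by fun_prop)
    refine hcs.integrable_of_hasCompactSupport ?_
    apply HasCompactSupport.intro (K := Prod.snd '' tsupport Φ) (hs.isCompact.image continuous_snd)
    intro q hq
    by_contra hne
    exact hq ⟨(s, q), subset_tsupport _ hne, rfl⟩
  have h2 : ∀ s, ∫ q : ℝ × Plane, Φ (s, q) = ∫ t, ∫ h, Φ (s, t, h) := fun s =>
    integral_prod (fun q : ℝ × Plane => Φ (s, q)) (h1 s)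
  have h3 : Integrable (fun s => ∫ q : ℝ × Plane, Φ (s, q)) := h0.integral_prod_left
  have h4 : ∫ ω, Φ ω = ∫ s, ∫ q : ℝ × Plane, Φ (s, q) := integral_prod Φ h0
  refine ⟨fun s => (h1 s).integral_prod_left, ?_, ?_⟩
  · exact h3.congr (Eventually.of_forall h2)
  · rw [h4]
    exact (integral_congr_ae (Eventually.of_forall h2)).symm

lemma triple_lfub {Φ : ℝ × ℝ × Plane → ℝ≥0∞} (hm : Measurable Φ) :
    ∫⁻ s, ∫⁻ t, ∫⁻ h, Φ (s, t, h) = ∫⁻ ω, Φ ω := by
  have h1 : ∫⁻ ω, Φ ω = ∫⁻ s, ∫⁻ q : ℝ × Plane, Φ (s, q) :=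
    lintegral_prod Φ hm.aemeasurable
  rw [h1]
  refine lintegral_congr fun s => ?_
  have h2 : Measurable fun q : ℝ × Plane => Φ (s, q) := hm.comp (by fun_prop)
  exact (lintegral_prod (fun q : ℝ × Plane => Φ (s, q)) h2.aemeasurable).symm

/-- change of variables for the maps used below -/
lemma triple_cv {v : Plane → Plane} (hv : LipschitzWith 1 v) {L : ℝ} (hL : 0 < L)
    (hL' : L ≤ 1 / 64) {r : Plane → ℝ} (hr : ∀ x y, |r x - r y| ≤ 6 * L * ‖x - y‖) {t : ℝ}
    {k : Plane} (ht : |t| ≤ 2 * L) (hk : ‖k‖ ≤ 2) (G : Plane → ℝ≥0∞) (hG : Measurable G) :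
    ∫⁻ x, G (x - t • v x - r x • k) ≤ 4 * ∫⁻ x, G x := by
  have hl : LipschitzWith (1 / 4) (fun x => (x - t • v x - r x • k) - x) := by
    apply LipschitzWith.of_dist_le_mul
    intro x y
    rw [dist_eq_norm, dist_eq_norm]
    have e : (x - t • v x - r x • k) - x - ((y - t • v y - r y • k) - y) =
        -(t • (v x - v y)) - (r x - r y) • k := by
      rw [smul_sub, sub_smul]
      abel
    rw [e]
    have h1 : ‖v x - v y‖ ≤ ‖x - y‖ := by
      have := hv.dist_le_mul x y
      rw [dist_eq_norm, dist_eq_norm] at this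
      simpa only [ge_iff_le, NNReal.coe_one, one_mul] using this
    have h2 := hr x y
    have h3 : 0 ≤ ‖x - y‖ := norm_nonneg _
    refine (norm_sub_le _ _).trans ?_
    rw [norm_neg, norm_smul, norm_smul, Real.norm_eq_abs, Real.norm_eq_abs]
    have h4 : |t| * ‖v x - v y‖ ≤ 2 * L * ‖x - y‖ :=
      mul_le_mul ht h1 (norm_nonneg _) (by positivity)
    have h5 : |r x - r y| * ‖k‖ ≤ (6 * L * ‖x - y‖) * 2 :=
      mul_le_mul h2 hk (norm_nonneg _) (by (clear * - hL; positivity))
    have h6 : 2 * L * ‖x - y‖ + (6 * L * ‖x - y‖) * 2 = 14 * L * ‖x - y‖ := by ring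
    have h7 : 14 * L * ‖x - y‖ ≤ 1 / 4 * ‖x - y‖ := by
      apply mul_le_mul_of_nonneg_right _ h3
      linarith only [hL']
    have h8 : (((1 / 4 : ℝ≥0)) : ℝ) = 1 / 4 := by push_cast; rfl
    rw [h8]
    linarith only [h4, h5, h7]
  exact lintegral_comp_le (S := fun x => x - t • v x - r x • k) le_rfl hl G hG

/-- the main part -/
lemma triple_main {v : Plane → Plane} (hv : LipschitzWith 1 v) {L M : ℝ} (hM : 0 < M)
    (hML : M ≤ L) (hL' : L ≤ 1 / 64) {r : Plane → ℝ}
    (hr : ∀ x y, |r x - r y| ≤ 6 * L * ‖x - y‖) (hrc : Continuous r) {F : Plane → ℝ}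
    (hF : CC F) :
    sqn (fun x => ∫ s : ℝ, ∫ t : ℝ, ∫ h : Plane, eta M s * (eta L t * (bump h *
      F (x - (t - s) • v x - r x • h)))) ≤
      4 * (ENNReal.ofReal (1280 * (M / L))) ^ 2 * sqn F := by
  have hL : 0 < L := hM.trans_le hML
  have hvc : Continuous v := hv.continuous
  set w : ℝ × ℝ × Plane → ℝ := fun ω => eta M ω.1 * ((eta L (ω.2.1 + ω.1) - eta L ω.2.1) *
    bump ω.2.2) with hw
  have hwc : Continuous w := by
    have h1 := continuous_eta hM
    have h2 := continuous_eta hL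
    have h3 := continuous_bump
    fun_prop
  set S : ℝ × ℝ × Plane → Plane → Plane := fun ω x => x - ω.2.1 • v x - r x • ω.2.2 with hS
  have hSm : Continuous (fun p : (ℝ × ℝ × Plane) × Plane => S p.1 p.2) := by
    (clear * - hvc hrc; fun_prop)
  have hw0 : ∀ s t h, w (s, t, h) ≠ 0 → |s| ≤ M ∧ |t| ≤ 2 * L ∧ ‖h‖ ≤ 1 := by
    intro s t k hne
    simp only [hw] at hne
    have h1 : eta M s ≠ 0 := left_ne_zero_of_mul hne
    have h2 := right_ne_zero_of_mul hne
    have h3 : eta L (t + s) - eta L t ≠ 0 := left_ne_zero_of_mul h2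
    have h4 : bump k ≠ 0 := right_ne_zero_of_mul h2
    have h5 := (eta_supp hM h1).2
    refine ⟨h5.le, ?_, ?_⟩
    · by_contra hcon
      push Not at hcon
      apply h3
      have e1 : L ≤ |t| := by linarith only [hM, hML, hcon]
      have e2 : L ≤ |t + s| := by
        have := abs_sub_abs_le_abs_sub t (-s)
        rw [sub_neg_eq_add, abs_neg] at this
        linarith only [hML, h5, hcon, this]
      rw [eta_eq_zero hL e1, eta_eq_zero hL e2, sub_zero]
    · by_contra hcon
      push Not at hcon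
      exact h4 (bump_zero_out hcon.le)
  have hsq := sqn_avg_le (volume : Measure (ℝ × ℝ × Plane)) w hwc.measurable S hSm.measurable 4
    (by
      rintro ⟨s, t, k⟩ hne G hG
      obtain ⟨h1, h2, h3⟩ := hw0 s t k hne
      have := triple_cv hv hL hL' hr h2 (h3.trans (by norm_num)) G hG
      exact_mod_cast this) F hF.1.measurable
  have hmass : ∫⁻ ω, ‖w ω‖ₑ ≤ ENNReal.ofReal (1280 * (M / L)) := by
    rw [← triple_lfub (Φ := fun ω => ‖w ω‖ₑ) hwc.measurable.enorm]
    have e1 : ∀ s : ℝ, ∫⁻ t : ℝ, ∫⁻ h : Plane, ‖w (s, t, h)‖ₑ ≤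
        ‖eta M s‖ₑ * ENNReal.ofReal (160 * (M / L)) := by
      intro s
      have e2 : ∀ t : ℝ, ∫⁻ h : Plane, ‖w (s, t, h)‖ₑ =
          ‖eta M s‖ₑ * ‖eta L (t + s) - eta L t‖ₑ := by
        intro t
        have e3 : ∀ h : Plane, ‖w (s, t, h)‖ₑ =
            ‖eta M s‖ₑ * ‖eta L (t + s) - eta L t‖ₑ * ‖bump h‖ₑ := by
          intro h
          simp only [hw, enorm_mul]
          ring
        simp_rw [e3]
        rw [lintegral_const_mul _ continuous_bump.measurable.enorm, lintegral_bump, mul_one]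
      simp_rw [e2]
      by_cases hs : eta M s = 0
      · rw [hs]
        simp only [enorm_zero, zero_mul, lintegral_const, measure_univ_of_isAddLeftInvariant, Nat.ofNat_nonneg, ENNReal.ofReal_mul, ENNReal.ofReal_ofNat, Std.le_refl]
      · have hs' := (eta_supp hM hs).2
        rw [lintegral_const_mul]
        · gcongr
          refine (lintegral_eta_shift_le hL (hs'.le.trans hML)).trans ?_
          apply ENNReal.ofReal_le_ofReal
          rw [mul_div_assoc]
          (clear * - hs' hL; gcongr)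
        · have h2 := continuous_eta hL
          exact (h2.comp (by (clear * -; fun_prop)) |>.sub h2).measurable.enorm
    calc ∫⁻ s : ℝ, ∫⁻ t : ℝ, ∫⁻ h : Plane, ‖w (s, t, h)‖ₑ
        ≤ ∫⁻ s : ℝ, ‖eta M s‖ₑ * ENNReal.ofReal (160 * (M / L)) := lintegral_mono e1
      _ = (∫⁻ s : ℝ, ‖eta M s‖ₑ) * ENNReal.ofReal (160 * (M / L)) :=
          lintegral_mul_const _ (continuous_eta hM).measurable.enorm
      _ ≤ 8 * ENNReal.ofReal (160 * (M / L)) := by
          gcongr
          exact lintegral_eta_le hM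
      _ = ENNReal.ofReal (1280 * (M / L)) := by
          have : (8 : ℝ≥0∞) = ENNReal.ofReal 8 := by norm_num
          rw [this, ← ENNReal.ofReal_mul (by norm_num)]
          congr 1
          ring
  have hfun : (fun x => ∫ s : ℝ, ∫ t : ℝ, ∫ h : Plane, eta M s * (eta L t * (bump h *
      F (x - (t - s) • v x - r x • h)))) = fun x => ∫ ω, w ω * F (S ω x) := by
    funext x
    -- the function `g`
    set g : ℝ → ℝ := fun t => ∫ h : Plane, bump h * F (x - t • v x - r x • h) with hg
    have a1 : ∀ s t : ℝ, ∫ h : Plane, eta M s * (eta L t * (bump h *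
        F (x - (t - s) • v x - r x • h))) = eta M s * (eta L t * g (t - s)) := by
      intro s t
      rw [integral_const_mul, integral_const_mul]
    have a2 : ∀ s : ℝ, ∫ t : ℝ, ∫ h : Plane, eta M s * (eta L t * (bump h *
        F (x - (t - s) • v x - r x • h))) = ∫ t : ℝ, eta M s * (eta L (t + s) * g t) := by
      intro s
      simp_rw [a1]
      have := integral_add_right_eq_self (μ := volume)
        (fun t : ℝ => eta M s * (eta L t * g (t - s))) s
      rw [← this]
      simp_rw [add_sub_cancel_right]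
    -- two continuous compactly supported functions
    set Φ₁ : ℝ × ℝ × Plane → ℝ := fun ω => eta M ω.1 * (eta L (ω.2.1 + ω.1) * (bump ω.2.2 *
      F (S ω x))) with hΦ₁
    set Φ₂ : ℝ × ℝ × Plane → ℝ := fun ω => eta M ω.1 * (eta L ω.2.1 * (bump ω.2.2 *
      F (S ω x))) with hΦ₂
    have hFc := hF.1
    have hηM := continuous_eta hM
    have hηL := continuous_eta hL
    have hbc := continuous_bump
    have hSx : Continuous fun ω => S ω x := by
      simp only [hS]
      fun_prop
    have c1 : Continuous Φ₁ := by (clear * - hηM hηL hbc hFc hSx; fun_prop)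
    have c2 : Continuous Φ₂ := by fun_prop
    have s1 : HasCompactSupport Φ₁ := by
      apply triple_cs (a := M) (b := 2 * L) (c := 1)
      intro s t k hne
      simp only [hΦ₁] at hne
      have h1 : eta M s ≠ 0 := left_ne_zero_of_mul hne
      have h2 := right_ne_zero_of_mul hne
      have h3 : eta L (t + s) ≠ 0 := left_ne_zero_of_mul h2
      have h4 : bump k ≠ 0 := left_ne_zero_of_mul (right_ne_zero_of_mul h2)
      have h5 := (eta_supp hM h1).2
      have h6 := (eta_supp hL h3).2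
      refine ⟨h5.le, ?_, ?_⟩
      · have : |t| ≤ |t + s| + |s| := by
          calc |t| = |(t + s) - s| := by rw [add_sub_cancel_right]
            _ ≤ _ := abs_sub _ _
        linarith only [hML, h5, h6, this]
      · by_contra hcon
        push Not at hcon
        exact h4 (bump_zero_out hcon.le)
    have s2 : HasCompactSupport Φ₂ := by
      apply triple_cs (a := M) (b := L) (c := 1)
      intro s t k hne
      simp only [hΦ₂] at hne
      have h1 : eta M s ≠ 0 := left_ne_zero_of_mul hne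
      have h2 := right_ne_zero_of_mul hne
      have h3 : eta L t ≠ 0 := left_ne_zero_of_mul h2
      have h4 : bump k ≠ 0 := left_ne_zero_of_mul (right_ne_zero_of_mul h2)
      refine ⟨(eta_supp hM h1).2.le, (eta_supp hL h3).2.le, ?_⟩
      by_contra hcon
      push Not at hcon
      exact h4 (bump_zero_out hcon.le)
    have f1 := (triple_fub c1 s1).2.2
    have f2 := (triple_fub c2 s2).2.2
    have b1 : ∀ s t : ℝ, ∫ h : Plane, Φ₁ (s, t, h) = eta M s * (eta L (t + s) * g t) := by
      intro s t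
      simp only [hΦ₁, hS]
      rw [integral_const_mul, integral_const_mul]
    have b2 : ∀ s t : ℝ, ∫ h : Plane, Φ₂ (s, t, h) = eta M s * (eta L t * g t) := by
      intro s t
      simp only [hΦ₂, hS]
      rw [integral_const_mul, integral_const_mul]
    have f3 : ∫ ω, Φ₂ ω = 0 := by
      rw [← f2]
      simp_rw [b2, integral_const_mul, integral_mul_const]
      rw [integral_eta, zero_mul]
    simp_rw [a2, ← b1]
    rw [f1, ← sub_zero (∫ ω, Φ₁ ω), ← f3, ← integral_sub
      (c1.integrable_of_hasCompactSupport s1) (c2.integrable_of_hasCompactSupport s2)]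
    refine integral_congr_ae (Eventually.of_forall fun ω => ?_)
    simp only [hΦ₁, hΦ₂, hw]
    ring
  rw [hfun]
  refine hsq.trans ?_
  (clear * - hmass; gcongr)

/-- the error part, pointwise -/
lemma triple_err_pt {C₀ : ℝ} (hC₀ : 0 < C₀) {v : Plane → Plane} {L M : ℝ} (hM : 0 < M)
    (hL : 0 < L) {r : Plane → ℝ} {δ : ℝ≥0} {P : Plane → ℝ → ℝ → Plane → Plane}
    (hP : Continuous (fun q : Plane × ℝ × ℝ × Plane => P q.1 q.2.1 q.2.2.1 q.2.2.2))
    {F : Plane → ℝ} (hF : CC F) (x : Plane)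
    (hpt : ∀ s t : ℝ, |s| ≤ M → |t| ≤ L →
      |(∫ h : Plane, bump h * F (P x s t h)) -
        ∫ h : Plane, bump h * F (x - (t - s) • v x - r x • h)| ≤
      C₀ * δ * ∫ k in Metric.closedBall (0 : Plane) 2, |F (x - (t - s) • v x - r x • k)|) :
    ‖(∫ s : ℝ, ∫ t : ℝ, eta M s * (eta L t * ∫ h : Plane, bump h * F (P x s t h))) -
      ∫ s : ℝ, ∫ t : ℝ, ∫ h : Plane, eta M s * (eta L t * (bump h *
      F (x - (t - s) • v x - r x • h)))‖ₑ ≤
      ∫⁻ ω : ℝ × ℝ × Plane, (‖eta M ω.1‖ₑ * (‖eta L ω.2.1‖ₑ * (ENNReal.ofReal (C₀ * δ) *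
        (Metric.closedBall (0 : Plane) 2).indicator 1 ω.2.2))) *
        ‖F (x - (ω.2.1 - ω.1) • v x - r x • ω.2.2)‖ₑ := by
  have hFc := hF.1
  have hηM := continuous_eta hM
  have hηL := continuous_eta hL
  have hbc := continuous_bump
  set Φ₁ : ℝ × ℝ × Plane → ℝ := fun ω => eta M ω.1 * (eta L ω.2.1 * (bump ω.2.2 *
    F (P x ω.1 ω.2.1 ω.2.2))) with hΦ₁
  set Φ₂ : ℝ × ℝ × Plane → ℝ := fun ω => eta M ω.1 * (eta L ω.2.1 * (bump ω.2.2 *
    F (x - (ω.2.1 - ω.1) • v x - r x • ω.2.2))) with hΦ₂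
  have hPx : Continuous fun ω : ℝ × ℝ × Plane => P x ω.1 ω.2.1 ω.2.2 :=
    hP.comp (continuous_const.prodMk continuous_id)
  have c1 : Continuous Φ₁ := by fun_prop
  have c2 : Continuous Φ₂ := by (clear * - hηM hηL hbc hFc; fun_prop)
  have s0 : ∀ (H : ℝ × ℝ × Plane → ℝ), HasCompactSupport fun ω : ℝ × ℝ × Plane =>
      eta M ω.1 * (eta L ω.2.1 * (bump ω.2.2 * H ω)) := by
    intro H
    apply triple_cs (a := M) (b := L) (c := 1)
    intro s t k hne
    have h1 : eta M s ≠ 0 := left_ne_zero_of_mul hne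
    have h2 := right_ne_zero_of_mul hne
    have h3 : eta L t ≠ 0 := left_ne_zero_of_mul h2
    have h4 : bump k ≠ 0 := left_ne_zero_of_mul (right_ne_zero_of_mul h2)
    refine ⟨(eta_supp hM h1).2.le, (eta_supp hL h3).2.le, ?_⟩
    by_contra hcon
    push Not at hcon
    exact h4 (bump_zero_out hcon.le)
  have s1 : HasCompactSupport Φ₁ := s0 _
  have s2 : HasCompactSupport Φ₂ := s0 _
  obtain ⟨i1, j1, -⟩ := triple_fub c1 s1
  obtain ⟨i2, j2, -⟩ := triple_fub c2 s2
  have e1 : ∀ s t : ℝ, eta M s * (eta L t * ∫ h : Plane, bump h * F (P x s t h)) =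
      ∫ h, Φ₁ (s, t, h) := by
    intro s t
    simp only [hΦ₁]
    rw [integral_const_mul, integral_const_mul]
  have e2 : ∀ s t : ℝ, ∫ h, Φ₂ (s, t, h) =
      eta M s * (eta L t * ∫ h : Plane, bump h * F (x - (t - s) • v x - r x • h)) := by
    intro s t
    simp only [hΦ₂]
    rw [integral_const_mul, integral_const_mul]
  simp_rw [e1]
  have e3 : (∫ s : ℝ, ∫ t : ℝ, ∫ h, Φ₁ (s, t, h)) - ∫ s : ℝ, ∫ t : ℝ, ∫ h : Plane,
      eta M s * (eta L t * (bump h * F (x - (t - s) • v x - r x • h))) =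
      ∫ s : ℝ, ∫ t : ℝ, (∫ h, Φ₁ (s, t, h)) - ∫ h, Φ₂ (s, t, h) := by
    rw [← integral_sub j1 j2]
    refine integral_congr_ae (Eventually.of_forall fun s => ?_)
    exact (integral_sub (i1 s) (i2 s)).symm
  rw [e3]
  set W : ℝ × ℝ × Plane → ℝ≥0∞ := fun ω =>
    (‖eta M ω.1‖ₑ * (‖eta L ω.2.1‖ₑ * (ENNReal.ofReal (C₀ * δ) *
        (Metric.closedBall (0 : Plane) 2).indicator 1 ω.2.2))) *
        ‖F (x - (ω.2.1 - ω.1) • v x - r x • ω.2.2)‖ₑ with hW
  have hWm : Measurable W := by
    have m1 : Measurable fun ω : ℝ × ℝ × Plane => ‖eta M ω.1‖ₑ :=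
      (hηM.comp continuous_fst).measurable.enorm
    have m2 : Measurable fun ω : ℝ × ℝ × Plane => ‖eta L ω.2.1‖ₑ :=
      (hηL.comp (continuous_fst.comp continuous_snd)).measurable.enorm
    have m3 : Measurable fun ω : ℝ × ℝ × Plane =>
        (Metric.closedBall (0 : Plane) 2).indicator (1 : Plane → ℝ≥0∞) ω.2.2 :=
      (measurable_one.indicator Metric.isClosed_closedBall.measurableSet).comp
        (measurable_snd.comp measurable_snd)
    have m4 : Measurable fun ω : ℝ × ℝ × Plane =>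
        ‖F (x - (ω.2.1 - ω.1) • v x - r x • ω.2.2)‖ₑ :=
      (hFc.comp (by fun_prop)).measurable.enorm
    exact (m1.mul (m2.mul (m3.const_mul _))).mul m4
  have hWeq : ∫⁻ s, ∫⁻ t, ∫⁻ h, W (s, t, h) = ∫⁻ ω, W ω := triple_lfub hWm
  rw [← hWeq]
  refine (enorm_integral_le_lintegral_enorm _).trans (lintegral_mono fun s => ?_)
  refine (enorm_integral_le_lintegral_enorm _).trans (lintegral_mono fun t => ?_)
  by_cases hs : eta M s = 0
  · rw [e2, ← e1, hs]
    simp only [zero_mul, sub_self, enorm_zero, zero_le]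
  by_cases ht : eta L t = 0
  · rw [e2, ← e1, ht]
    simp
  have hs' := (eta_supp hM hs).2.le
  have ht' := (eta_supp hL ht).2.le
  have h5 := hpt s t hs' ht'
  have hint : IntegrableOn (fun k => F (x - (t - s) • v x - r x • k))
      (Metric.closedBall (0 : Plane) 2) :=
    (hFc.comp (by fun_prop)).continuousOn.integrableOn_compact (isCompact_closedBall _ _)
  have h6 : ‖(∫ h : Plane, bump h * F (P x s t h)) -
      ∫ h : Plane, bump h * F (x - (t - s) • v x - r x • h)‖ₑ ≤
      ENNReal.ofReal (C₀ * δ) * ∫⁻ k in Metric.closedBall (0 : Plane) 2,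
        ‖F (x - (t - s) • v x - r x • k)‖ₑ := by
    rw [Real.enorm_eq_ofReal_abs]
    refine (ENNReal.ofReal_le_ofReal h5).trans (le_of_eq ?_)
    rw [ENNReal.ofReal_mul (by (clear * - hC₀; positivity))]
    congr 1
    have := ofReal_integral_norm_eq_lintegral_enorm hint
    rw [← this]
    rfl
  rw [e2, ← e1, ← mul_sub, ← mul_sub, enorm_mul, enorm_mul]
  calc ‖eta M s‖ₑ * (‖eta L t‖ₑ * ‖(∫ h : Plane, bump h * F (P x s t h)) -
        ∫ h : Plane, bump h * F (x - (t - s) • v x - r x • h)‖ₑ) ≤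
      ‖eta M s‖ₑ * (‖eta L t‖ₑ * (ENNReal.ofReal (C₀ * δ) *
        ∫⁻ k in Metric.closedBall (0 : Plane) 2, ‖F (x - (t - s) • v x - r x • k)‖ₑ)) := by
        (clear * - h6; gcongr)
    _ = ∫⁻ k, W (s, t, k) := by
        have e4 : ∀ k : Plane, W (s, t, k) = (‖eta M s‖ₑ * (‖eta L t‖ₑ *
            ENNReal.ofReal (C₀ * δ))) * (Metric.closedBall (0 : Plane) 2).indicator
            (fun k => ‖F (x - (t - s) • v x - r x • k)‖ₑ) k := by
          intro k
          simp only [hW]
          by_cases hk : k ∈ Metric.closedBall (0 : Plane) 2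
          · rw [indicator_of_mem hk, indicator_of_mem hk]
            simp only [Pi.one_apply]
            ring
          · rw [indicator_of_notMem hk, indicator_of_notMem hk]
            ring
        simp_rw [e4]
        rw [lintegral_const_mul, lintegral_indicator Metric.isClosed_closedBall.measurableSet]
        · ring
        · exact ((hFc.comp (by fun_prop)).measurable.enorm).indicator
            Metric.isClosed_closedBall.measurableSet

lemma triple_sq_le (a b : ℝ) (E : ℝ≥0∞) (h : ‖a - b‖ₑ ≤ E) :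
    ‖a‖ₑ ^ 2 ≤ 2 * E ^ 2 + 2 * ‖b‖ₑ ^ 2 := by
  have h1 : ‖a‖ₑ ≤ E + ‖b‖ₑ := by
    calc ‖a‖ₑ = ‖(a - b) + b‖ₑ := by rw [sub_add_cancel]
      _ ≤ ‖a - b‖ₑ + ‖b‖ₑ := enorm_add_le _ _
      _ ≤ _ := by gcongr
  refine (pow_le_pow_left' h1 2).trans ?_
  rcases eq_or_ne E ∞ with hE | hE
  · rw [hE]
    simp only [top_add, ne_eq, OfNat.ofNat_ne_zero, not_false_eq_true, ENNReal.top_pow, ENNReal.mul_top, Std.le_refl]
  have hb : ‖b‖ₑ ≠ ∞ := enorm_ne_top
  lift E to ℝ≥0 using hE
  lift ‖b‖ₑ to ℝ≥0 using hb with c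
  norm_cast
  rw [← NNReal.coe_le_coe]
  push_cast
  linarith only [sq_nonneg ((E : ℝ) - c)]

theorem triple_bound : ∃ C : ℝ, 0 < C ∧ ∀ (v : Plane → Plane), LipschitzWith 1 v →
    (∀ x, ‖v x‖ = 1) → ∀ (L M : ℝ), 0 < M → M ≤ L → L ≤ 1 / 64 →
    ∀ (r : Plane → ℝ), (∀ x, 0 ≤ r x) → (∀ x y, |r x - r y| ≤ 6 * L * ‖x - y‖) →
    ∀ (δ : ℝ≥0), δ ≤ 1 / 4 → ∀ (P : Plane → ℝ → ℝ → Plane → Plane),
    Continuous (fun q : Plane × ℝ × ℝ × Plane => P q.1 q.2.1 q.2.2.1 q.2.2.2) →
    (∀ (x : Plane) (s t : ℝ), |s| ≤ M → |t| ≤ L → ∃ ε : Plane → Plane, LipschitzWith δ ε ∧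
      ‖ε 0‖ ≤ δ ∧ ∀ h, P x s t h = x - (t - s) • v x - r x • (h + ε h)) →
    ∀ F, CC F →
    sqn (fun x => ∫ s : ℝ, ∫ t : ℝ, eta M s * (eta L t * ∫ h : Plane, bump h * F (P x s t h))) ≤
      ENNReal.ofReal ((C * (δ + M / L)) ^ 2) * sqn F := by
  obtain ⟨C₀, hC₀, hper⟩ := perturb
  set V : ℝ := (volume (Metric.closedBall (0 : Plane) 2)).toReal with hV
  have hV0 : 0 ≤ V := ENNReal.toReal_nonneg
  have hVeq : volume (Metric.closedBall (0 : Plane) 2) = ENNReal.ofReal V := by
    rw [hV, ENNReal.ofReal_toReal]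
    exact (isCompact_closedBall _ _).measure_lt_top.ne
  set C₁ : ℝ := 64 * C₀ * V + 1280 with hC₁
  have hC₁0 : 0 < C₁ := by (clear * - hC₀; positivity)
  refine ⟨3 * C₁, by (clear * - hC₀; positivity), ?_⟩
  intro v hv _ L M hM hML hL' r _ hr δ hδ P hP hPε F hF
  have hL : 0 < L := hM.trans_le hML
  have hFc := hF.1
  have hrc : Continuous r := by
    have : LipschitzWith (6 * L).toNNReal r := by
      apply LipschitzWith.of_dist_le_mul
      intro x y
      rw [Real.dist_eq, dist_eq_norm, Real.coe_toNNReal _ (by (clear * - hL; positivity))]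
      exact hr x y
    exact this.continuous
  have hvc := hv.continuous
  have hηM := continuous_eta hM
  have hηL := continuous_eta hL
  -- pointwise estimate of the averages
  have hpt : ∀ (x : Plane) (s t : ℝ), |s| ≤ M → |t| ≤ L →
      |(∫ h : Plane, bump h * F (P x s t h)) -
        ∫ h : Plane, bump h * F (x - (t - s) • v x - r x • h)| ≤
      C₀ * δ * ∫ k in Metric.closedBall (0 : Plane) 2, |F (x - (t - s) • v x - r x • k)| := by
    intro x s t hs ht
    obtain ⟨ε, h1, h2, h3⟩ := hPε x s t hs ht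
    have h4 := hper δ hδ ε h1 h2 (fun k => F (x - (t - s) • v x - r x • k))
      (hFc.comp (by fun_prop))
    simp_rw [h3]
    exact h4
  set W : ℝ × ℝ × Plane → ℝ≥0∞ := fun ω => ‖eta M ω.1‖ₑ * (‖eta L ω.2.1‖ₑ *
    (ENNReal.ofReal (C₀ * δ) * (Metric.closedBall (0 : Plane) 2).indicator 1 ω.2.2)) with hW
  have hWm : Measurable W := by
    have m1 : Measurable fun ω : ℝ × ℝ × Plane => ‖eta M ω.1‖ₑ :=
      (hηM.comp continuous_fst).measurable.enorm
    have m2 : Measurable fun ω : ℝ × ℝ × Plane => ‖eta L ω.2.1‖ₑ :=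
      (hηL.comp (continuous_fst.comp continuous_snd)).measurable.enorm
    have m3 : Measurable fun ω : ℝ × ℝ × Plane =>
        (Metric.closedBall (0 : Plane) 2).indicator (1 : Plane → ℝ≥0∞) ω.2.2 :=
      (measurable_one.indicator Metric.isClosed_closedBall.measurableSet).comp
        (measurable_snd.comp measurable_snd)
    exact m1.mul (m2.mul (m3.const_mul _))
  set S : ℝ × ℝ × Plane → Plane → Plane := fun ω x => x - (ω.2.1 - ω.1) • v x - r x • ω.2.2
    with hS
  have hSm : Continuous (fun p : (ℝ × ℝ × Plane) × Plane => S p.1 p.2) := by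
    fun_prop
  have hFm : Measurable fun x => ‖F x‖ₑ := hFc.measurable.enorm
  have herr := lintegral_avg_sq_le (volume : Measure (ℝ × ℝ × Plane)) W hWm S hSm.measurable 4
    (by
      rintro ⟨s, t, k⟩ hne G hG
      simp only [hW] at hne
      have h1 : ‖eta M s‖ₑ ≠ 0 := left_ne_zero_of_mul hne
      have h2 := right_ne_zero_of_mul hne
      have h3 : ‖eta L t‖ₑ ≠ 0 := left_ne_zero_of_mul h2
      have h4 := right_ne_zero_of_mul (right_ne_zero_of_mul h2)
      have h5 : k ∈ Metric.closedBall (0 : Plane) 2 := mem_of_indicator_ne_zero h4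
      rw [Metric.mem_closedBall, dist_zero_right] at h5
      rw [enorm_ne_zero] at h1 h3
      have h6 := (eta_supp hM h1).2
      have h7 := (eta_supp hL h3).2
      have h8 : |t - s| ≤ 2 * L := (abs_sub _ _).trans (by linarith only [hML, h6, h7])
      have := triple_cv hv hL hL' hr h8 h5 G hG
      exact_mod_cast this) (fun x => ‖F x‖ₑ) hFm
  have hmass : ∫⁻ ω, W ω ≤ ENNReal.ofReal (64 * C₀ * V * δ) := by
    rw [← triple_lfub hWm]
    have e1 : ∀ s t : ℝ, ∫⁻ h : Plane, W (s, t, h) = ‖eta M s‖ₑ * (‖eta L t‖ₑ *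
        ENNReal.ofReal (C₀ * δ * V)) := by
      intro s t
      simp only [hW]
      have m3 : Measurable fun h : Plane =>
          (Metric.closedBall (0 : Plane) 2).indicator (1 : Plane → ℝ≥0∞) h :=
        measurable_one.indicator Metric.isClosed_closedBall.measurableSet
      rw [lintegral_const_mul _ ((m3.const_mul _).const_mul _),
        lintegral_const_mul _ (m3.const_mul _), lintegral_const_mul _ m3,
        lintegral_indicator_one Metric.isClosed_closedBall.measurableSet, hVeq,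
        ← ENNReal.ofReal_mul (by (clear * - hC₀; positivity))]
    simp_rw [e1]
    have e2 : ∀ s : ℝ, ∫⁻ t : ℝ, ‖eta M s‖ₑ * (‖eta L t‖ₑ * ENNReal.ofReal (C₀ * δ * V)) ≤
        ‖eta M s‖ₑ * (8 * ENNReal.ofReal (C₀ * δ * V)) := by
      intro s
      rw [lintegral_const_mul _ (hηL.measurable.enorm.mul_const _),
        lintegral_mul_const _ hηL.measurable.enorm]
      gcongr
      exact lintegral_eta_le hL
    calc ∫⁻ s : ℝ, ∫⁻ t : ℝ, ‖eta M s‖ₑ * (‖eta L t‖ₑ * ENNReal.ofReal (C₀ * δ * V))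
        ≤ ∫⁻ s : ℝ, ‖eta M s‖ₑ * (8 * ENNReal.ofReal (C₀ * δ * V)) := lintegral_mono e2
      _ = (∫⁻ s : ℝ, ‖eta M s‖ₑ) * (8 * ENNReal.ofReal (C₀ * δ * V)) :=
          lintegral_mul_const _ hηM.measurable.enorm
      _ ≤ 8 * (8 * ENNReal.ofReal (C₀ * δ * V)) := by
          gcongr
          exact lintegral_eta_le hM
      _ = ENNReal.ofReal (64 * C₀ * V * δ) := by
          have : (8 : ℝ≥0∞) = ENNReal.ofReal 8 := by norm_num
          rw [this, ← ENNReal.ofReal_mul (by norm_num), ← ENNReal.ofReal_mul (by norm_num)]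
          congr 1
          ring
  have hmain := triple_main hv hM hML hL' hr hrc hF
  set N₀ : Plane → ℝ := fun x => ∫ s : ℝ, ∫ t : ℝ, ∫ h : Plane, eta M s * (eta L t * (bump h *
      F (x - (t - s) • v x - r x • h))) with hN₀
  set E : Plane → ℝ≥0∞ := fun x => ∫⁻ ω, W ω * ‖F (S ω x)‖ₑ with hE
  have hEm : Measurable E := by
    have m5 : Measurable fun p : Plane × (ℝ × ℝ × Plane) => W p.2 * ‖F (S p.2 p.1)‖ₑ := by
      have m6 : Measurable fun p : Plane × (ℝ × ℝ × Plane) => S p.2 p.1 :=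
        hSm.measurable.comp (measurable_snd.prodMk measurable_fst)
      exact (hWm.comp measurable_snd).mul (hFm.comp m6)
    exact m5.lintegral_prod_right'
  calc sqn (fun x => ∫ s : ℝ, ∫ t : ℝ, eta M s * (eta L t * ∫ h : Plane, bump h * F (P x s t h)))
      ≤ ∫⁻ x, (2 * E x ^ 2 + 2 * ‖N₀ x‖ₑ ^ 2) := by
        refine lintegral_mono fun x => ?_
        exact triple_sq_le _ _ _ (triple_err_pt hC₀ hM hL hP hF x (hpt x))
    _ = 2 * (∫⁻ x, E x ^ 2) + 2 * sqn N₀ := by
        rw [lintegral_add_left ((hEm.pow_const 2).const_mul 2),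
          lintegral_const_mul _ (hEm.pow_const 2), lintegral_const_mul' _ _ (by norm_num)]
        rfl
    _ ≤ 2 * (4 * (ENNReal.ofReal (64 * C₀ * V * δ)) ^ 2 * sqn F) +
        2 * (4 * (ENNReal.ofReal (1280 * (M / L))) ^ 2 * sqn F) := by
        gcongr
        refine herr.trans ?_
        gcongr
        exact le_rfl
    _ = ENNReal.ofReal (8 * (64 * C₀ * V * δ) ^ 2 + 8 * (1280 * (M / L)) ^ 2) * sqn F := by
        have g1 : ENNReal.ofReal (8 * (64 * C₀ * V * δ) ^ 2) =
            2 * 4 * (ENNReal.ofReal (64 * C₀ * V * δ)) ^ 2 := by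
          rw [ENNReal.ofReal_mul (by norm_num : (0:ℝ) ≤ 8), ENNReal.ofReal_pow (by (clear * - hC₀; positivity))]
          congr 1
          norm_num
        have g2 : ENNReal.ofReal (8 * (1280 * (M / L)) ^ 2) =
            2 * 4 * (ENNReal.ofReal (1280 * (M / L))) ^ 2 := by
          rw [ENNReal.ofReal_mul (by norm_num : (0:ℝ) ≤ 8), ENNReal.ofReal_pow (by (clear * - hM hL; positivity))]
          congr 1
          norm_num
        rw [ENNReal.ofReal_add (by (clear * -; positivity)) (by (clear * - hM hL; positivity)), g1, g2]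
        ring
    _ ≤ ENNReal.ofReal ((3 * C₁ * (δ + M / L)) ^ 2) * sqn F := by
        gcongr
        have hδ0 : (0 : ℝ) ≤ δ := δ.2
        have hq : 0 ≤ M / L := by (clear * - hM hL; positivity)
        have h1 : 64 * C₀ * V * δ ≤ C₁ * δ := by
          apply mul_le_mul_of_nonneg_right _ hδ0
          rw [hC₁]
          linarith only []
        have h2 : 1280 * (M / L) ≤ C₁ * (M / L) := by
          apply mul_le_mul_of_nonneg_right _ hq
          rw [hC₁]
          have : 0 ≤ 64 * C₀ * V := by (clear * - hC₀; positivity)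
          linarith only [this]
        have h3 : (64 * C₀ * V * δ) ^ 2 ≤ (C₁ * δ) ^ 2 :=
          pow_le_pow_left₀ (by (clear * - hC₀; positivity)) h1 2
        have h4 : (1280 * (M / L)) ^ 2 ≤ (C₁ * (M / L)) ^ 2 :=
          pow_le_pow_left₀ (by (clear * - hM hL; positivity)) h2 2
        have h5 : 0 ≤ (C₁ * δ) * (C₁ * (M / L)) := by (clear * - hC₀ hM hL; positivity)
        nlinarith only [h3, h4, h5]

end Vale.Agent.P112
end
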