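import Vale.Agent.P112.Bdl.B4
import Vale.Agent.P112.Bdl.B2
import Vale.Agent.P112.Defs
import Vale.Agent.P112.FT.StateDefs

set_option linter.all false

attribute [local instance] Vale.Agent.P112.SC.i0 Vale.Agent.P112.SC.i1 Vale.Agent.P112.SC.i2
  Vale.Agent.P112.SC.i3 Vale.Agent.P112.SC.i4 Vale.Agent.P112.SC.i5 Vale.Agent.P112.SC.i6
  Vale.Agent.P112.SC.i7

section

/-! Task P112-FT12: small scale adjoint piece followed by a mollified large scale piece. -/

namespace Vale.Agent.P112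

open MeasureTheory Filter Topology Set
open scoped ENNReal NNReal

/-- Geometry behind `E2_bound`. -/
theorem E2_geometry (C₁ β : ℝ) (hC₁ : 1 ≤ C₁) : ∃ C : ℝ, 1 ≤ C ∧ ∀ (v : Plane → Plane),
    LipschitzWith 1 v → (∀ x, ‖v x‖ = 1) → ∀ (L M θ : ℝ), 0 < M → M ≤ L → L ≤ 1 / 64 → 0 < θ →
    θ ≤ 1 → (∀ x, Good v L C₁ β x) → ∀ (δ : ℝ≥0), C * (M / L / θ) ≤ δ →
    ∀ (x : Plane) (s t : ℝ), |s| ≤ M → |t| ≤ L → ∃ ε : Plane → Plane, LipschitzWith δ ε ∧
      ‖ε 0‖ ≤ δ ∧ ∀ h, Psi v s (x - t • v x - (θ * DD v L x) • h) =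
        x - (t - s) • v x - (θ * DD v L x) • (h + ε h) := by
  refine ⟨2 * C₁, by linarith only [hC₁], ?_⟩
  intro v hvl hvu L M θ hM hML hL hθ hθ1 hgood δ hδ x s t hs ht
  have hL0 : 0 < L := hM.trans_le hML
  have hs4 : |s| ≤ 1 / 4 := by linarith only [hML, hL, hs]
  set D := DD v L x with hD
  have hD0 : 0 ≤ D := DD_nonneg v hL0.le x
  have hst : |s - t| ≤ 8 * L := (abs_sub _ _).trans (by linarith only [hM, hML, hs, ht])
  have hturn : ‖v (x + (s - t) • v x) - v x‖ ≤ C₁ * (D / L) := (hgood x).g1 (s - t) hst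
  rcases hD0.eq_or_lt with h0 | h0
  · -- degenerate case
    rw [← h0] at hturn ⊢
    rw [zero_div, mul_zero] at hturn
    have h1 : v (x + (s - t) • v x) = v x := by
      rw [← sub_eq_zero]
      exact norm_le_zero_iff.mp hturn
    refine ⟨fun _ => 0, LipschitzWith.const' 0, by simp only [norm_zero, NNReal.zero_le_coe], fun h => ?_⟩
    rw [mul_zero, zero_smul, sub_zero, zero_smul, sub_zero]
    apply Psi_unique hvl hs4
    have h2 : x - (t - s) • v x = x + (s - t) • v x := by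
      rw [sub_smul, sub_smul]
      abel
    rw [h2, h1, sub_smul]
    abel
  · set r := θ * D with hr
    have hr0 : 0 < r := by (clear * - hθ h0; positivity)
    set y := x - t • v x with hy
    refine ⟨fun h => -((s / r) • (v (Psi v s (y - r • h)) - v x)), ?_, ?_, ?_⟩
    · apply LipschitzWith.of_dist_le_mul
      intro h h'
      rw [dist_eq_norm, dist_eq_norm]
      have e1 : -((s / r) • (v (Psi v s (y - r • h)) - v x)) -
          -((s / r) • (v (Psi v s (y - r • h')) - v x)) =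
          -((s / r) • (v (Psi v s (y - r • h)) - v (Psi v s (y - r • h')))) := by
        rw [smul_sub, smul_sub, smul_sub]
        abel
      rw [e1, norm_neg, norm_smul, Real.norm_eq_abs, abs_div, abs_of_pos hr0]
      have e2 := turn_lip_v hvl (Psi v s (y - r • h)) (Psi v s (y - r • h'))
      have e3 := (Psi_lip hvl s).dist_le_mul (y - r • h) (y - r • h')
      rw [dist_eq_norm, dist_eq_norm] at e3
      have e4 : (y - r • h) - (y - r • h') = -(r • (h - h')) := by
        rw [smul_sub]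
        abel
      rw [e4, norm_neg, norm_smul, Real.norm_eq_abs, abs_of_pos hr0] at e3
      push_cast at e3
      calc |s| / r * ‖v (Psi v s (y - r • h)) - v (Psi v s (y - r • h'))‖
          ≤ |s| / r * (4 / 3 * (r * ‖h - h'‖)) := by
            gcongr
            exact e2.trans e3
        _ = 4 / 3 * |s| * ‖h - h'‖ := by
            (clear * - hr0; field_simp)
        _ ≤ δ * ‖h - h'‖ := by
            gcongr
            refine le_trans ?_ hδ
            have e5 : M ≤ M / L / θ := by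
              rw [div_div, le_div_iff₀ (by positivity)]
              have : L * θ ≤ 1 := by nlinarith only [hM, hML, hL, hθ1]
              nlinarith only [hM, this]
            nlinarith only [hC₁, hM, hs, e5]
    · simp only [smul_zero, sub_zero, norm_neg]
      rw [norm_smul, Real.norm_eq_abs, abs_div, abs_of_pos hr0]
      set q := ‖v (Psi v s y) - v x‖ with hq
      have hq0 : 0 ≤ q := norm_nonneg _
      have e1 : Psi v s y = y + s • v (Psi v s y) := Psi_eq hvl hs4 y
      have e2 : ‖v (Psi v s y) - v (y + s • v x)‖ ≤ |s| * q := by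
        refine (turn_lip_v hvl _ _).trans (le_of_eq ?_)
        have : Psi v s y - (y + s • v x) = s • (v (Psi v s y) - v x) := by
          conv_lhs => rw [e1]
          rw [smul_sub]
          abel
        rw [this, norm_smul, Real.norm_eq_abs]
      have e3 : y + s • v x = x + (s - t) • v x := by
        rw [hy, sub_smul]
        abel
      rw [e3] at e2
      have e4 : q ≤ |s| * q + C₁ * (D / L) := by
        calc q = ‖(v (Psi v s y) - v (x + (s - t) • v x)) + (v (x + (s - t) • v x) - v x)‖ := by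
              rw [hq]
              congr 1
              abel
          _ ≤ _ := (norm_add_le _ _).trans (add_le_add e2 hturn)
      have e5 : |s| * q ≤ 1 / 4 * q := mul_le_mul_of_nonneg_right hs4 hq0
      have e6 : q ≤ 2 * C₁ * (D / L) := by
        have : 0 ≤ C₁ * (D / L) := by (clear * - hC₁ h0 hL0; positivity)
        linarith only [hq0, e4, e5]
      calc |s| / r * q ≤ M / r * (2 * C₁ * (D / L)) := by (clear * - hs hθ h0 e6 hM; gcongr)
        _ = 2 * C₁ * (M / L / θ) := by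
            rw [hr]
            (clear * - h0 hL0 hC₁ hθ hM; field_simp)
        _ ≤ δ := hδ
    · intro h
      have e1 := Psi_eq hvl hs4 (y - r • h)
      have e2 : r • (-((s / r) • (v (Psi v s (y - r • h)) - v x))) =
          -(s • (v (Psi v s (y - r • h)) - v x)) := by
        rw [smul_neg, smul_smul]
        congr 2
        (clear * - hr0; field_simp)
      rw [smul_add, e2]
      conv_lhs => rw [e1]
      rw [hy, smul_sub, sub_smul]
      abel

lemma E2_fub {Φ : ℝ × ℝ × Plane → ℝ} (hc : Continuous Φ) (hs : HasCompactSupport Φ) :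
    ∫ t, ∫ h, ∫ s, Φ (s, t, h) = ∫ s, ∫ t, ∫ h, Φ (s, t, h) := by
  have h0 : Integrable Φ := hc.integrable_of_hasCompactSupport hs
  rw [(triple_fub hc hs).2.2]
  have h1 : ∫ ω, Φ ω = ∫ q : ℝ × Plane, ∫ s : ℝ, Φ (s, q) := integral_prod_symm Φ h0
  have h2 : Integrable (fun q : ℝ × Plane => ∫ s : ℝ, Φ (s, q)) := h0.integral_prod_right
  rw [h1]
  exact (integral_prod (fun q : ℝ × Plane => ∫ s : ℝ, Φ (s, q)) h2).symm

lemma E2_ident {v : Plane → Plane} (hvl : LipschitzWith 1 v) (hvu : ∀ x, ‖v x‖ = 1) {L M : ℝ}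
    (hM : 0 < M) (hL : 0 < L) {θ : ℝ} {F : Plane → ℝ} (hF : CC F) (x : Plane) :
    Tl v θ L (Ta v M F) x = ∫ s : ℝ, ∫ t : ℝ, eta M s * (eta L t * ∫ h : Plane, bump h *
      F (Psi v s (x - t • v x - (θ * DD v L x) • h))) := by
  set Φ : ℝ × ℝ × Plane → ℝ := fun ω => eta M ω.1 * (eta L ω.2.1 * (bump ω.2.2 *
    F (Psi v ω.1 (x - ω.2.1 • v x - (θ * DD v L x) • ω.2.2)))) with hΦ
  have hFc := hF.1
  have hηM := continuous_eta hM
  have hηL := continuous_eta hL
  have hbc := continuous_bump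
  have hPsi : Continuous fun ω : ℝ × ℝ × Plane =>
      Psi v ω.1 (x - ω.2.1 • v x - (θ * DD v L x) • ω.2.2) := by
    have h1 : Continuous fun ω : ℝ × ℝ × Plane =>
        ((ω.1, x - ω.2.1 • v x - (θ * DD v L x) • ω.2.2) : ℝ × Plane) := by fun_prop
    exact (continuous_Psi hvl hvu).comp h1
  have c1 : Continuous Φ := by fun_prop
  have s1 : HasCompactSupport Φ := by
    apply triple_cs (a := M) (b := L) (c := 1)
    intro s t k hne
    simp only [hΦ] at hne
    have h1 : eta M s ≠ 0 := left_ne_zero_of_mul hne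
    have h2 := right_ne_zero_of_mul hne
    have h3 : eta L t ≠ 0 := left_ne_zero_of_mul h2
    have h4 : bump k ≠ 0 := left_ne_zero_of_mul (right_ne_zero_of_mul h2)
    refine ⟨(eta_supp hM h1).2.le, (eta_supp hL h3).2.le, ?_⟩
    by_contra hcon
    push Not at hcon
    exact h4 (bump_zero_out hcon.le)
  have e1 : ∀ s t : ℝ, eta M s * (eta L t * ∫ h : Plane, bump h *
      F (Psi v s (x - t • v x - (θ * DD v L x) • h))) = ∫ h, Φ (s, t, h) := by
    intro s t
    simp only [hΦ]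
    rw [integral_const_mul, integral_const_mul]
  simp_rw [e1]
  rw [← E2_fub c1 s1]
  unfold Tl Ta
  refine integral_congr_ae (Eventually.of_forall fun t => ?_)
  simp only
  rw [← integral_const_mul]
  refine integral_congr_ae (Eventually.of_forall fun h => ?_)
  simp only [hΦ]
  rw [← integral_const_mul, ← integral_const_mul]
  refine integral_congr_ae (Eventually.of_forall fun s => ?_)
  simp only
  ring

/-- combination of the trivial bound and the triple bound -/
lemma E2_final {C₀ CT q : ℝ} (hC₀ : 1 ≤ C₀) (hCT : 0 < CT) (hq : 0 ≤ q) {S X : ℝ≥0∞}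
    (htriv : S ≤ ENNReal.ofReal (16 ^ 2) * (ENNReal.ofReal (16 ^ 2) * X)) {m : ℝ} (hm0 : 0 ≤ m)
    (hm : m ≤ q)
    (hmain : C₀ * q ≤ 1 / 4 →
      S ≤ ENNReal.ofReal ((CT * (((C₀ * q).toNNReal : ℝ≥0) + m)) ^ 2) * X) :
    S ≤ ENNReal.ofReal (((CT * (C₀ + 1) + 1024 * C₀) * q) ^ 2) * X := by
  by_cases h : C₀ * q ≤ 1 / 4
  · refine (hmain h).trans ?_
    have h1 : (((C₀ * q).toNNReal : ℝ≥0) : ℝ) = C₀ * q := Real.coe_toNNReal _ (by positivity)
    rw [h1]
    refine mul_le_mul_left (ENNReal.ofReal_le_ofReal (pow_le_pow_left₀ (by (clear * - hCT hC₀ hq hm0; positivity)) ?_ 2)) _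
    have h2 : CT * (C₀ * q + m) ≤ CT * (C₀ * q + q) := by (clear * - hm hCT; gcongr)
    have h3 : CT * (C₀ * q + q) = CT * (C₀ + 1) * q := by ring
    have h4 : 0 ≤ 1024 * C₀ * q := by positivity
    calc CT * (C₀ * q + m) ≤ CT * (C₀ + 1) * q := by linarith only [h2]
      _ ≤ CT * (C₀ + 1) * q + 1024 * C₀ * q := by linarith only [h1]
      _ = _ := by ring
  · push Not at h
    refine htriv.trans ?_
    rw [← mul_assoc, ← ENNReal.ofReal_mul (by norm_num)]
    gcongr
    have h1 : 256 ≤ (CT * (C₀ + 1) + 1024 * C₀) * q := by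
      have h2 : 0 ≤ CT * (C₀ + 1) * q := by positivity
      linarith only [h, h2]
    nlinarith only [h1]

theorem E2_bound (C₁ β : ℝ) (hC₁ : 1 ≤ C₁) : ∃ C : ℝ, 0 < C ∧ ∀ (v : Plane → Plane),
    LipschitzWith 1 v → (∀ x, ‖v x‖ = 1) → ∀ (L M θ : ℝ), 0 < M → M ≤ L → L ≤ 1 / 64 → 0 < θ →
    θ ≤ 1 → (∀ x, Good v L C₁ β x) → ∀ F, CC F →
    sqn (Tl v θ L (Ta v M F)) ≤ ENNReal.ofReal ((C * (M / L / θ)) ^ 2) * sqn F := by
  obtain ⟨C₀, hC₀, hgeo⟩ := E2_geometry C₁ β hC₁
  obtain ⟨CT, hCT, htri⟩ := triple_bound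
  refine ⟨CT * (C₀ + 1) + 1024 * C₀, by positivity, ?_⟩
  intro v hvl hvu L M θ hM hML hL hθ hθ1 hgood F hF
  have hL0 : 0 < L := hM.trans_le hML
  have hML' : 0 ≤ M / L := by positivity
  refine E2_final hC₀ hCT (by positivity) ?_ hML' ?_ ?_
  · refine (sqn_Tl_le hvl hvu hL0 hL hθ.le hθ1 (cc_Ta hvl hvu hM (hML.trans hL) hF)).trans ?_
    gcongr
    exact sqn_Ta_le hvl hvu hM (hML.trans hL) hF
  · rw [le_div_iff₀ hθ]
    nlinarith only [hθ1, hML']
  · intro h
    set δ := (C₀ * (M / L / θ)).toNNReal with hδ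
    have hδr : (δ : ℝ) = C₀ * (M / L / θ) := Real.coe_toNNReal _ (by (clear * - hC₀ hM hL0 hθ; positivity))
    have hδ4 : δ ≤ 1 / 4 := by
      rw [← NNReal.coe_le_coe, hδr]
      push_cast
      exact h
    have hfun : Tl v θ L (Ta v M F) = fun x => ∫ s : ℝ, ∫ t : ℝ, eta M s * (eta L t *
        ∫ h : Plane, bump h * F (Psi v s (x - t • v x - (θ * DD v L x) • h))) :=
      funext fun x => E2_ident hvl hvu hM hL0 hF x
    rw [hfun]
    refine htri v hvl hvu L M hM hML hL (fun x => θ * DD v L x)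
      (fun x => mul_nonneg hθ.le (DD_nonneg v hL0.le x)) ?_ δ hδ4
      (fun x s t h => Psi v s (x - t • v x - (θ * DD v L x) • h)) ?_ ?_ F hF
    · intro x y
      rw [← mul_sub, abs_mul, abs_of_pos hθ]
      have h1 := DD_lip hvl hL0.le (hL.trans (by norm_num)) x y
      have h2 : 0 ≤ |DD v L x - DD v L y| := abs_nonneg _
      nlinarith only [hθ1, h1, h2]
    · have hDc : Continuous (DD v L) := by
        have : LipschitzWith (6 * L).toNNReal (DD v L) := by
          apply LipschitzWith.of_dist_le_mul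
          intro x y
          rw [Real.dist_eq, dist_eq_norm, Real.coe_toNNReal _ (by positivity)]
          exact DD_lip hvl hL0.le (hL.trans (by norm_num)) x y
        exact this.continuous
      have hvc := hvl.continuous
      have h1 : Continuous fun q : Plane × ℝ × ℝ × Plane =>
          ((q.2.1, q.1 - q.2.2.1 • v q.1 - (θ * DD v L q.1) • q.2.2.2) : ℝ × Plane) := by
        fun_prop
      exact (continuous_Psi hvl hvu).comp h1
    · intro x s t hs ht
      exact hgeo v hvl hvu L M θ hM hML hL hθ hθ1 hgood δ hδr.ge x s t hs ht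

end Vale.Agent.P112
end

section

/-! Task P112-FT13: mollified large scale piece followed by a small scale adjoint piece. -/

namespace Vale.Agent.P112

open MeasureTheory Filter Topology Set
open scoped ENNReal NNReal

/-- comparison of the averaged turning at `x` and at `Psi v s x` -/
lemma E3_DD {C₁ β : ℝ} (hC₁ : 1 ≤ C₁) (hβ : 0 < β) (hβ1 : β ≤ 1) {v : Plane → Plane}
    (hvl : LipschitzWith 1 v) {L s : ℝ} (hL0 : 0 < L)
    (hL : L ≤ 1 / 64) (hs : |s| ≤ L) (x : Plane) (hg : Good v L C₁ β (Psi v s x)) :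
    ‖v (Psi v s x) - v x‖ ≤ C₁ * (|s| / L) ^ β * (DD v L (Psi v s x) / L) ∧
    |DD v L x - DD v L (Psi v s x)| ≤ 6 * (C₁ * (|s| / L) ^ β) * DD v L (Psi v s x) := by
  have hs4 : |s| ≤ 1 / 4 := by linarith only [hL0, hL, hs]
  set z := Psi v s x with hz
  have hzx : z = x + s • v z := Psi_eq hvl hs4 x
  set u := v x with hu
  set a := ‖v z - u‖ with ha
  set D' := DD v L z with hD'
  have hD'0 : 0 ≤ D' := DD_nonneg v hL0.le z
  set k := (|s| / L) ^ β with hk
  have hk0 : 0 ≤ k := by (clear * - hL0; positivity)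
  have hsk : |s| / L ≤ k := by
    have h1 : |s| / L ≤ 1 := by rwa [div_le_one hL0]
    have h2 : 0 ≤ |s| / L := by positivity
    calc |s| / L = (|s| / L) ^ (1 : ℝ) := (Real.rpow_one _).symm
      _ ≤ (|s| / L) ^ β := by
          rcases h2.eq_or_lt with h3 | h3
          · rw [← h3, Real.zero_rpow hβ.ne', Real.zero_rpow one_ne_zero]
          · exact Real.rpow_le_rpow_of_exponent_ge h3 h1 hβ1
  have ha0 : 0 ≤ a := norm_nonneg _
  have hx0 : z + (-s) • v z = x := by
    rw [neg_smul, ← sub_eq_add_neg, sub_eq_iff_eq_add]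
    exact hzx
  have hta : a = turn v z (-s) := by
    unfold turn
    rw [hx0, ha, norm_sub_rev]
  have h1 : a ≤ C₁ * k * (D' / L) := by
    have := hg.g2 (-s) (by rw [abs_neg]; exact hs)
    rw [abs_neg] at this
    rw [hta]
    exact this
  refine ⟨h1, ?_⟩
  -- pointwise comparison of the turnings
  have h2 : ∀ s' : ℝ, |s'| ≤ L → |turn v x s' - turn v z (s' - s)| ≤ 2 * a := by
    intro s' hs'
    unfold turn
    have e1 : z + (s' - s) • v z = x + s' • v z := by
      calc z + (s' - s) • v z = (z + (-s) • v z) + s' • v z := by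
            rw [sub_smul, neg_smul]
            abel
        _ = x + s' • v z := by rw [hx0]
    rw [e1]
    have e2 := abs_norm_sub_norm_le (v (x + s' • v x) - v x) (v (x + s' • v z) - v z)
    refine e2.trans ?_
    have e3 : v (x + s' • v x) - v x - (v (x + s' • v z) - v z) =
        (v (x + s' • v x) - v (x + s' • v z)) + (v z - v x) := by abel
    rw [e3]
    refine (norm_add_le _ _).trans ?_
    have e4 := turn_lip_v hvl (x + s' • v x) (x + s' • v z)
    have e5 : x + s' • v x - (x + s' • v z) = -(s' • (v z - v x)) := by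
      rw [smul_sub]
      abel
    rw [e5, norm_neg, norm_smul, Real.norm_eq_abs] at e4
    have e6 : |s'| * ‖v z - v x‖ ≤ 1 * a := by
      apply mul_le_mul (by linarith only [hL, hs']) le_rfl (norm_nonneg _) (by norm_num)
    linarith only [e4, e6]
  have hct : Continuous (turn v z) := continuous_turn hvl z
  have hcx : Continuous (turn v x) := continuous_turn hvl x
  have h3 : |DD v L x - ∫ s' in (-L)..L, turn v z (s' - s)| ≤ 4 * L * a := by
    have hi2 : IntervalIntegrable (fun s' => turn v z (s' - s)) volume (-L) L :=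
      (hct.comp (continuous_id.sub continuous_const)).intervalIntegrable _ _
    unfold DD
    rw [← intervalIntegral.integral_sub (hcx.intervalIntegrable _ _) hi2]
    have h := intervalIntegral.norm_integral_le_of_norm_le_const (a := -L) (b := L)
      (C := 2 * a) (f := fun s' => turn v x s' - turn v z (s' - s)) ?_
    · rw [Real.norm_eq_abs] at h
      refine h.trans (le_of_eq ?_)
      rw [sub_neg_eq_add, abs_of_nonneg (by linarith only [hL0])]
      ring
    · intro s' hs'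
      rw [uIoc_of_le (by linarith only [hL0])] at hs'
      rw [Real.norm_eq_abs]
      apply h2
      rw [abs_le]
      exact ⟨hs'.1.le, hs'.2⟩
  have h4 : ∫ s' in (-L)..L, turn v z (s' - s) = ∫ σ in (-L - s)..(L - s), turn v z σ := by
    rw [intervalIntegral.integral_comp_sub_right (fun σ => turn v z σ) s]
  have hs1 := abs_le.mp hs
  have hb : ∀ σ : ℝ, |σ| ≤ 2 * L → ‖turn v z σ‖ ≤ C₁ * (D' / L) := by
    intro σ hσ
    rw [Real.norm_eq_abs, abs_of_nonneg (turn_nonneg v z σ)]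
    exact hg.g1 σ (by linarith only [hL0, hσ])
  have h5 : |(∫ σ in (-L - s)..(L - s), turn v z σ) - D'| ≤ 2 * |s| * (C₁ * (D' / L)) := by
    have hi : ∀ a b : ℝ, IntervalIntegrable (turn v z) volume a b := fun a b =>
      hct.intervalIntegrable _ _
    have e1 : (∫ σ in (-L - s)..(L - s), turn v z σ) - D' =
        (∫ σ in (-L - s)..(-L), turn v z σ) + ∫ σ in L..(L - s), turn v z σ := by
      rw [hD']
      unfold DD
      have f1 := intervalIntegral.integral_add_adjacent_intervals (hi (-L - s) (-L)) (hi (-L) L)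
      have f2 := intervalIntegral.integral_add_adjacent_intervals (hi (-L - s) L) (hi L (L - s))
      linarith only [f1, f2]
    rw [e1]
    have e2 : ‖∫ σ in (-L - s)..(-L), turn v z σ‖ ≤ C₁ * (D' / L) * |(-L) - (-L - s)| := by
      apply intervalIntegral.norm_integral_le_of_norm_le_const
      intro σ hσ
      apply hb
      rw [abs_le]
      rw [mem_uIoc] at hσ
      rcases hσ with h | h <;> constructor <;> linarith only [hL0, h, hs1]
    have e3 : ‖∫ σ in L..(L - s), turn v z σ‖ ≤ C₁ * (D' / L) * |(L - s) - L| := by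
      apply intervalIntegral.norm_integral_le_of_norm_le_const
      intro σ hσ
      apply hb
      rw [abs_le]
      rw [mem_uIoc] at hσ
      rcases hσ with h | h <;> constructor <;> linarith only [hL0, h, hs1]
    have e4 : |(-L) - (-L - s)| = |s| := by congr 1; ring
    have e5 : |(L - s) - L| = |s| := by
      rw [show (L - s) - L = -s by ring, abs_neg]
    rw [e4, Real.norm_eq_abs] at e2
    rw [e5, Real.norm_eq_abs] at e3
    refine (abs_add_le _ _).trans ?_
    linarith only [e2, e3]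
  rw [h4] at h3
  have h6 : |DD v L x - D'| ≤ 4 * L * a + 2 * |s| * (C₁ * (D' / L)) := by
    have : DD v L x - D' = (DD v L x - ∫ σ in (-L - s)..(L - s), turn v z σ) +
        ((∫ σ in (-L - s)..(L - s), turn v z σ) - D') := by ring
    rw [this]
    refine (abs_add_le _ _).trans ?_
    linarith only [h3, h5]
  refine h6.trans ?_
  have h7 : 4 * L * a ≤ 4 * (C₁ * k) * D' := by
    calc 4 * L * a ≤ 4 * L * (C₁ * k * (D' / L)) := by (clear * - h1 hL0; gcongr)
      _ = 4 * (C₁ * k) * D' := by (clear * - hL0 hC₁; field_simp)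
  have h8 : 2 * |s| * (C₁ * (D' / L)) ≤ 2 * (C₁ * k) * D' := by
    calc 2 * |s| * (C₁ * (D' / L)) = 2 * (C₁ * (|s| / L)) * D' := by (clear * - hL0 hC₁; field_simp)
      _ ≤ 2 * (C₁ * k) * D' := by (clear * - hsk hC₁ hD'0; gcongr)
  linarith only [h7, h8]

/-- Geometry behind `E3_bound`. -/
theorem E3_geometry (C₁ β : ℝ) (hC₁ : 1 ≤ C₁) (hβ : 0 < β) (hβ1 : β ≤ 1) : ∃ C : ℝ, 1 ≤ C ∧
    ∀ (v : Plane → Plane), LipschitzWith 1 v → (∀ x, ‖v x‖ = 1) → ∀ (L M θ : ℝ), 0 < M → M ≤ L →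
    L ≤ 1 / 64 → 0 < θ → θ ≤ 1 → (∀ x, Good v L C₁ β x) → ∀ (δ : ℝ≥0), δ ≤ 1 / 4 →
    C * ((M / L) ^ β / θ) ≤ δ →
    ∀ (x : Plane) (s t : ℝ), |s| ≤ M → |t| ≤ L → ∃ ε : Plane → Plane, LipschitzWith δ ε ∧
      ‖ε 0‖ ≤ δ ∧ ∀ h, Psi v s x - t • v (Psi v s x) - (θ * DD v L (Psi v s x)) • h =
        x - (t - s) • v x - (θ * DD v L x) • (h + ε h) := by
  refine ⟨24 * C₁, by linarith, ?_⟩
  intro v hvl hvu L M θ hM hML hL hθ hθ1 hgood δ hδ4 hδ x s t hs ht
  have hL0 : 0 < L := hM.trans_le hML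
  have hs4 : |s| ≤ 1 / 4 := by linarith only [hM, hML, hL, hs]
  have hδr : (δ : ℝ) ≤ 1 / 4 := by exact_mod_cast hδ4
  obtain ⟨h1, h2⟩ := E3_DD hC₁ hβ hβ1 hvl hL0 hL (hs.trans hML) x (hgood (Psi v s x))
  set z := Psi v s x with hz
  have hzx : z = x + s • v z := Psi_eq hvl hs4 x
  set D := DD v L x with hD
  set D' := DD v L z with hD'
  have hD0 : 0 ≤ D := DD_nonneg v hL0.le x
  have hD'0 : 0 ≤ D' := DD_nonneg v hL0.le z
  set k := (|s| / L) ^ β with hk
  have hk0 : 0 ≤ k := by (clear * - hL0; positivity)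
  have hkM : k ≤ (M / L) ^ β := by
    rw [hk]
    (clear * - hL0 hs hβ; gcongr)
  have hkθ : k ≤ (M / L) ^ β / θ := by
    refine hkM.trans ?_
    rw [le_div_iff₀ hθ]
    have : 0 ≤ (M / L) ^ β := by positivity
    nlinarith only [hθ1, hk0, hkM]
  have hkθ' : k / θ ≤ (M / L) ^ β / θ := by (clear * - hkM hθ; gcongr)
  have hk24 : 24 * C₁ * k ≤ 1 / 4 := by
    calc 24 * C₁ * k ≤ 24 * C₁ * ((M / L) ^ β / θ) := by (clear * - hkθ hC₁; gcongr)
      _ ≤ 1 / 4 := hδ.trans hδr
  have h3 : D' ≤ 2 * D := by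
    have h4 := (abs_le.mp h2).1
    have h5 : 6 * (C₁ * k) * D' ≤ 1 / 2 * D' := by
      apply mul_le_mul_of_nonneg_right _ hD'0
      linarith only [hk24]
    linarith only [h4, h5]
  have h4 : |D' - D| ≤ 12 * (C₁ * k) * D := by
    rw [abs_sub_comm]
    refine h2.trans ?_
    calc 6 * (C₁ * k) * D' ≤ 6 * (C₁ * k) * (2 * D) := by (clear * - h3 hC₁ hL0; gcongr)
      _ = _ := by ring
  have h5 : ‖v z - v x‖ ≤ 2 * (C₁ * k) * (D / L) := by
    refine h1.trans ?_
    calc C₁ * k * (D' / L) ≤ C₁ * k * (2 * D / L) := by (clear * - h3 hL0 hC₁; gcongr)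
      _ = _ := by ring
  have hid : z - t • v z = x - (t - s) • v x - (t - s) • (v z - v x) := by
    have hx0 : z + (-s) • v z = x := by
      rw [neg_smul, ← sub_eq_add_neg, sub_eq_iff_eq_add]
      exact hzx
    calc z - t • v z = (z + (-s) • v z) - (t - s) • v z := by
          rw [sub_smul, neg_smul]
          abel
      _ = x - (t - s) • v z := by rw [hx0]
      _ = x - (t - s) • v x - (t - s) • (v z - v x) := by
          rw [smul_sub]
          abel
  rw [hid]
  rcases hD0.eq_or_lt with h0 | h0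
  · have e1 : D' = 0 := by
      apply le_antisymm _ hD'0
      rw [← h0] at h3
      linarith only [h3]
    have e2 : v z - v x = 0 := by
      rw [← h0, zero_div, mul_zero] at h5
      exact norm_le_zero_iff.mp h5
    refine ⟨fun _ => 0, LipschitzWith.const' 0, by simp only [norm_zero, NNReal.zero_le_coe], fun h => ?_⟩
    rw [e1, e2, ← h0]
    simp
  · set r := θ * D with hr
    have hr0 : 0 < r := by (clear * - hθ h0; positivity)
    refine ⟨fun h => (1 / r) • ((t - s) • (v z - v x) + (θ * D' - r) • h), ?_, ?_, ?_⟩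
    · apply LipschitzWith.of_dist_le_mul
      intro h h'
      rw [dist_eq_norm, dist_eq_norm]
      have e1 : (1 / r) • ((t - s) • (v z - v x) + (θ * D' - r) • h) -
          (1 / r) • ((t - s) • (v z - v x) + (θ * D' - r) • h') =
          ((1 / r) * (θ * D' - r)) • (h - h') := by
        rw [← smul_sub, mul_smul, smul_sub (θ * D' - r)]
        congr 1
        abel
      rw [e1, norm_smul, Real.norm_eq_abs]
      gcongr
      have e2 : 1 / r * (θ * D' - r) = (D' - D) / D := by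
        rw [hr]
        (clear * - hθ h0; field_simp)
      rw [e2, abs_div, abs_of_pos h0, div_le_iff₀ h0]
      refine h4.trans ?_
      gcongr
      refine le_trans ?_ hδ
      nlinarith only [hC₁, hk0, hkθ]
    · simp only [smul_zero, add_zero]
      rw [norm_smul, norm_smul, Real.norm_eq_abs, Real.norm_eq_abs, abs_of_pos (by (clear * - hθ h0; positivity))]
      have e1 : |t - s| ≤ 2 * L := (abs_sub _ _).trans (by linarith only [hML, hs, ht])
      calc 1 / r * (|t - s| * ‖v z - v x‖) ≤ 1 / r * (2 * L * (2 * (C₁ * k) * (D / L))) := by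
            (clear * - e1 h5 hL0 hθ h0; gcongr)
        _ = 4 * C₁ * (k / θ) := by
            rw [hr]
            field_simp
            ring
        _ ≤ 4 * C₁ * ((M / L) ^ β / θ) := by (clear * - hkθ' hC₁; gcongr)
        _ ≤ 24 * C₁ * ((M / L) ^ β / θ) := by
            gcongr
            norm_num
        _ ≤ δ := hδ
    · intro h
      have e1 : r • ((1 / r) • ((t - s) • (v z - v x) + (θ * D' - r) • h)) =
          (t - s) • (v z - v x) + (θ * D' - r) • h := by
        rw [smul_smul, mul_one_div_cancel hr0.ne', one_smul]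
      rw [smul_add, e1, sub_smul (θ * D') r h]
      abel

lemma E3_ident {v : Plane → Plane} {L M : ℝ} {θ : ℝ} {F : Plane → ℝ} (x : Plane) :
    Ta v M (Tl v θ L F) x = ∫ s : ℝ, ∫ t : ℝ, eta M s * (eta L t * ∫ h : Plane, bump h *
      F (Psi v s x - t • v (Psi v s x) - (θ * DD v L (Psi v s x)) • h)) := by
  unfold Ta Tl
  refine integral_congr_ae (Eventually.of_forall fun s => ?_)
  simp only
  rw [← integral_const_mul]

theorem E3_bound (C₁ β : ℝ) (hC₁ : 1 ≤ C₁) (hβ : 0 < β) (hβ1 : β ≤ 1) : ∃ C : ℝ, 0 < C ∧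
    ∀ (v : Plane → Plane), LipschitzWith 1 v → (∀ x, ‖v x‖ = 1) → ∀ (L M θ : ℝ), 0 < M → M ≤ L →
    L ≤ 1 / 64 → 0 < θ → θ ≤ 1 → (∀ x, Good v L C₁ β x) → ∀ F, CC F →
    sqn (Ta v M (Tl v θ L F)) ≤ ENNReal.ofReal ((C * ((M / L) ^ β / θ)) ^ 2) * sqn F := by
  obtain ⟨C₀, hC₀, hgeo⟩ := E3_geometry C₁ β hC₁ hβ hβ1
  obtain ⟨CT, hCT, htri⟩ := triple_bound
  refine ⟨CT * (C₀ + 1) + 1024 * C₀, by positivity, ?_⟩
  intro v hvl hvu L M θ hM hML hL hθ hθ1 hgood F hF
  have hL0 : 0 < L := hM.trans_le hML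
  have hML' : 0 ≤ M / L := by (clear * - hM hL0; positivity)
  refine E2_final hC₀ hCT (by positivity) ?_ hML' ?_ ?_
  · refine (sqn_Ta_le hvl hvu hM (hML.trans hL) (cc_Tl hvl hvu hL0 hL hθ.le hθ1 hF)).trans ?_
    gcongr
    exact sqn_Tl_le hvl hvu hL0 hL hθ.le hθ1 hF
  · have h1 : M / L ≤ 1 := by rwa [div_le_one hL0]
    have h2 : 0 < M / L := by positivity
    have h3 : M / L ≤ (M / L) ^ β := by
      calc M / L = (M / L) ^ (1 : ℝ) := (Real.rpow_one _).symm
        _ ≤ (M / L) ^ β := Real.rpow_le_rpow_of_exponent_ge h2 h1 hβ1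
    rw [le_div_iff₀ hθ]
    nlinarith only [hθ1, hML', h3]
  · intro h
    set δ := (C₀ * ((M / L) ^ β / θ)).toNNReal with hδ
    have hδr : (δ : ℝ) = C₀ * ((M / L) ^ β / θ) := Real.coe_toNNReal _ (by (clear * - hC₀ hM hL0 hθ; positivity))
    have hδ4 : δ ≤ 1 / 4 := by
      rw [← NNReal.coe_le_coe, hδr]
      push_cast
      exact h
    have hfun : Ta v M (Tl v θ L F) = fun x => ∫ s : ℝ, ∫ t : ℝ, eta M s * (eta L t *
        ∫ h : Plane, bump h *
          F (Psi v s x - t • v (Psi v s x) - (θ * DD v L (Psi v s x)) • h)) :=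
      funext fun x => E3_ident x
    rw [hfun]
    refine htri v hvl hvu L M hM hML hL (fun x => θ * DD v L x)
      (fun x => mul_nonneg hθ.le (DD_nonneg v hL0.le x)) ?_ δ hδ4
      (fun x s t h => Psi v s x - t • v (Psi v s x) - (θ * DD v L (Psi v s x)) • h) ?_ ?_ F hF
    · intro x y
      rw [← mul_sub, abs_mul, abs_of_pos hθ]
      have h1 := DD_lip hvl hL0.le (hL.trans (by norm_num)) x y
      have h2 : 0 ≤ |DD v L x - DD v L y| := abs_nonneg _
      nlinarith only [hθ1, h1, h2]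
    · have hDc : Continuous (DD v L) := by
        have : LipschitzWith (6 * L).toNNReal (DD v L) := by
          apply LipschitzWith.of_dist_le_mul
          intro x y
          rw [Real.dist_eq, dist_eq_norm, Real.coe_toNNReal _ (by positivity)]
          exact DD_lip hvl hL0.le (hL.trans (by norm_num)) x y
        exact this.continuous
      have hvc := hvl.continuous
      have h1 : Continuous fun q : Plane × ℝ × ℝ × Plane => ((q.2.1, q.1) : ℝ × Plane) := by
        fun_prop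
      have h2 : Continuous fun q : Plane × ℝ × ℝ × Plane => Psi v q.2.1 q.1 :=
        (continuous_Psi hvl hvu).comp h1
      fun_prop
    · intro x s t hs ht
      exact hgeo v hvl hvu L M θ hM hML hL hθ hθ1 hgood δ hδ4 hδr.ge x s t hs ht

end Vale.Agent.P112
end

section

/-! Task P112-FT05: continuous linear maps on `L²` represented by formulas on `CC`. -/

namespace Vale.Agent.P112

open MeasureTheory Filter Topology Set
open scoped ENNReal NNReal RealInnerProductSpace

theorem CC.memLp {F : Plane → ℝ} (hF : CC F) : MemLp F 2 :=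
  hF.1.memLp_of_hasCompactSupport hF.2

lemma CC.add {F G : Plane → ℝ} (hF : CC F) (hG : CC G) : CC (F + G) :=
  ⟨hF.1.add hG.1, hF.2.add hG.2⟩

lemma CC.smul (c : ℝ) {F : Plane → ℝ} (hF : CC F) : CC (c • F) :=
  ⟨hF.1.const_smul c, hF.2.smul_left (f := fun _ => c)⟩

lemma CC.sub {F G : Plane → ℝ} (hF : CC F) (hG : CC G) : CC (F - G) := by
  have : F - G = F + (-1 : ℝ) • G := by ext x; simp [sub_eq_add_neg]
  rw [this]; exact hF.add (hG.smul _)

lemma CC.zero : CC (0 : Plane → ℝ) := ⟨continuous_zero, HasCompactSupport.zero⟩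

/-- the submodule of continuous compactly supported functions -/
def repSub : Submodule ℝ (Plane → ℝ) where
  carrier := {F | CC F}
  add_mem' := fun hF hG => CC.add hF hG
  zero_mem' := CC.zero
  smul_mem' := fun c _ hF => CC.smul c hF

/-- the class of a continuous compactly supported function -/
noncomputable def repCls : repSub →ₗ[ℝ] L2 where
  toFun F := MemLp.toLp F.1 (CC.memLp (show CC F.1 from F.2))
  map_add' F G := by
    rw [← MemLp.toLp_add]; rfl
  map_smul' c F := by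
    rw [← MemLp.toLp_const_smul]; rfl

lemma repCls_ae (F : repSub) : repCls F =ᵐ[volume] F.1 :=
  MemLp.coeFn_toLp (CC.memLp (show CC F.1 from F.2))

lemma rep_eq_cls {F : Plane → ℝ} (hF : CC F) {g : L2} (h : g =ᵐ[volume] F) :
    g = repCls ⟨F, hF⟩ := by
  apply Lp.ext
  exact h.trans (repCls_ae ⟨F, hF⟩).symm

/-- density -/
lemma repCls_dense : DenseRange repCls := by
  intro g
  rw [Metric.mem_closure_iff]
  intro ε hε
  obtain ⟨F, hFs, hFe, hFc, hFm⟩ := (Lp.memLp g).exists_hasCompactSupport_eLpNorm_sub_le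
    (by norm_num) (ε := ENNReal.ofReal (ε / 2)) (by positivity)
  refine ⟨repCls ⟨F, hFc, hFs⟩, ⟨⟨F, hFc, hFs⟩, rfl⟩, ?_⟩
  rw [dist_eq_norm, Lp.norm_def]
  have h1 : eLpNorm (g - repCls ⟨F, hFc, hFs⟩ : L2) 2 volume = eLpNorm (⇑g - F) 2 volume := by
    apply eLpNorm_congr_ae
    refine (Lp.coeFn_sub _ _).trans ?_
    exact EventuallyEq.rfl.sub (repCls_ae ⟨F, hFc, hFs⟩)
  rw [h1]
  calc (eLpNorm (⇑g - F) 2 volume).toReal ≤ (ENNReal.ofReal (ε / 2)).toReal :=
        ENNReal.toReal_mono ENNReal.ofReal_ne_top hFe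
    _ = ε / 2 := ENNReal.toReal_ofReal (by positivity)
    _ < ε := by linarith

/-- the square of the norm -/
lemma rep_sqn {F : Plane → ℝ} {g : L2} (h : g =ᵐ[volume] F) : ENNReal.ofReal (‖g‖ ^ 2) = sqn F := by
  have h1 : ENNReal.ofReal (‖g‖ ^ 2) = ‖g‖ₑ ^ 2 := by
    rw [← ofReal_norm, ENNReal.ofReal_pow (norm_nonneg _)]
  rw [h1, Lp.enorm_def, eLpNorm_congr_ae h,
    eLpNorm_eq_lintegral_rpow_enorm_toReal (by norm_num) (by norm_num)]
  unfold sqn
  rw [ENNReal.toReal_ofNat, ← ENNReal.rpow_two, ← ENNReal.rpow_mul]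
  norm_num

lemma rep_norm_le {F G : Plane → ℝ} {g f : L2} (hg : g =ᵐ[volume] G) (hf : f =ᵐ[volume] F) {B : ℝ}
    (hB : 0 ≤ B) (h : sqn G ≤ ENNReal.ofReal (B ^ 2) * sqn F) : ‖g‖ ≤ B * ‖f‖ := by
  rw [← rep_sqn hg, ← rep_sqn hf, ← ENNReal.ofReal_mul (by positivity),
    ENNReal.ofReal_le_ofReal_iff (by (clear * -; positivity)), ← mul_pow] at h
  exact (pow_le_pow_iff_left₀ (norm_nonneg _) (by positivity) (by norm_num)).mp h

theorem exists_rep (P : (Plane → ℝ) → (Plane → ℝ)) (hcc : ∀ F, CC F → CC (P F))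
    (hadd : ∀ F G, CC F → CC G → P (F + G) = P F + P G)
    (hsmul : ∀ (c : ℝ) F, CC F → P (c • F) = c • P F) (B : ℝ) (hB : 0 ≤ B)
    (hb : ∀ F, CC F → sqn (P F) ≤ ENNReal.ofReal (B ^ 2) * sqn F) :
    ∃ T : L2 →L[ℝ] L2, Rep T P := by
  let PL : repSub →ₗ[ℝ] repSub :=
    { toFun := fun F => ⟨P F.1, hcc F.1 F.2⟩
      map_add' := fun F G => Subtype.ext (hadd F.1 G.1 F.2 G.2)
      map_smul' := fun c F => Subtype.ext (hsmul c F.1 F.2) }
  let f : repSub →ₗ[ℝ] L2 := repCls ∘ₗ PL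
  have hf : ∃ C, ∀ F, ‖f F‖ ≤ C * ‖repCls F‖ :=
    ⟨B, fun F => rep_norm_le (repCls_ae (PL F)) (repCls_ae F) hB (hb F.1 F.2)⟩
  refine ⟨f.extendOfNorm repCls, hcc, ?_⟩
  intro F hF g hg
  rw [rep_eq_cls hF hg, LinearMap.extendOfNorm_eq repCls_dense hf]
  exact repCls_ae (PL ⟨F, hF⟩)

theorem Rep.apply_cls {T : L2 →L[ℝ] L2} {P : (Plane → ℝ) → (Plane → ℝ)} (h : Rep T P)
    (F : repSub) : T (repCls F) = repCls ⟨P F.1, h.cc F.1 F.2⟩ :=
  rep_eq_cls _ (h.eq F.1 F.2 _ (repCls_ae F))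

theorem Rep.norm_le {T : L2 →L[ℝ] L2} {P : (Plane → ℝ) → (Plane → ℝ)} (h : Rep T P) {B : ℝ}
    (hB : 0 ≤ B) (hb : ∀ F, CC F → sqn (P F) ≤ ENNReal.ofReal (B ^ 2) * sqn F) : ‖T‖ ≤ B := by
  apply ContinuousLinearMap.opNorm_le_bound _ hB
  intro g
  refine repCls_dense.induction_on (p := fun g => ‖T g‖ ≤ B * ‖g‖) g ?_ ?_
  · exact isClosed_le T.continuous.norm (continuous_const.mul continuous_norm)
  · intro F
    rw [h.apply_cls]
    exact rep_norm_le (repCls_ae _) (repCls_ae F) hB (hb F.1 F.2)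

theorem Rep.sqn_le {T : L2 →L[ℝ] L2} {P : (Plane → ℝ) → (Plane → ℝ)} (h : Rep T P) {B : ℝ}
    (hB : ‖T‖ ≤ B) {F : Plane → ℝ} (hF : CC F) :
    sqn (P F) ≤ ENNReal.ofReal (B ^ 2) * sqn F := by
  have hB0 : 0 ≤ B := (norm_nonneg _).trans hB
  have h1 := h.apply_cls ⟨F, hF⟩
  have h2 : ‖T (repCls ⟨F, hF⟩)‖ ≤ B * ‖repCls ⟨F, hF⟩‖ :=
    (T.le_opNorm _).trans (mul_le_mul_of_nonneg_right hB (norm_nonneg _))
  rw [h1] at h2
  rw [← rep_sqn (repCls_ae ⟨P F, h.cc F hF⟩), ← rep_sqn (repCls_ae ⟨F, hF⟩),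
    ← ENNReal.ofReal_mul (by positivity), ← mul_pow]
  apply ENNReal.ofReal_le_ofReal
  exact pow_le_pow_left₀ (norm_nonneg _) h2 2

theorem Rep.comp {T S : L2 →L[ℝ] L2} {P Q : (Plane → ℝ) → (Plane → ℝ)} (hT : Rep T P)
    (hS : Rep S Q) : Rep (T ∘L S) (fun F => P (Q F)) :=
  ⟨fun F hF => hT.cc _ (hS.cc F hF), fun F hF g hg => hT.eq _ (hS.cc F hF) _ (hS.eq F hF g hg)⟩

theorem Rep.sub {T S : L2 →L[ℝ] L2} {P Q : (Plane → ℝ) → (Plane → ℝ)} (hT : Rep T P)
    (hS : Rep S Q) : Rep (T - S) (fun F => P F - Q F) := by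
  refine ⟨fun F hF => (hT.cc F hF).sub (hS.cc F hF), fun F hF g hg => ?_⟩
  have h1 : (T - S) g = T g - S g := rfl
  rw [h1]
  exact (Lp.coeFn_sub _ _).trans ((hT.eq F hF g hg).sub (hS.eq F hF g hg))

theorem Rep.zero : Rep 0 (fun _ => 0) :=
  ⟨fun _ _ => CC.zero, fun _ _ _ _ => Lp.coeFn_zero _ _ _⟩

theorem Rep.add {T S : L2 →L[ℝ] L2} {P Q : (Plane → ℝ) → (Plane → ℝ)} (hT : Rep T P)
    (hS : Rep S Q) : Rep (T + S) (fun F => P F + Q F) := by
  refine ⟨fun F hF => (hT.cc F hF).add (hS.cc F hF), fun F hF g hg => ?_⟩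
  have h1 : (T + S) g = T g + S g := rfl
  rw [h1]
  exact (Lp.coeFn_add _ _).trans ((hT.eq F hF g hg).add (hS.eq F hF g hg))

theorem Rep.sum {ι : Type*} (s : Finset ι) {T : ι → L2 →L[ℝ] L2}
    {P : ι → (Plane → ℝ) → (Plane → ℝ)} (hT : ∀ i ∈ s, Rep (T i) (P i)) :
    Rep (∑ i ∈ s, T i) (fun F => ∑ i ∈ s, P i F) := by
  classical
  induction s using Finset.induction_on with
  | empty => simpa using Rep.zero
  | insert a s ha ih =>
    have h1 : Rep (T a + ∑ i ∈ s, T i) (fun F => P a F + ∑ i ∈ s, P i F) :=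
      (hT a (Finset.mem_insert_self a s)).add
        (ih (fun i hi => hT i (Finset.mem_insert_of_mem hi)))
    rw [Finset.sum_insert ha]
    have h2 : (fun F => ∑ i ∈ insert a s, P i F) = fun F => P a F + ∑ i ∈ s, P i F := by
      ext1 F; rw [Finset.sum_insert ha]
    rw [h2]
    exact h1

lemma rep_inner {F G : Plane → ℝ} {f g : L2} (hf : f =ᵐ[volume] F) (hg : g =ᵐ[volume] G) :
    ⟪f, g⟫ = ∫ x, F x * G x := by
  rw [L2.inner_def]
  apply integral_congr_ae
  filter_upwards [hf, hg] with x h1 h2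
  rw [h1, h2]
  simp [mul_comm]

lemma rep_norm {F : Plane → ℝ} {f : L2} (hf : f =ᵐ[volume] F) : ‖f‖ = √(∫ x, F x ^ 2) := by
  have h := rep_inner hf hf
  rw [real_inner_self_eq_norm_sq] at h
  have h2 : ∫ x, F x * F x = ∫ x, F x ^ 2 := by congr 1; ext x; ring
  rw [h2] at h
  rw [← h, Real.sqrt_sq (norm_nonneg _)]

theorem Rep.adjoint_sub_le {T S : L2 →L[ℝ] L2} {P Q : (Plane → ℝ) → (Plane → ℝ)} (hT : Rep T P)
    (hS : Rep S Q) {B : ℝ} (hB : 0 ≤ B)
    (h : ∀ F G, CC F → CC G → |(∫ x, P F x * G x) - ∫ x, F x * Q G x| ≤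
      B * √(∫ x, F x ^ 2) * √(∫ x, G x ^ 2)) :
    ‖ContinuousLinearMap.adjoint T - S‖ ≤ B := by
  set D := ContinuousLinearMap.adjoint T - S with hD
  have key : ∀ F G : repSub, |⟪D (repCls G), repCls F⟫| ≤ B * ‖repCls F‖ * ‖repCls G‖ := by
    intro F G
    have h1 : ⟪D (repCls G), repCls F⟫ =
        ⟪repCls G, T (repCls F)⟫ - ⟪S (repCls G), repCls F⟫ := by
      rw [hD, sub_apply, inner_sub_left,
        ContinuousLinearMap.adjoint_inner_left]
    rw [h1, rep_inner (repCls_ae G) (hT.eq F.1 F.2 _ (repCls_ae F)),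
      rep_inner (hS.eq G.1 G.2 _ (repCls_ae G)) (repCls_ae F), rep_norm (repCls_ae F),
      rep_norm (repCls_ae G)]
    have h2 := h F.1 G.1 F.2 G.2
    have e1 : ∫ x, G.1 x * P F.1 x = ∫ x, P F.1 x * G.1 x := by congr 1; ext x; ring
    have e2 : ∫ x, Q G.1 x * F.1 x = ∫ x, F.1 x * Q G.1 x := by congr 1; ext x; ring
    rw [e1, e2]
    exact h2
  have key2 : ∀ (G : repSub) (f : L2), |⟪D (repCls G), f⟫| ≤ B * ‖f‖ * ‖repCls G‖ := by
    intro G f
    refine repCls_dense.induction_on (p := fun f => |⟪D (repCls G), f⟫| ≤ B * ‖f‖ * ‖repCls G‖) f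
      ?_ (fun F => key F G)
    apply isClosed_le
    · exact (continuous_const.inner continuous_id).abs
    · exact (continuous_const.mul continuous_norm).mul continuous_const
  have key3 : ∀ (g f : L2), |⟪D g, f⟫| ≤ B * ‖f‖ * ‖g‖ := by
    intro g f
    refine repCls_dense.induction_on (p := fun g => |⟪D g, f⟫| ≤ B * ‖f‖ * ‖g‖) g
      ?_ (fun G => key2 G f)
    apply isClosed_le
    · exact (D.continuous.inner continuous_const).abs
    · exact continuous_const.mul continuous_norm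
  apply ContinuousLinearMap.opNorm_le_bound _ hB
  intro g
  have h3 := key3 g (D g)
  rw [real_inner_self_eq_norm_sq, abs_of_nonneg (by positivity)] at h3
  by_cases h0 : ‖D g‖ = 0
  · rw [h0]; (clear * - hB; positivity)
  · have hpos : 0 < ‖D g‖ := lt_of_le_of_ne (norm_nonneg _) (Ne.symm h0)
    have h4 : ‖D g‖ * ‖D g‖ ≤ ‖D g‖ * (B * ‖g‖) := by linarith only [h3]
    exact le_of_mul_le_mul_left h4 hpos

end Vale.Agent.P112
end

section

/-! Task P112-FT11b: `Ta` is an approximate adjoint of `Tp`. -/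

namespace Vale.Agent.P112

open MeasureTheory Filter Topology Set
open scoped ENNReal NNReal

variable {v : Plane → Plane} {L : ℝ}

/-- Cauchy–Schwarz for real functions -/
lemma adj_cs {F G : Plane → ℝ} (hF : MemLp F 2) (hG : MemLp G 2) :
    ∫ x, |F x| * |G x| ≤ √(∫ x, F x ^ 2) * √(∫ x, G x ^ 2) := by
  have h := integral_mul_le_Lp_mul_Lq_of_nonneg (μ := volume) Real.HolderConjugate.two_two
    (f := fun x => |F x|) (g := fun x => |G x|)
    (by filter_upwards with x; exact abs_nonneg _) (by filter_upwards with x; exact abs_nonneg _)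
    (by
      rw [show ENNReal.ofReal (2:ℝ) = 2 by norm_num]
      exact hF.abs)
    (by
      rw [show ENNReal.ofReal (2:ℝ) = 2 by norm_num]
      exact hG.abs)
  have e1 : ∀ H : Plane → ℝ, (∫ x, |H x| ^ (2:ℝ)) ^ (1 / (2:ℝ)) = √(∫ x, H x ^ 2) := by
    intro H
    rw [Real.sqrt_eq_rpow]
    congr 1
    congr 1
    ext x
    rw [Real.rpow_two, sq_abs]
  rw [e1, e1] at h
  exact h

/-- substitution `y = Phi v t x` -/
lemma adj_subst (hvl : LipschitzWith 1 v) {t : ℝ} (ht : |t| ≤ 1 / 8) {F G : Plane → ℝ}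
    (hF : CC F) (hG : CC G) :
    |(∫ x, F (x - t • v x) * G x) - ∫ x, F x * G (Psi v t x)| ≤
      16 * |t| * (√(∫ x, F x ^ 2) * √(∫ x, G x ^ 2)) := by
  have ht0 : 0 ≤ |t| := abs_nonneg t
  have ht4 : |t| ≤ 1 / 4 := by linarith
  set c : ℝ≥0 := |t|.toNNReal with hc
  have hcr : (c : ℝ) = |t| := Real.coe_toNNReal _ ht0
  have hSl : LipschitzWith c (fun x => (x - t • v x) - x) := by
    apply LipschitzWith.of_dist_le_mul
    intro x y
    rw [dist_eq_norm, dist_eq_norm, hcr]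
    exact pieces_lip_Tp hvl t x y
  have hc4 : c ≤ 1 / 4 := by
    rw [← NNReal.coe_le_coe, hcr]; exact_mod_cast ht4
  obtain ⟨R, hRS, hSR, hRl, J, hJm, hJ, hJl, hJi⟩ := change_var hc4 hSl
  have hRPsi : ∀ y, R y = Psi v t y := by
    intro y
    symm
    apply Psi_unique hvl ht4
    have := hSR y
    rw [sub_eq_iff_eq_add] at this
    exact this
  have hPc : Continuous (Psi v t) := (Psi_lip hvl t).continuous
  have hGP : CC (fun y => G (Psi v t y)) := by
    refine ⟨hG.1.comp hPc, ?_⟩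
    have h1 : Function.LeftInverse (fun x => x - t • v x) (Psi v t) := by
      intro y
      have := hSR y
      rwa [hRPsi] at this
    have hemb : IsClosedEmbedding (Psi v t) := by
      apply h1.isClosedEmbedding _ hPc
      have := hvl.continuous
      fun_prop
    exact hG.2.comp_isClosedEmbedding hemb
  have hFGc : Continuous (fun y => F y * G (Psi v t y)) := hF.1.mul hGP.1
  have hint : Integrable (fun y => F y * G (Psi v t y)) :=
    hFGc.integrable_of_hasCompactSupport hF.2.mul_right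
  have h1 : ∫ x, F (x - t • v x) * G x = ∫ y, J y * (F y * G (Psi v t y)) := by
    rw [← (hJi _ hint).2]
    congr 1
    ext x
    rw [← hRPsi, hRS]
  have hint3 : Integrable (fun y => J y * (F y * G (Psi v t y))) := by
    apply Integrable.bdd_mul (c := 3) hint hJm.aestronglyMeasurable
    filter_upwards with y
    rw [Real.norm_eq_abs]
    have h2 := hJ y
    have h3 := abs_sub_abs_le_abs_sub (J y) 1
    rw [abs_one] at h3
    rw [hcr] at h2
    linarith only [ht, h2, h3]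
  rw [h1, ← integral_sub hint3 hint]
  have hMF : MemLp F 2 := hF.1.memLp_of_hasCompactSupport hF.2
  have hMG : MemLp (fun y => G (Psi v t y)) 2 := hGP.1.memLp_of_hasCompactSupport hGP.2
  have hint4 : Integrable (fun y => |F y| * |G (Psi v t y)|) := by
    have := hint.abs
    simp_rw [abs_mul] at this
    exact this
  have hcs := adj_cs hMF hMG
  -- norm of the composition
  have hnorm : √(∫ x, G (Psi v t x) ^ 2) ≤ 2 * √(∫ x, G x ^ 2) := by
    have h4 : ∫ x, G (Psi v t x) ^ 2 ≤ 4 * ∫ x, G x ^ 2 := by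
      have hGi : Integrable (fun x => G x ^ 2) := by
        apply Continuous.integrable_of_hasCompactSupport (hG.1.pow 2)
        have := hG.2.mul_right (f' := G)
        simpa [sq] using this
      have hGPi : Integrable (fun x => G (Psi v t x) ^ 2) := by
        apply Continuous.integrable_of_hasCompactSupport (hGP.1.pow 2)
        have := hGP.2.mul_right (f' := fun y => G (Psi v t y))
        simpa [sq] using this
      have h5 := pieces_comp_Ta hvl ht (fun x => ENNReal.ofReal (G x ^ 2))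
        (hG.1.pow 2).measurable.ennreal_ofReal
      rw [← ofReal_integral_eq_lintegral_ofReal hGPi (by filter_upwards with x; (clear * -; positivity)),
        ← ofReal_integral_eq_lintegral_ofReal hGi (by filter_upwards with x; (clear * -; positivity))] at h5
      have h6 : (4 : ℝ≥0∞) * ENNReal.ofReal (∫ x, G x ^ 2) = ENNReal.ofReal (4 * ∫ x, G x ^ 2) := by
        rw [ENNReal.ofReal_mul (by norm_num)]; norm_num
      rw [h6] at h5
      have h7 : 0 ≤ ∫ x, G x ^ 2 := integral_nonneg (fun x => by (clear * -; positivity))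
      exact (ENNReal.ofReal_le_ofReal_iff (by (clear * -; positivity))).mp h5
    calc √(∫ x, G (Psi v t x) ^ 2) ≤ √(4 * ∫ x, G x ^ 2) := Real.sqrt_le_sqrt h4
      _ = 2 * √(∫ x, G x ^ 2) := by
        rw [Real.sqrt_mul (by norm_num), show (4:ℝ) = 2 ^ 2 by norm_num, Real.sqrt_sq (by norm_num)]
  calc |∫ y, J y * (F y * G (Psi v t y)) - F y * G (Psi v t y)|
      ≤ ∫ y, |J y * (F y * G (Psi v t y)) - F y * G (Psi v t y)| := abs_integral_le_integral_abs
    _ ≤ ∫ y, 8 * |t| * (|F y| * |G (Psi v t y)|) := by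
        apply integral_mono (hint3.sub hint).abs (hint4.const_mul _)
        intro y
        have e1 : J y * (F y * G (Psi v t y)) - F y * G (Psi v t y) =
            (J y - 1) * (F y * G (Psi v t y)) := by ring
        change |J y * (F y * G (Psi v t y)) - F y * G (Psi v t y)| ≤ _
        rw [e1, abs_mul, abs_mul]
        have := hJ y
        rw [hcr] at this
        exact mul_le_mul_of_nonneg_right this (by (clear * -; positivity))
    _ = 8 * |t| * ∫ y, |F y| * |G (Psi v t y)| := by rw [integral_const_mul]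
    _ ≤ 8 * |t| * (√(∫ x, F x ^ 2) * (2 * √(∫ x, G x ^ 2))) := by
        gcongr
        exact hcs.trans (mul_le_mul_of_nonneg_left hnorm (Real.sqrt_nonneg _))
    _ = _ := by ring

/-- `Ta` is an approximate adjoint of `Tp`. -/
theorem adjoint_approx (hvl : LipschitzWith 1 v) (hvu : ∀ x, ‖v x‖ = 1) (hL : 0 < L)
    (hL1 : L ≤ 1 / 64) {F G : Plane → ℝ} (hF : CC F) (hG : CC G) :
    |(∫ x, Tp v L F x * G x) - ∫ x, F x * Ta v L G x| ≤
      1000 * L * √(∫ x, F x ^ 2) * √(∫ x, G x ^ 2) := by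
  have hvc := hvl.continuous
  have hPc := continuous_Psi hvl hvu
  have hec := continuous_eta hL
  -- Fubini
  have i1 : Integrable (fun p : Plane × ℝ => eta L p.2 * F (p.1 - p.2 • v p.1) * G p.1) := by
    apply Continuous.integrable_of_hasCompactSupport
    · have h1 := hF.1
      have h2 := hG.1
      fun_prop
    · apply HasCompactSupport.intro (hG.2.isCompact.prod (isCompact_Icc (a := -L) (b := L)))
      intro p hp
      by_contra hne
      apply hp
      refine ⟨subset_tsupport G (right_ne_zero_of_mul hne), ?_⟩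
      have := eta_supp hL (left_ne_zero_of_mul (left_ne_zero_of_mul hne))
      exact abs_le.mp this.2.le
  have i2 : Integrable (fun p : Plane × ℝ => F p.1 * (eta L p.2 * G (Psi v p.2 p.1))) := by
    apply Continuous.integrable_of_hasCompactSupport
    · have h1 := hF.1
      have h2 := hG.1
      have h3 : Continuous (fun p : Plane × ℝ => Psi v p.2 p.1) := hPc.comp continuous_swap
      fun_prop
    · apply HasCompactSupport.intro (hF.2.isCompact.prod (isCompact_Icc (a := -L) (b := L)))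
      intro p hp
      by_contra hne
      apply hp
      refine ⟨subset_tsupport F (left_ne_zero_of_mul hne), ?_⟩
      have := eta_supp hL (left_ne_zero_of_mul (right_ne_zero_of_mul hne))
      exact abs_le.mp this.2.le
  have e1 : ∫ x, Tp v L F x * G x = ∫ t : ℝ, eta L t * ∫ x, F (x - t • v x) * G x := by
    have h1 : ∀ x, Tp v L F x * G x = ∫ t : ℝ, eta L t * F (x - t • v x) * G x := by
      intro x; unfold Tp; rw [integral_mul_const]
    simp_rw [h1]
    rw [integral_integral_swap (f := fun x t => eta L t * F (x - t • v x) * G x) i1]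
    congr 1
    ext t
    rw [← integral_const_mul]
    congr 1; ext x; ring
  have e2 : ∫ x, F x * Ta v L G x = ∫ t : ℝ, eta L t * ∫ x, F x * G (Psi v t x) := by
    have h1 : ∀ x, F x * Ta v L G x = ∫ t : ℝ, F x * (eta L t * G (Psi v t x)) := by
      intro x; unfold Ta; rw [integral_const_mul]
    simp_rw [h1]
    rw [integral_integral_swap (f := fun x t => F x * (eta L t * G (Psi v t x))) i2]
    congr 1
    ext t
    rw [← integral_const_mul]
    congr 1; ext x; ring
  have j1 : Integrable (fun t : ℝ => eta L t * ∫ x, F (x - t • v x) * G x) := by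
    have := i1.integral_prod_right
    refine this.congr ?_
    filter_upwards with t
    rw [← integral_const_mul]
    congr 1; ext x; ring
  have j2 : Integrable (fun t : ℝ => eta L t * ∫ x, F x * G (Psi v t x)) := by
    have := i2.integral_prod_right
    refine this.congr ?_
    filter_upwards with t
    rw [← integral_const_mul]
    congr 1; ext x; ring
  set N := √(∫ x, F x ^ 2) * √(∫ x, G x ^ 2) with hN
  have hN0 : 0 ≤ N := by (clear * -; positivity)
  rw [e1, e2, ← integral_sub j1 j2]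
  have hbound : ∀ t : ℝ, ‖eta L t * (∫ x, F (x - t • v x) * G x) -
      eta L t * ∫ x, F x * G (Psi v t x)‖ ≤
      (Icc (-L) L).indicator (fun _ => (64 * N : ℝ)) t := by
    intro t
    by_cases h0 : eta L t = 0
    · rw [h0]
      simp only [zero_mul, sub_zero, norm_zero]
      exact indicator_nonneg (fun _ _ => by (clear * -; positivity)) t
    · have ht := eta_supp hL h0
      have hmem : t ∈ Icc (-L) L := abs_le.mp ht.2.le
      rw [indicator_of_mem hmem, ← mul_sub, norm_mul, Real.norm_eq_abs, Real.norm_eq_abs]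
      have h3 := adj_subst hvl (t := t) (by linarith only [hL1, ht]) hF hG
      have h4 := eta_bound hL t
      calc |eta L t| * |(∫ x, F (x - t • v x) * G x) - ∫ x, F x * G (Psi v t x)|
          ≤ (4 / L) * (16 * L * N) := by
            apply mul_le_mul h4 (h3.trans _) (abs_nonneg _) (by positivity)
            rw [← hN]
            gcongr
            exact ht.2.le
        _ = 64 * N := by field_simp; ring
  have hgi : Integrable ((Icc (-L) L).indicator (fun _ => (64 * N : ℝ))) := by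
    rw [integrable_indicator_iff measurableSet_Icc]
    exact integrableOn_const (by simp only [Real.volume_Icc, sub_neg_eq_add, ne_eq, ENNReal.ofReal_ne_top, not_false_eq_true]) enorm_ne_top
  have h5 := norm_integral_le_of_norm_le hgi (Eventually.of_forall hbound)
  rw [Real.norm_eq_abs, integral_indicator measurableSet_Icc, setIntegral_const] at h5
  refine h5.trans ?_
  rw [Measure.real, Real.volume_Icc, ENNReal.toReal_ofReal (by linarith only [hL]), smul_eq_mul]
  calc (L - -L) * (64 * N) = 128 * L * N := by ring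
    _ ≤ 1000 * L * N := by gcongr; norm_num
    _ = _ := by rw [hN]; ring

end Vale.Agent.P112
end

section

/-! Assembly of the almost orthogonality argument (written by helper112). -/

namespace Vale.Agent.P112

open MeasureTheory Filter Topology Set
open scoped ENNReal NNReal

/-- The scale `2^{-l}`. -/
noncomputable def sc (l : ℕ) : ℝ := (1 / 2) ^ l

lemma sc_pos (l : ℕ) : 0 < sc l := by unfold sc; positivity

lemma sc_le {l : ℕ} (hl : 6 ≤ l) : sc l ≤ 1 / 64 := by
  unfold sc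
  calc (1 / 2 : ℝ) ^ l ≤ (1 / 2) ^ 6 := pow_le_pow_of_le_one (by norm_num) (by norm_num) hl
    _ = 1 / 64 := by norm_num

lemma sc_mono {l m : ℕ} (h : l ≤ m) : sc m ≤ sc l :=
  pow_le_pow_of_le_one (by norm_num) (by norm_num) h

lemma sc_div {l m : ℕ} (h : l ≤ m) : sc m / sc l = (1 / 2) ^ (m - l) := by
  unfold sc
  rw [div_eq_iff (by positivity), ← pow_add]
  congr 1; omega

/-- Existence of the operators. -/
lemma exists_Tp {v : Plane → Plane} (hvl : LipschitzWith 1 v) (hvu : ∀ x, ‖v x‖ = 1) {L : ℝ}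
    (hL : 0 < L) (hL1 : L ≤ 1 / 64) : ∃ T : L2 →L[ℝ] L2, Rep T (Tp v L) := by
  exact exists_rep _ (fun F hF => cc_Tp hvl hvu hL hF) (fun F G hF hG => Tp_add hvl hL hF hG)
    (fun c F _ => Tp_smul c F) 16 (by norm_num) (fun F hF => sqn_Tp_le hvl hvu hL hL1 hF)

lemma exists_Ta {v : Plane → Plane} (hvl : LipschitzWith 1 v) (hvu : ∀ x, ‖v x‖ = 1) {L : ℝ}
    (hL : 0 < L) (hL1 : L ≤ 1 / 64) : ∃ T : L2 →L[ℝ] L2, Rep T (Ta v L) := by
  exact exists_rep _ (fun F hF => cc_Ta hvl hvu hL hL1 hF) (fun F G hF hG => Ta_add hvl hvu hL hF hG)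
    (fun c F _ => Ta_smul c F) 16 (by norm_num) (fun F hF => sqn_Ta_le hvl hvu hL hL1 hF)

lemma exists_Tl {v : Plane → Plane} (hvl : LipschitzWith 1 v) (hvu : ∀ x, ‖v x‖ = 1) {L θ : ℝ}
    (hL : 0 < L) (hL1 : L ≤ 1 / 64) (hθ : 0 ≤ θ) (hθ1 : θ ≤ 1) :
    ∃ T : L2 →L[ℝ] L2, Rep T (Tl v θ L) := by
  exact exists_rep _ (fun F hF => cc_Tl hvl hvu hL hL1 hθ hθ1 hF)
    (fun F G hF hG => Tl_add hvl hL hF hG)
    (fun c F _ => Tl_smul c F) 16 (by norm_num) (fun F hF => sqn_Tl_le hvl hvu hL hL1 hθ hθ1 hF)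

/-- Abstract bookkeeping. -/
lemma abstract_offdiag {H : Type*} [NormedAddCommGroup H] [InnerProductSpace ℝ H] [CompleteSpace H]
    (T Sa Tl' Ta' : H →L[ℝ] H) (d A1 A2 A3 : ℝ) (hd : 0 ≤ d) (hA1 : 0 ≤ A1) (hA2 : 0 ≤ A2)
    (hA3 : 0 ≤ A3)
    (nTl : ‖Tl'‖ ≤ 16) (nSa : ‖Sa‖ ≤ 16) (b0 : ‖Sa - Ta'‖ ≤ 1000 * d)
    (b1 : ‖T - Tl'‖ ≤ A1 * d) (b2 : ‖Tl' ∘L Ta'‖ ≤ A2 * d) (b3 : ‖Ta' ∘L Tl'‖ ≤ A3 * d) :
    ‖T ∘L Sa‖ ≤ (16 * A1 + 16000 + A2 + A3) * d ∧ ‖Sa ∘L T‖ ≤ (16 * A1 + 16000 + A2 + A3) * d := by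
  constructor
  · have hdec : T ∘L Sa = (T - Tl') ∘L Sa + Tl' ∘L (Sa - Ta') + Tl' ∘L Ta' := by
      ext F; simp only [ContinuousLinearMap.comp_apply, ContinuousLinearMap.sub_comp, ContinuousLinearMap.comp_sub, sub_add_sub_cancel, sub_add_cancel]
    rw [hdec]
    have c1 := ContinuousLinearMap.opNorm_comp_le (T - Tl') Sa
    have c2 := ContinuousLinearMap.opNorm_comp_le Tl' (Sa - Ta')
    have c3 := norm_add_le ((T - Tl') ∘L Sa + Tl' ∘L (Sa - Ta')) (Tl' ∘L Ta')
    have c4 := norm_add_le ((T - Tl') ∘L Sa) (Tl' ∘L (Sa - Ta'))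
    have c5 : ‖T - Tl'‖ * ‖Sa‖ ≤ (A1 * d) * 16 := by gcongr
    have c6 : ‖Tl'‖ * ‖Sa - Ta'‖ ≤ 16 * (1000 * d) := by (clear * - nTl b0; gcongr)
    have : (0:ℝ) ≤ A3 * d := by (clear * - hA3 hd; positivity)
    linarith only [b2, c1, c2, c3, c4, c5, c6, this]
  · have hdec : Sa ∘L T = Sa ∘L (T - Tl') + (Sa - Ta') ∘L Tl' + Ta' ∘L Tl' := by
      ext F; simp only [ContinuousLinearMap.comp_apply, ContinuousLinearMap.comp_sub, ContinuousLinearMap.sub_comp, sub_add_sub_cancel, sub_add_cancel]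
    rw [hdec]
    have c1 := ContinuousLinearMap.opNorm_comp_le Sa (T - Tl')
    have c2 := ContinuousLinearMap.opNorm_comp_le (Sa - Ta') Tl'
    have c3 := norm_add_le (Sa ∘L (T - Tl') + (Sa - Ta') ∘L Tl') (Ta' ∘L Tl')
    have c4 := norm_add_le (Sa ∘L (T - Tl')) ((Sa - Ta') ∘L Tl')
    have c5 : ‖Sa‖ * ‖T - Tl'‖ ≤ 16 * (A1 * d) := by (clear * - nSa b1; gcongr)
    have c6 : ‖Sa - Ta'‖ * ‖Tl'‖ ≤ (1000 * d) * 16 := by (clear * - b0 nTl hd; gcongr)
    have : (0:ℝ) ≤ A2 * d := by positivity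
    linarith only [b3, c1, c2, c3, c4, c5, c6, this]

/-- Exponent bookkeeping. -/
lemma exponents {q β : ℝ} (hq0 : 0 < q) (hq1 : q ≤ 1) (hβ : 0 < β) (hβ1 : β ≤ 1) :
    (q ^ (β / 2)) ^ (β / 4) = q ^ (β ^ 2 / 8) ∧ q ≤ q ^ (β ^ 2 / 8) ∧
    q / q ^ (β / 2) ≤ q ^ (β ^ 2 / 8) ∧ q ^ β / q ^ (β / 2) ≤ q ^ (β ^ 2 / 8) := by
  refine ⟨?_, ?_, ?_, ?_⟩
  · rw [← Real.rpow_mul hq0.le]; congr 1; ring
  · calc q = q ^ (1 : ℝ) := (Real.rpow_one q).symm
      _ ≤ _ := Real.rpow_le_rpow_of_exponent_ge hq0 hq1 (by nlinarith only [hβ, hβ1])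
  · calc q / q ^ (β / 2) = q ^ (1 - β / 2) := by
          rw [Real.rpow_sub hq0, Real.rpow_one]
      _ ≤ _ := Real.rpow_le_rpow_of_exponent_ge hq0 hq1 (by nlinarith only [hβ, hβ1])
  · calc q ^ β / q ^ (β / 2) = q ^ (β - β / 2) := by rw [Real.rpow_sub hq0]
      _ ≤ _ := Real.rpow_le_rpow_of_exponent_ge hq0 hq1 (by nlinarith)

lemma sub_bound {T Tl' : L2 →L[ℝ] L2} {P Q : (Plane → ℝ) → (Plane → ℝ)} (hT : Rep T P)
    (hTl : Rep Tl' Q) {B : ℝ} (hB : 0 ≤ B)
    (h : ∀ F, CC F → sqn (fun x => P F x - Q F x) ≤ ENNReal.ofReal (B ^ 2) * sqn F) :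
    ‖T - Tl'‖ ≤ B :=
  (hT.sub hTl).norm_le hB h

lemma comp_bound {T Tl' : L2 →L[ℝ] L2} {P Q : (Plane → ℝ) → (Plane → ℝ)} (hT : Rep T P)
    (hTl : Rep Tl' Q) {B : ℝ} (hB : 0 ≤ B)
    (h : ∀ F, CC F → sqn (P (Q F)) ≤ ENNReal.ofReal (B ^ 2) * sqn F) :
    ‖T ∘L Tl'‖ ≤ B :=
  (hT.comp hTl).norm_le hB h

lemma norm_adj (S : L2 →L[ℝ] L2) : ‖ContinuousLinearMap.adjoint S‖ = ‖S‖ :=
  LinearIsometryEquiv.norm_map _ _

/-- Off diagonal decay at the level of `L²` operators, before choosing the parameters. -/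
lemma offdiag_aux {C₁ β A1 A2 A3 : ℝ} (hA1 : 0 < A1) (hA2 : 0 < A2) (hA3 : 0 < A3) (hβ : 0 < β)
    (hβ1 : β ≤ 1) {v : Plane → Plane} (hvl : LipschitzWith 1 v) (hvu : ∀ x, ‖v x‖ = 1) {L M : ℝ}
    (hM : 0 < M) (hML : M ≤ L) (hL1 : L ≤ 1 / 64) (hG : ∀ x, Good v L C₁ β x)
    (h1 : ∀ (L θ : ℝ), 0 < L →
      L ≤ 1 / 64 → 0 < θ → θ ≤ 1 → (∀ x, Good v L C₁ β x) → ∀ F, CC F →
      sqn (fun x => Tp v L F x - Tl v θ L F x) ≤ ENNReal.ofReal ((A1 * θ ^ (β / 4)) ^ 2) * sqn F)
    (h2 : ∀ (L M θ : ℝ), 0 < M → M ≤ L → L ≤ 1 / 64 → 0 < θ →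
      θ ≤ 1 → (∀ x, Good v L C₁ β x) → ∀ F, CC F →
      sqn (Tl v θ L (Ta v M F)) ≤ ENNReal.ofReal ((A2 * (M / L / θ)) ^ 2) * sqn F)
    (h3 : ∀ (L M θ : ℝ), 0 < M → M ≤ L →
      L ≤ 1 / 64 → 0 < θ → θ ≤ 1 → (∀ x, Good v L C₁ β x) → ∀ F, CC F →
      sqn (Ta v M (Tl v θ L F)) ≤ ENNReal.ofReal ((A3 * ((M / L) ^ β / θ)) ^ 2) * sqn F)
    {T S : L2 →L[ℝ] L2} (hT : Rep T (Tp v L)) (hS : Rep S (Tp v M)) {Ta' Tl' : L2 →L[ℝ] L2}
    (hTa : Rep Ta' (Ta v M)) (hTl : Rep Tl' (Tl v ((M / L) ^ (β / 2)) L)) :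
    ‖T ∘L ContinuousLinearMap.adjoint S‖ ≤
      (16 * A1 + 16000 + A2 + A3) * (M / L) ^ (β ^ 2 / 8) ∧
    ‖ContinuousLinearMap.adjoint S ∘L T‖ ≤
      (16 * A1 + 16000 + A2 + A3) * (M / L) ^ (β ^ 2 / 8) := by
  have hL : 0 < L := hM.trans_le hML
  have hM1 : M ≤ 1 / 64 := hML.trans hL1
  have hq0 : 0 < M / L := by (clear * - hM hL; positivity)
  have hq1 : M / L ≤ 1 := by rw [div_le_one hL]; exact hML
  have hθ0 : 0 < (M / L) ^ (β / 2) := Real.rpow_pos_of_pos hq0 _
  have hθ1 : (M / L) ^ (β / 2) ≤ 1 := Real.rpow_le_one hq0.le hq1 (by positivity)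
  have hd0 : 0 < (M / L) ^ (β ^ 2 / 8) := Real.rpow_pos_of_pos hq0 _
  have pp := exponents hq0 hq1 hβ hβ1
  have p1 := pp.1
  have p0 := pp.2.1
  have p2 := pp.2.2.1
  have p3 := pp.2.2.2
  have n1 : ‖Tl'‖ ≤ 16 :=
    hTl.norm_le (by norm_num) (fun F hF => sqn_Tl_le hvl hvu hL hL1 hθ0.le hθ1 hF)
  have n2 : ‖ContinuousLinearMap.adjoint S‖ ≤ 16 := by
    rw [norm_adj]
    exact hS.norm_le (by norm_num) (fun F hF => sqn_Tp_le hvl hvu hM hM1 hF)
  have e0 : ‖ContinuousLinearMap.adjoint S - Ta'‖ ≤ 1000 * M :=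
    hS.adjoint_sub_le hTa (by positivity)
      (fun F G hF hG => adjoint_approx hvl hvu hM hM1 hF hG)
  have n3 : ‖ContinuousLinearMap.adjoint S - Ta'‖ ≤ 1000 * (M / L) ^ (β ^ 2 / 8) := by
    have h4 : M ≤ M / L := by
      rw [le_div_iff₀ hL]; exact mul_le_of_le_one_right hM.le (hL1.trans (by norm_num))
    exact e0.trans (mul_le_mul_of_nonneg_left (h4.trans p0) (by norm_num))
  have n4 : ‖T - Tl'‖ ≤ A1 * (M / L) ^ (β ^ 2 / 8) := by
    rw [← p1]
    exact sub_bound hT hTl (by positivity) (fun F hF => h1 L _ hL hL1 hθ0 hθ1 hG F hF)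
  have n5 : ‖Tl' ∘L Ta'‖ ≤ A2 * (M / L) ^ (β ^ 2 / 8) :=
    (comp_bound hTl hTa (by (clear * - hA2 hM hL; positivity))
      (fun F hF => h2 L M _ hM hML hL1 hθ0 hθ1 hG F hF)).trans
      (mul_le_mul_of_nonneg_left p2 hA2.le)
  have n6 : ‖Ta' ∘L Tl'‖ ≤ A3 * (M / L) ^ (β ^ 2 / 8) :=
    (comp_bound hTa hTl (by (clear * - hA3 hM hL; positivity))
      (fun F hF => h3 L M _ hM hML hL1 hθ0 hθ1 hG F hF)).trans
      (mul_le_mul_of_nonneg_left p3 hA3.le)
  exact abstract_offdiag T (ContinuousLinearMap.adjoint S) Tl' Ta' _ A1 A2 A3 hd0.le hA1.le hA2.le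
    hA3.le n1 n2 n3 n4 n5 n6

/-- Off diagonal decay at the level of `L²` operators. -/
theorem offdiag (C₁ β : ℝ) (hC₁ : 1 ≤ C₁) (hβ : 0 < β) (hβ1 : β ≤ 1) : ∃ C : ℝ, 0 < C ∧
    ∀ (v : Plane → Plane), LipschitzWith 1 v → (∀ x, ‖v x‖ = 1) →
    ∀ (L M : ℝ), 0 < M → M ≤ L → L ≤ 1 / 64 → (∀ x, Good v L C₁ β x) →
    ∀ T S : L2 →L[ℝ] L2, Rep T (Tp v L) → Rep S (Tp v M) →
    ‖T ∘L ContinuousLinearMap.adjoint S‖ ≤ C * (M / L) ^ (β ^ 2 / 8) ∧
    ‖ContinuousLinearMap.adjoint S ∘L T‖ ≤ C * (M / L) ^ (β ^ 2 / 8) := by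
  refine (E1_bound C₁ β hC₁ hβ hβ1).elim fun A1 hh1 => ?_
  refine (E2_bound C₁ β hC₁).elim fun A2 hh2 => ?_
  refine (E3_bound C₁ β hC₁ hβ hβ1).elim fun A3 hh3 => ?_
  have hA1 := hh1.1
  have h1 := hh1.2
  have hA2 := hh2.1
  have h2 := hh2.2
  have hA3 := hh3.1
  have h3 := hh3.2
  refine ⟨16 * A1 + 16000 + A2 + A3, by (clear * - hA1 hA2 hA3; positivity), ?_⟩
  intro v hvl hvu L M hM hML hL1 hG T S hT hS
  have hL : 0 < L := hM.trans_le hML
  have hq0 : 0 < M / L := by (clear * - hM hL; positivity)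
  have hq1 : M / L ≤ 1 := by rw [div_le_one hL]; exact hML
  exact (exists_Ta hvl hvu hM (hML.trans hL1)).elim fun Ta' hTa =>
    (exists_Tl (L := L) hvl hvu hL hL1 (Real.rpow_pos_of_pos hq0 (β / 2)).le
      (Real.rpow_le_one hq0.le hq1 (by positivity))).elim fun Tl' hTl =>
    offdiag_aux hA1 hA2 hA3 hβ hβ1 hvl hvu hM hML hL1 hG (h1 v hvl hvu) (h2 v hvl hvu)
      (h3 v hvl hvu) hT hS hTa hTl

end Vale.Agent.P112
end

section

/-! The uniform `L²` bound for the partial sums (written by helper112). -/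

namespace Vale.Agent.P112

open MeasureTheory Filter Topology Set
open scoped ENNReal NNReal

lemma sum_pow_dist_le {ρ : ℝ} (h0 : 0 ≤ ρ) (h1 : ρ < 1) (i n : ℕ) :
    ∑ j ∈ Finset.range n, ρ ^ (Nat.dist i j) ≤ 2 / (1 - ρ) := by
  have hsplit : ∑ j ∈ Finset.range n, ρ ^ (Nat.dist i j) ≤
      ∑ j ∈ Finset.range (i + n), ρ ^ (Nat.dist i j) :=
    Finset.sum_le_sum_of_subset_of_nonneg (by
      intro j hj; rw [Finset.mem_range] at hj ⊢; omega) (fun _ _ _ => by positivity)
  have h2 : ∑ j ∈ Finset.range (i + n), ρ ^ (Nat.dist i j) =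
      ∑ j ∈ Finset.range i, ρ ^ (Nat.dist i j) + ∑ j ∈ Finset.range n, ρ ^ (Nat.dist i (i + j)) :=
    Finset.sum_range_add _ _ _
  have hgeo : ∀ m : ℕ, ∑ j ∈ Finset.range m, ρ ^ j ≤ 1 / (1 - ρ) := by
    intro m
    have := Summable.sum_le_tsum (Finset.range m) (fun j _ => pow_nonneg h0 j)
      (summable_geometric_of_lt_one h0 h1)
    rw [tsum_geometric_of_lt_one h0 h1] at this
    rw [one_div]; exact this
  have h3 : ∑ j ∈ Finset.range n, ρ ^ (Nat.dist i (i + j)) ≤ 1 / (1 - ρ) := by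
    have : ∀ j ∈ Finset.range n, ρ ^ (Nat.dist i (i + j)) = ρ ^ j := by
      intro j _
      rw [Nat.dist_eq_sub_of_le (Nat.le_add_right i j)]; congr 1; omega
    rw [Finset.sum_congr rfl this]; exact hgeo n
  have h4 : ∑ j ∈ Finset.range i, ρ ^ (Nat.dist i j) ≤ 1 / (1 - ρ) := by
    have : ∀ j ∈ Finset.range i, ρ ^ (Nat.dist i j) ≤ ρ ^ (i - 1 - j) := by
      intro j hj
      rw [Finset.mem_range] at hj
      rw [Nat.dist_eq_sub_of_le_right hj.le]
      apply pow_le_pow_of_le_one h0 h1.le; omega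
    refine (Finset.sum_le_sum this).trans ?_
    rw [Finset.sum_range_reflect (fun j => ρ ^ j) i]
    exact hgeo i
  calc _ ≤ _ := hsplit
    _ = _ := h2
    _ ≤ 1 / (1 - ρ) + 1 / (1 - ρ) := add_le_add h4 h3
    _ = 2 / (1 - ρ) := by ring

lemma norm_comp_adj {H : Type*} [NormedAddCommGroup H] [InnerProductSpace ℝ H] [CompleteSpace H]
    (U V : H →L[ℝ] H) : ‖U ∘L ContinuousLinearMap.adjoint V‖ = ‖V ∘L ContinuousLinearMap.adjoint U‖ := by
  have h : V ∘L ContinuousLinearMap.adjoint U =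
      ContinuousLinearMap.adjoint (U ∘L ContinuousLinearMap.adjoint V) := by
    rw [ContinuousLinearMap.adjoint_comp, ContinuousLinearMap.adjoint_adjoint]
  rw [h, LinearIsometryEquiv.norm_map]

lemma norm_adj_comp {H : Type*} [NormedAddCommGroup H] [InnerProductSpace ℝ H] [CompleteSpace H]
    (U V : H →L[ℝ] H) : ‖ContinuousLinearMap.adjoint U ∘L V‖ = ‖ContinuousLinearMap.adjoint V ∘L U‖ := by
  have h : ContinuousLinearMap.adjoint V ∘L U =
      ContinuousLinearMap.adjoint (ContinuousLinearMap.adjoint U ∘L V) := by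
    rw [ContinuousLinearMap.adjoint_comp, ContinuousLinearMap.adjoint_adjoint]
  rw [h, LinearIsometryEquiv.norm_map]

/-- Cotlar–Stein with exponential decay. -/
lemma cotlar_exp {H : Type*} [NormedAddCommGroup H] [InnerProductSpace ℝ H] [CompleteSpace H]
    (n : ℕ) (T : ℕ → H →L[ℝ] H) {A ρ : ℝ} (hρ0 : 0 ≤ ρ) (hρ1 : ρ < 1)
    (key : ∀ l m : ℕ, l ≤ m →
      ‖T l ∘L ContinuousLinearMap.adjoint (T m)‖ ≤ (√A * ρ ^ (Nat.dist l m)) ^ 2 ∧
      ‖ContinuousLinearMap.adjoint (T m) ∘L T l‖ ≤ (√A * ρ ^ (Nat.dist l m)) ^ 2) :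
    ‖∑ i ∈ Finset.range n, T i‖ ≤ √A * (2 / (1 - ρ)) := by
  apply cotlar_stein (Finset.range n) T (fun i j => √A * ρ ^ (Nat.dist i j))
  · intro i j; positivity
  · exact mul_nonneg (Real.sqrt_nonneg _) (div_nonneg zero_le_two (by linarith))
  · intro i _ j _
    rcases le_total i j with hij | hij
    · have h7 := (key i j hij).2
      rw [norm_adj_comp]
      exact h7
    · have h7 := (key j i hij).2
      rw [Nat.dist_comm] at h7
      exact h7
  · intro i _ j _
    rcases le_total i j with hij | hij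
    · exact (key i j hij).1
    · have h7 := (key j i hij).1
      rw [norm_comp_adj, Nat.dist_comm] at h7
      exact h7
  · intro i _
    rw [← Finset.mul_sum]
    exact mul_le_mul_of_nonneg_left (sum_pow_dist_le hρ0 hρ1 i n) (Real.sqrt_nonneg _)

lemma decay_eq {A β : ℝ} (hA0 : 0 ≤ A) {l0 l m : ℕ} (hlm : l ≤ m) :
    A * (sc (l0 + m) / sc (l0 + l)) ^ (β ^ 2 / 8) =
      (√A * ((1 / 2 : ℝ) ^ (β ^ 2 / 16)) ^ (Nat.dist l m)) ^ 2 := by
  rw [sc_div (by omega), mul_pow, Real.sq_sqrt hA0, Nat.dist_eq_sub_of_le hlm,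
    show l0 + m - (l0 + l) = m - l by omega]
  congr 1
  set k := m - l with hk
  have h1 : ((1 / 2 : ℝ) ^ k) ^ (β ^ 2 / 8) = (1 / 2 : ℝ) ^ ((k : ℝ) * (β ^ 2 / 8)) := by
    rw [← Real.rpow_natCast, ← Real.rpow_mul (by norm_num)]
  have h2 : ((((1 / 2 : ℝ) ^ (β ^ 2 / 16)) ^ k) ^ 2 : ℝ) =
      (1 / 2 : ℝ) ^ ((β ^ 2 / 16) * (k : ℝ) * 2) := by
    rw [Real.rpow_mul (by norm_num), Real.rpow_mul (by norm_num), Real.rpow_natCast]
    norm_cast
  rw [h1, h2]
  congr 1
  ring

lemma sum_bound_aux {β A C₁ : ℝ} (hβ : 0 < β)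
    {v : Plane → Plane} (hA0 : 0 < A)
    (hA2 : ∀ (L M : ℝ), 0 < M → M ≤ L → L ≤ 1 / 64 → (∀ x, Good v L C₁ β x) →
      ∀ T S : L2 →L[ℝ] L2, Rep T (Tp v L) → Rep S (Tp v M) →
      ‖T ∘L ContinuousLinearMap.adjoint S‖ ≤ A * (M / L) ^ (β ^ 2 / 8) ∧
      ‖ContinuousLinearMap.adjoint S ∘L T‖ ≤ A * (M / L) ^ (β ^ 2 / 8))
    {l0 n : ℕ} (hl0 : 6 ≤ l0) (hgood : ∀ l x, Good v (sc (l0 + l)) C₁ β x)
    {T : ℕ → L2 →L[ℝ] L2} (hT : ∀ l, Rep (T l) (Tp v (sc (l0 + l)))) (F : Plane → ℝ) (hF : CC F) :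
    sqn (∑ l ∈ Finset.range n, Tp v (sc (l0 + l)) F) ≤
      ENNReal.ofReal ((√A * (2 / (1 - (1 / 2 : ℝ) ^ (β ^ 2 / 16)))) ^ 2) * sqn F := by
  have hρ0 : 0 < (1 / 2 : ℝ) ^ (β ^ 2 / 16) := by positivity
  have hρ1 : (1 / 2 : ℝ) ^ (β ^ 2 / 16) < 1 :=
    Real.rpow_lt_one (by norm_num) (by norm_num) (by positivity)
  have key : ∀ l m : ℕ, l ≤ m →
      ‖T l ∘L ContinuousLinearMap.adjoint (T m)‖ ≤
        (√A * ((1 / 2 : ℝ) ^ (β ^ 2 / 16)) ^ (Nat.dist l m)) ^ 2 ∧
      ‖ContinuousLinearMap.adjoint (T m) ∘L T l‖ ≤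
        (√A * ((1 / 2 : ℝ) ^ (β ^ 2 / 16)) ^ (Nat.dist l m)) ^ 2 := by
    intro l m hlm
    rw [← decay_eq (l0 := l0) hA0.le hlm]
    exact hA2 (sc (l0 + l)) (sc (l0 + m)) (sc_pos _) (sc_mono (by omega))
      (sc_le (by omega)) (hgood l) (T l) (T m) (hT l) (hT m)
  exact (Rep.sum (Finset.range n) (fun i _ => hT i)).sqn_le
    (cotlar_exp n T hρ0.le hρ1 key) hF

theorem sum_bound (K β : ℝ) (hK : 1 ≤ K) (hβ : 0 < β) (hβ1 : β ≤ 1) : ∃ C : ℝ, 0 < C ∧
    ∀ (v : Plane → Plane), LipschitzWith 1 v → (∀ x, ‖v x‖ = 1) → FiniteType v K β →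
    ∀ l0 n : ℕ, 6 ≤ l0 → ∀ F, CC F →
    sqn (∑ l ∈ Finset.range n, Tp v (sc (l0 + l)) F) ≤
      ENNReal.ofReal (C ^ 2) * sqn F := by
  refine (good_of_finiteType K β hK hβ hβ1).elim fun C₁ hg => ?_
  refine (offdiag C₁ β hg.1 hβ hβ1).elim fun A hA => ?_
  have hρ1 : (1 / 2 : ℝ) ^ (β ^ 2 / 16) < 1 :=
    Real.rpow_lt_one (by norm_num) (by norm_num) (by positivity)
  have hA0 := hA.1
  refine ⟨√A * (2 / (1 - (1 / 2 : ℝ) ^ (β ^ 2 / 16))), ?_, ?_⟩
  · have : 0 < 1 - (1 / 2 : ℝ) ^ (β ^ 2 / 16) := by linarith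
    positivity
  intro v hvl hvu hft l0 n hl0 F hF
  have hgood : ∀ l x, Good v (sc (l0 + l)) C₁ β x := fun l x =>
    hg.2 v hvl hvu hft _ (sc_pos _) ((sc_le (l := l0 + l) (by omega)).trans (by norm_num)) x
  exact sum_bound_aux (T := fun l => (exists_Tp hvl hvu (sc_pos (l0 + l)) (sc_le (by omega))).choose)
    hβ hA0 (hA.2 v hvl hvu) hl0 hgood
    (fun l => (exists_Tp hvl hvu (sc_pos (l0 + l)) (sc_le (by omega))).choose_spec) F hF

end Vale.Agent.P112
end

section

/-! Task P112-FT20: removing the compact support. -/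

namespace Vale.Agent.P112

open MeasureTheory Filter Topology Set
open scoped ENNReal NNReal

/-- cutoff equal to one on the ball of radius `k` -/
noncomputable def extc (k : ℕ) (x : Plane) : ℝ := max 0 (min 1 (k + 1 - ‖x‖))

lemma extc_continuous (k : ℕ) : Continuous (extc k) := by
  unfold extc; fun_prop

lemma extc_nonneg (k : ℕ) (x : Plane) : 0 ≤ extc k x := le_max_left _ _

lemma extc_le_one (k : ℕ) (x : Plane) : extc k x ≤ 1 :=
  max_le zero_le_one (min_le_left _ _)

lemma extc_eq_one {k : ℕ} {x : Plane} (h : ‖x‖ ≤ k) : extc k x = 1 := by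
  unfold extc
  rw [min_eq_left (by linarith), max_eq_right zero_le_one]

lemma extc_eq_zero {k : ℕ} {x : Plane} (h : (k : ℝ) + 1 ≤ ‖x‖) : extc k x = 0 := by
  unfold extc
  exact max_eq_left ((min_le_right _ _).trans (by linarith))

lemma ext_cc {F : Plane → ℝ} (hF : Continuous F) (k : ℕ) : CC (fun x => extc k x * F x) := by
  refine ⟨(extc_continuous k).mul hF, ?_⟩
  apply HasCompactSupport.intro (isCompact_closedBall (0 : Plane) (k + 1))
  intro x hx
  rw [Metric.mem_closedBall, dist_zero_right, not_le] at hx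
  rw [extc_eq_zero hx.le, zero_mul]

lemma ext_sqn_le (F : Plane → ℝ) (k : ℕ) : sqn (fun x => extc k x * F x) ≤ sqn F := by
  unfold sqn
  apply lintegral_mono
  intro x
  dsimp only
  gcongr
  rw [enorm_mul]
  calc ‖extc k x‖ₑ * ‖F x‖ₑ ≤ 1 * ‖F x‖ₑ := by
        gcongr
        rw [Real.enorm_eq_ofReal (extc_nonneg k x)]
        exact ENNReal.ofReal_le_one.mpr (extc_le_one k x)
    _ = ‖F x‖ₑ := one_mul _

lemma ext_Tp_eq {v : Plane → Plane} (hvu : ∀ x, ‖v x‖ = 1) {L : ℝ} (hL : 0 < L) (hL1 : L ≤ 1)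
    (F : Plane → ℝ) {k : ℕ} {x : Plane} (hk : ‖x‖ + 1 ≤ k) :
    Tp v L (fun x => extc k x * F x) x = Tp v L F x := by
  unfold Tp
  congr 1
  ext t
  by_cases ht : eta L t = 0
  · rw [ht, zero_mul, zero_mul]
  · have h1 := (eta_supp hL ht).2
    have h2 : ‖x - t • v x‖ ≤ k := by
      calc ‖x - t • v x‖ ≤ ‖x‖ + ‖t • v x‖ := norm_sub_le _ _
        _ = ‖x‖ + |t| := by rw [norm_smul, hvu, mul_one, Real.norm_eq_abs]
        _ ≤ k := by linarith
    dsimp only
    rw [extc_eq_one h2, one_mul]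

theorem sqn_ext {v : Plane → Plane} (hvl : LipschitzWith 1 v) (hvu : ∀ x, ‖v x‖ = 1) {l0 n : ℕ}
    (hl0 : 6 ≤ l0) (C : ℝ≥0∞) (h : ∀ F, CC F →
      sqn (∑ l ∈ Finset.range n, Tp v (sc (l0 + l)) F) ≤ C * sqn F)
    (F : Plane → ℝ) (hF : Continuous F) :
    sqn (∑ l ∈ Finset.range n, Tp v (sc (l0 + l)) F) ≤ C * sqn F := by
  set g : ℕ → Plane → ℝ := fun k => ∑ l ∈ Finset.range n, Tp v (sc (l0 + l))
    (fun x => extc k x * F x) with hg
  set S : Plane → ℝ := ∑ l ∈ Finset.range n, Tp v (sc (l0 + l)) F with hS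
  have hgb : ∀ k, sqn (g k) ≤ C * sqn F := fun k =>
    (h _ (ext_cc hF k)).trans (mul_le_mul_right (ext_sqn_le F k) _)
  have heq : ∀ x, ∀ᶠ k : ℕ in atTop, g k x = S x := by
    intro x
    filter_upwards [eventually_ge_atTop (⌈‖x‖ + 1⌉₊)] with k hk
    have hk' : ‖x‖ + 1 ≤ k := (Nat.le_ceil _).trans (by exact_mod_cast hk)
    have e1 : g k x = ∑ l ∈ Finset.range n, Tp v (sc (l0 + l)) (fun x => extc k x * F x) x :=
      Finset.sum_apply _ _ _
    have e2 : S x = ∑ l ∈ Finset.range n, Tp v (sc (l0 + l)) F x := Finset.sum_apply _ _ _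
    rw [e1, e2]
    apply Finset.sum_congr rfl
    intro l _
    exact ext_Tp_eq hvu (sc_pos _) ((sc_le (by omega)).trans (by norm_num)) F hk'
  have hmeas : ∀ k, Measurable (g k) := by
    intro k
    have e1 : g k = fun x => ∑ l ∈ Finset.range n, Tp v (sc (l0 + l)) (fun x => extc k x * F x) x := by
      ext x
      exact Finset.sum_apply _ _ _
    rw [e1]
    apply Finset.measurable_sum
    intro l _
    exact (cc_Tp hvl hvu (sc_pos _) (ext_cc hF k)).1.measurable
  unfold sqn at hgb ⊢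
  calc ∫⁻ x, ‖S x‖ₑ ^ 2 = ∫⁻ x, liminf (fun k => ‖g k x‖ₑ ^ 2) atTop := by
        congr 1
        ext x
        have h6 : Tendsto (fun k => ‖g k x‖ₑ ^ 2) atTop (𝓝 (‖S x‖ₑ ^ 2)) := by
          apply tendsto_const_nhds.congr'
          filter_upwards [heq x] with k hk
          rw [hk]
        exact h6.liminf_eq.symm
    _ ≤ liminf (fun k => ∫⁻ x, ‖g k x‖ₑ ^ 2) atTop :=
        lintegral_liminf_le (fun k => (hmeas k).enorm.pow_const 2)
    _ ≤ C * ∫⁻ x, ‖F x‖ₑ ^ 2 := by
        apply liminf_le_of_frequently_le'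
        exact Frequently.of_forall hgb

end Vale.Agent.P112
end

section

/-! Task P112-FT21: the tail between the truncation and the smooth cutoff. -/

namespace Vale.Agent.P112

open MeasureTheory Filter Topology Set
open scoped ENNReal NNReal

/-- The difference of the sharp truncation at `a` and the smooth one at `2^{-l0}`. -/
noncomputable def tailw (l0 : ℕ) (a t : ℝ) : ℝ :=
  ({t : ℝ | |t| < a}.indicator (fun _ => (1 : ℝ)) t - chi (2 ^ l0 * t)) / t

/-- weight for the Minkowski inequality -/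
noncomputable def tailq (t : ℝ) : ℝ≥0∞ := ENNReal.ofReal (√(1 - |t|))

lemma measurable_tailq : Measurable tailq := by
  unfold tailq
  exact ENNReal.measurable_ofReal.comp (by fun_prop)

lemma tailq_sq (t : ℝ) (ht : |t| < 1) : tailq t ^ 2 = ENNReal.ofReal (1 - |t|) := by
  unfold tailq
  rw [← ENNReal.ofReal_pow (Real.sqrt_nonneg _), Real.sq_sqrt (by linarith)]

lemma tailq_ne_zero {t : ℝ} (ht : |t| < 1) : tailq t ≠ 0 := by
  unfold tailq
  rw [ne_eq, ENNReal.ofReal_eq_zero, not_le]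
  exact Real.sqrt_pos.mpr (by linarith)

lemma tailq_ne_top (t : ℝ) : tailq t ≠ ⊤ := ENNReal.ofReal_ne_top

lemma tail_cs {v : Plane → Plane} (w : ℝ → ℝ≥0∞) (hw : Measurable w)
    (hs : ∀ t, 1 ≤ |t| → w t = 0) (F : Plane → ℝ≥0∞) (hF : Measurable F) (x : Plane) :
    (∫⁻ t, w t * F (x - t • v x)) ^ 2 ≤ (∫⁻ t, w t * (tailq t)⁻¹) *
      ∫⁻ t, w t * (tailq t)⁻¹ * (tailq t * F (x - t • v x)) ^ 2 := by
  have h1 : ∀ t, w t * F (x - t • v x) = (w t * (tailq t)⁻¹) * (tailq t * F (x - t • v x)) := by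
    intro t
    by_cases ht : |t| < 1
    · rw [mul_assoc, ← mul_assoc (tailq t)⁻¹, ENNReal.inv_mul_cancel (tailq_ne_zero ht)
        (tailq_ne_top t), one_mul]
    · rw [hs t (not_lt.mp ht)]; simp
  rw [lintegral_congr h1]
  exact avg_cs volume _ _ (hw.mul measurable_tailq.inv)
    (measurable_tailq.mul (hF.comp (by fun_prop)))

lemma tail_minkowski {v : Plane → Plane} (hvl : LipschitzWith 1 v) (hvu : ∀ x, ‖v x‖ = 1)
    (w : ℝ → ℝ≥0∞) (hw : Measurable w) (hs : ∀ t, 1 ≤ |t| → w t = 0) (F : Plane → ℝ≥0∞)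
    (hF : Measurable F) :
    ∫⁻ x, (∫⁻ t, w t * F (x - t • v x)) ^ 2 ≤
      (∫⁻ t, w t * (tailq t)⁻¹) ^ 2 * ∫⁻ x, F x ^ 2 := by
  have hvc : Continuous v := hvl.continuous
  have hm : Measurable (fun p : Plane × ℝ =>
      w p.2 * (tailq p.2)⁻¹ * (tailq p.2 * F (p.1 - p.2 • v p.1)) ^ 2) := by
    have h1 : Measurable (fun p : Plane × ℝ => F (p.1 - p.2 • v p.1)) :=
      hF.comp (Continuous.measurable (by fun_prop))
    have h2 : Measurable (fun p : Plane × ℝ => tailq p.2) := measurable_tailq.comp measurable_snd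
    exact ((hw.comp measurable_snd).mul h2.inv).mul ((h2.mul h1).pow_const 2)
  calc ∫⁻ x, (∫⁻ t, w t * F (x - t • v x)) ^ 2
      ≤ ∫⁻ x, (∫⁻ t, w t * (tailq t)⁻¹) *
          ∫⁻ t, w t * (tailq t)⁻¹ * (tailq t * F (x - t • v x)) ^ 2 :=
        lintegral_mono (fun x => tail_cs w hw hs F hF x)
    _ = (∫⁻ t, w t * (tailq t)⁻¹) *
          ∫⁻ x, ∫⁻ t, w t * (tailq t)⁻¹ * (tailq t * F (x - t • v x)) ^ 2 :=
        lintegral_const_mul _ hm.lintegral_prod_right'
    _ = (∫⁻ t, w t * (tailq t)⁻¹) *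
          ∫⁻ t, ∫⁻ x, w t * (tailq t)⁻¹ * (tailq t * F (x - t • v x)) ^ 2 := by
        rw [lintegral_lintegral_swap hm.aemeasurable]
    _ ≤ (∫⁻ t, w t * (tailq t)⁻¹) * ∫⁻ t, w t * (tailq t)⁻¹ * ∫⁻ x, F x ^ 2 := by
        refine mul_le_mul_right (lintegral_mono fun t => ?_) _
        dsimp only
        by_cases ht : |t| < 1
        · have h1 : Measurable (fun x : Plane => F (x - t • v x)) :=
            hF.comp (Continuous.measurable (by fun_prop))
          rw [lintegral_const_mul _ ((h1.const_mul _).pow_const 2)]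
          refine mul_le_mul_right ?_ _
          have h2 : ∀ x, (tailq t * F (x - t • v x)) ^ 2 =
              ENNReal.ofReal (1 - |t|) * (F (x - t • v x)) ^ 2 := by
            intro x; rw [mul_pow, tailq_sq t ht]
          rw [lintegral_congr h2, lintegral_const_mul _ (h1.pow_const 2)]
          exact lintegral_comp_Phi hvl hvu ht (fun x => F x ^ 2)
        · rw [hs t (not_lt.mp ht)]; simp only [zero_mul, lintegral_const, measure_univ_of_isAddLeftInvariant, Std.le_refl]
    _ = (∫⁻ t, w t * (tailq t)⁻¹) ^ 2 * ∫⁻ x, F x ^ 2 := by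
        rw [lintegral_mul_const _ (show Measurable (fun t => w t * (tailq t)⁻¹) from
          hw.mul measurable_tailq.inv)]
        ring

lemma tail_sqn {v : Plane → Plane} (hvl : LipschitzWith 1 v) (hvu : ∀ x, ‖v x‖ = 1)
    (w : ℝ → ℝ) (hw : Measurable w) (hs : ∀ t, 1 ≤ |t| → w t = 0) (F : Plane → ℝ)
    (hF : Measurable F) :
    sqn (fun x => ∫ t, w t * F (x - t • v x)) ≤
      (∫⁻ t, ‖w t‖ₑ * (tailq t)⁻¹) ^ 2 * sqn F := by
  refine le_trans ?_ (tail_minkowski hvl hvu (fun t => ‖w t‖ₑ) hw.enorm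
    (fun t ht => by rw [hs t ht]; simp) (fun x => ‖F x‖ₑ) hF.enorm)
  unfold sqn
  apply lintegral_mono
  intro x
  dsimp only
  gcongr
  refine (enorm_integral_le_lintegral_enorm _).trans (le_of_eq ?_)
  apply lintegral_congr
  intro t
  rw [enorm_mul]

lemma tail_mass_finite : ∫⁻ t in Ioo (-1 : ℝ) 1, (tailq t)⁻¹ < ⊤ := by
  have h1 : IntervalIntegrable (fun t : ℝ => (1 - t) ^ (-(1/2) : ℝ)) volume (-1) 1 := by
    have := (intervalIntegral.intervalIntegrable_rpow' (a := 2) (b := 0)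
      (r := (-(1/2) : ℝ)) (by norm_num)).comp_sub_left 1
    norm_num at this ⊢
    exact this
  have h2 : IntervalIntegrable (fun t : ℝ => (1 + t) ^ (-(1/2) : ℝ)) volume (-1) 1 := by
    have := (intervalIntegral.intervalIntegrable_rpow' (a := 0) (b := 2)
      (r := (-(1/2) : ℝ)) (by norm_num)).comp_add_left 1
    norm_num at this ⊢
    exact this
  have h3 := (h1.add h2)
  rw [intervalIntegrable_iff_integrableOn_Ioo_of_le (by norm_num)] at h3
  have h4 := h3.hasFiniteIntegral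
  rw [hasFiniteIntegral_iff_enorm] at h4
  refine lt_of_le_of_lt ?_ h4
  apply setLIntegral_mono' measurableSet_Ioo
  intro t ht
  have ht1 : 0 < 1 - t := by linarith only [ht.2]
  have ht2 : 0 < 1 + t := by linarith [ht.1]
  have htabs : |t| < 1 := abs_lt.mpr ht
  have hpos : 0 < √(1 - |t|) := Real.sqrt_pos.mpr (by linarith)
  unfold tailq
  rw [← ENNReal.ofReal_inv_of_pos hpos]
  have e1 : (√(1 - |t|))⁻¹ = (1 - |t|) ^ (-(1/2) : ℝ) := by
    rw [Real.rpow_neg (by linarith), ← Real.sqrt_eq_rpow]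
  have hA : 0 ≤ (1 - t) ^ (-(1/2) : ℝ) := Real.rpow_nonneg ht1.le _
  have hB : 0 ≤ (1 + t) ^ (-(1/2) : ℝ) := Real.rpow_nonneg ht2.le _
  have h5 : (√(1 - |t|))⁻¹ ≤ (1 - t) ^ (-(1/2) : ℝ) + (1 + t) ^ (-(1/2) : ℝ) := by
    rw [e1]
    rcases abs_cases t with ⟨h, _⟩ | ⟨h, _⟩
    · rw [h]; linarith only [hB]
    · rw [h, sub_neg_eq_add]; linarith only [hA]
  rw [Real.enorm_eq_ofReal (by (clear * - ht1 ht2; positivity))]
  exact ENNReal.ofReal_le_ofReal h5

lemma tailw_measurable (l0 : ℕ) (a : ℝ) : Measurable (tailw l0 a) := by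
  unfold tailw
  have h1 : MeasurableSet {t : ℝ | |t| < a} :=
    measurableSet_lt (by fun_prop) measurable_const
  have h2 : Measurable (fun t : ℝ => chi (2 ^ l0 * t)) :=
    continuous_chi.measurable.comp (by fun_prop)
  exact ((measurable_const.indicator h1).sub h2).div measurable_id

lemma tailw_zero_in {l0 : ℕ} {a t : ℝ} (h1 : 2 ^ (l0 + 1) * |t| ≤ 1) (h2 : |t| < a) :
    tailw l0 a t = 0 := by
  unfold tailw
  rw [indicator_of_mem (by exact h2), chi_eq_one, sub_self, zero_div]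
  rw [abs_mul, abs_of_pos (by positivity : (0:ℝ) < 2 ^ l0)]
  rw [pow_succ] at h1
  linarith

lemma tailw_zero_out {l0 : ℕ} {a t : ℝ} (h1 : 1 ≤ 2 ^ l0 * |t|) (h2 : a ≤ |t|) :
    tailw l0 a t = 0 := by
  unfold tailw
  rw [indicator_of_notMem (by simpa only [mem_ofPred_eq, not_lt] using h2), chi_eq_zero, sub_self, zero_div]
  rw [abs_mul, abs_of_pos (by positivity : (0:ℝ) < 2 ^ l0)]
  exact h1

lemma tailw_le {l0 : ℕ} {a t B : ℝ} (hB : 0 ≤ B) (h : tailw l0 a t ≠ 0 → 1 ≤ B * |t|) :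
    |tailw l0 a t| ≤ B := by
  by_cases h0 : tailw l0 a t = 0
  · rw [h0, abs_zero]; exact hB
  · have h1 := h h0
    have ht : 0 < |t| := by
      rcases (abs_nonneg t).eq_or_lt with h2 | h2
      · rw [← h2] at h1; linarith only [h1]
      · exact h2
    have h3 : |{t : ℝ | |t| < a}.indicator (fun _ => (1 : ℝ)) t - chi (2 ^ l0 * t)| ≤ 1 := by
      have c1 := chi_nonneg (2 ^ l0 * t)
      have c2 := chi_le_one (2 ^ l0 * t)
      rw [abs_le]
      by_cases hm : |t| < a
      · rw [indicator_of_mem (by exact hm)]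
        constructor <;> linarith
      · rw [indicator_of_notMem (by exact hm)]
        constructor <;> linarith
    unfold tailw
    rw [abs_div, div_le_iff₀ ht]
    linarith

theorem tail_bound : ∃ C : ℝ, 0 < C ∧ ∀ a : ℝ, 0 < a → a ≤ 1 → ∃ l0 : ℕ, 6 ≤ l0 ∧
    ∀ v : Plane → Plane, LipschitzWith 1 v → (∀ x, ‖v x‖ = 1) → ∀ F : Plane → ℝ, Measurable F →
    sqn (fun x => ∫ t : ℝ, tailw l0 a t * F (x - t • v x)) ≤ ENNReal.ofReal (C ^ 2) * sqn F := by
  set J := ∫⁻ t in Ioo (-1 : ℝ) 1, (tailq t)⁻¹ with hJ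
  have hJf : J ≠ ⊤ := tail_mass_finite.ne
  set C : ℝ := 128 * J.toReal + 16 with hC
  have hJ0 : 0 ≤ J.toReal := ENNReal.toReal_nonneg
  have key : ∀ a : ℝ, 0 < a → a ≤ 1 → ∃ l0 : ℕ, 6 ≤ l0 ∧ (∀ t, 1 ≤ |t| → tailw l0 a t = 0) ∧
      ∫⁻ t, ‖tailw l0 a t‖ₑ * (tailq t)⁻¹ ≤ ENNReal.ofReal C := by
    intro a ha ha1
    by_cases hcase : a ≤ 1 / 64
    · obtain ⟨n, hn1, hn2⟩ := exists_nat_pow_near_of_lt_one ha (ha1) (by norm_num : (0:ℝ) < 1/2)
        (by norm_num : (1/2 : ℝ) < 1)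
      have hn6 : 6 ≤ n := by
        by_contra hcon
        push Not at hcon
        have h1 : (1/2 : ℝ) ^ 6 ≤ (1/2) ^ (n + 1) :=
          pow_le_pow_of_le_one (by norm_num) (by norm_num) (by omega)
        norm_num at h1 hn1 hcase
        linarith only [h1, hn1, hcase]
      have e1 : (2 : ℝ) ^ n * (1/2) ^ n = 1 := by rw [← mul_pow]; norm_num
      have e2 : (2 : ℝ) ^ (n + 1) * (1/2) ^ (n + 1) = 1 := by rw [← mul_pow]; norm_num
      have hp1 : (0:ℝ) < 2 ^ n := by positivity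
      have hp2 : (0:ℝ) < 2 ^ (n + 1) := by positivity
      have hq : (1/2 : ℝ) ^ n ≤ 1 / 64 := by
        calc (1/2 : ℝ) ^ n ≤ (1/2) ^ 6 := pow_le_pow_of_le_one (by norm_num) (by norm_num) hn6
          _ = 1 / 64 := by norm_num
      have hout : ∀ t, (1/2 : ℝ) ^ n ≤ |t| → tailw n a t = 0 := by
        intro t ht
        apply tailw_zero_out _ (hn2.trans ht)
        calc (1:ℝ) = 2 ^ n * (1/2) ^ n := e1.symm
          _ ≤ 2 ^ n * |t| := by (clear * - ht; gcongr)
      have hB : ∀ t, |tailw n a t| ≤ 2 ^ (n + 1) := by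
        intro t
        apply tailw_le hp2.le
        intro h0
        by_contra hcon
        push Not at hcon
        apply h0
        apply tailw_zero_in hcon.le
        have : |t| < (1/2) ^ (n + 1) := by
          have : 2 ^ (n + 1) * |t| < 2 ^ (n + 1) * (1/2) ^ (n + 1) := by rw [e2]; exact hcon
          exact lt_of_mul_lt_mul_left this hp2.le
        linarith only [hn1, this]
      refine ⟨n, hn6, fun t ht => hout t (by linarith only [hq, ht]), ?_⟩
      have h1 : ∀ t, ‖tailw n a t‖ₑ * (tailq t)⁻¹ ≤ ‖tailw n a t‖ₑ * 2 := by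
        intro t
        by_cases ht : (1/2 : ℝ) ^ n ≤ |t|
        · rw [hout t ht]; simp
        · push Not at ht
          gcongr
          rw [ENNReal.inv_le_iff_inv_le]
          unfold tailq
          have : (1/2 : ℝ) ≤ √(1 - |t|) := by
            apply Real.le_sqrt_of_sq_le
            linarith only [hq, ht]
          calc (2 : ℝ≥0∞)⁻¹ = ENNReal.ofReal (1/2) := by
                rw [one_div, ENNReal.ofReal_inv_of_pos (by norm_num)]; norm_num
            _ ≤ ENNReal.ofReal (√(1 - |t|)) := ENNReal.ofReal_le_ofReal this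
      have h2 := lintegral_le_of_supp (f := tailw n a) (a := (1/2) ^ n) hp2.le hB
        (fun t ht => hout t ht.le)
      calc ∫⁻ t, ‖tailw n a t‖ₑ * (tailq t)⁻¹ ≤ ∫⁻ t, ‖tailw n a t‖ₑ * 2 := lintegral_mono h1
        _ = (∫⁻ t, ‖tailw n a t‖ₑ) * 2 := lintegral_mul_const _ (tailw_measurable n a).enorm
        _ ≤ ENNReal.ofReal (2 ^ (n + 1) * (2 * (1/2) ^ n)) * 2 := by (clear * - h2; gcongr)
        _ = ENNReal.ofReal (2 ^ (n + 1) * (2 * (1/2) ^ n)) * ENNReal.ofReal 2 := by norm_num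
        _ = ENNReal.ofReal (2 ^ (n + 1) * (2 * (1/2) ^ n) * 2) :=
            (ENNReal.ofReal_mul (by positivity)).symm
        _ ≤ ENNReal.ofReal C := by
            apply ENNReal.ofReal_le_ofReal
            have : (2 : ℝ) ^ (n + 1) * (2 * (1/2) ^ n) * 2 = 8 := by
              rw [pow_succ]
              linear_combination 8 * e1
            rw [this]; linarith only [hJ0]
    · push Not at hcase
      refine ⟨6, le_rfl, fun t ht => tailw_zero_out (by norm_num; linarith only [ht]) (by linarith only [ha1, ht]), ?_⟩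
      have hB : ∀ t, |tailw 6 a t| ≤ 128 := by
        intro t
        apply tailw_le (by norm_num)
        intro h0
        by_contra hcon
        push Not at hcon
        apply h0
        apply tailw_zero_in
        · norm_num; exact hcon.le
        · linarith only [hcase, hcon]
      have h1 : ∀ t, ‖tailw 6 a t‖ₑ * (tailq t)⁻¹ ≤
          (Ioo (-1 : ℝ) 1).indicator (fun t => 128 * (tailq t)⁻¹) t := by
        intro t
        by_cases ht : |t| < 1
        · rw [indicator_of_mem (by exact abs_lt.mp ht)]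
          gcongr
          rw [Real.enorm_eq_ofReal_abs]
          calc ENNReal.ofReal |tailw 6 a t| ≤ ENNReal.ofReal 128 :=
                ENNReal.ofReal_le_ofReal (hB t)
            _ = 128 := by norm_num
        · have : tailw 6 a t = 0 :=
            tailw_zero_out (by norm_num; linarith only [ht]) (by linarith only [ha1, ht])
          rw [this]; simp only [enorm_zero, zero_mul, zero_le]
      calc ∫⁻ t, ‖tailw 6 a t‖ₑ * (tailq t)⁻¹
          ≤ ∫⁻ t, (Ioo (-1 : ℝ) 1).indicator (fun t => 128 * (tailq t)⁻¹) t := lintegral_mono h1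
        _ = ∫⁻ t in Ioo (-1 : ℝ) 1, 128 * (tailq t)⁻¹ := lintegral_indicator measurableSet_Ioo _
        _ = 128 * J := lintegral_const_mul _ measurable_tailq.inv
        _ = ENNReal.ofReal (128 * J.toReal) := by
            rw [ENNReal.ofReal_mul (by norm_num), ENNReal.ofReal_toReal hJf]; norm_num
        _ ≤ ENNReal.ofReal C := ENNReal.ofReal_le_ofReal (by linarith only [])
  refine ⟨C, by (clear * -; positivity), fun a ha ha1 => ?_⟩
  obtain ⟨l0, hl, hs, hm⟩ := key a ha ha1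
  refine ⟨l0, hl, fun v hvl hvu F hF => ?_⟩
  refine (tail_sqn hvl hvu (tailw l0 a) (tailw_measurable l0 a) hs F hF).trans ?_
  rw [ENNReal.ofReal_pow (by positivity)]
  (clear * - hm; gcongr)

end Vale.Agent.P112
end

section

namespace Vale.Agent.P112

open MeasureTheory Filter Topology Set

/-- The symmetrised integrand. -/
noncomputable def symm (f : Plane → ℂ) (x w : Plane) (t : ℝ) : ℂ :=
  (f (x - t • w) - f (x + t • w)) / (2 * (t : ℂ))

lemma symm_bound {f : Plane → ℂ} {K : NNReal} (hf : LipschitzWith K f) (x w : Plane) (hw : ‖w‖ = 1)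
    (t : ℝ) : ‖symm f x w t‖ ≤ K := by
  unfold symm
  by_cases ht : t = 0
  · subst ht; simp only [zero_smul, sub_zero, add_zero, sub_self, Complex.ofReal_zero, mul_zero, div_zero, norm_zero, NNReal.zero_le_coe]
  · have h1 : ‖f (x - t • w) - f (x + t • w)‖ ≤ K * (2 * |t|) := by
      have := hf.dist_le_mul (x - t • w) (x + t • w)
      rw [dist_eq_norm, dist_eq_norm] at this
      have h2 : x - t • w - (x + t • w) = (-(2 * t)) • w := by
        rw [neg_smul, mul_smul, two_smul]; abel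
      rw [h2, norm_smul, hw, mul_one, norm_neg, Real.norm_eq_abs, abs_mul] at this
      simpa only [ge_iff_le, Nat.abs_ofNat] using this
    rw [norm_div, norm_mul, Complex.norm_ofNat, Complex.norm_real, Real.norm_eq_abs]
    have h3 : 0 < 2 * |t| := by positivity
    rw [div_le_iff₀ h3]
    exact h1

lemma measurableSet_shell (ε a : ℝ) : MeasurableSet {t : ℝ | ε < |t| ∧ |t| < a} := by
  apply MeasurableSet.inter
  · exact measurableSet_lt measurable_const measurable_id.abs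
  · exact measurableSet_lt measurable_id.abs measurable_const

lemma shell_subset (ε a : ℝ) : {t : ℝ | ε < |t| ∧ |t| < a} ⊆ Icc (-a) a := by
  intro t ht
  have := ht.2
  rw [abs_lt] at this
  exact ⟨this.1.le, this.2.le⟩

lemma integrableOn_shell {f : Plane → ℂ} (hf : Continuous f) (x w : Plane) {ε a : ℝ} (hε : 0 < ε) :
    IntegrableOn (fun t : ℝ => f (x - t • w) / (t : ℂ)) {t : ℝ | ε < |t| ∧ |t| < a} := by
  have hsub : {t : ℝ | ε < |t| ∧ |t| < a} ⊆ {t : ℝ | ε ≤ |t|} ∩ Icc (-a) a := by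
    intro t ht
    exact ⟨ht.1.le, shell_subset ε a ht⟩
  refine IntegrableOn.mono_set ?_ hsub
  have hclosed : IsClosed {t : ℝ | ε ≤ |t|} := isClosed_le continuous_const continuous_abs
  have hcomp : IsCompact ({t : ℝ | ε ≤ |t|} ∩ Icc (-a) a) :=
    IsCompact.inter_left isCompact_Icc hclosed
  apply ContinuousOn.integrableOn_compact hcomp
  apply ContinuousOn.div
  · exact (hf.comp (by fun_prop)).continuousOn
  · exact Complex.continuous_ofReal.continuousOn
  · intro t ht
    have h1 : ε ≤ |t| := ht.1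
    have : t ≠ 0 := by
      intro h; rw [h, abs_zero] at h1; linarith
    exact_mod_cast this

lemma trunc_eq_symm {f : Plane → ℂ} (hf : Continuous f) (v : Plane → Plane) (x : Plane) {ε a : ℝ}
    (hε : 0 < ε) :
    truncHilbert v ε a f x = ∫ t in {t : ℝ | ε < |t| ∧ |t| < a}, symm f x (v x) t := by
  unfold truncHilbert
  set S := {t : ℝ | ε < |t| ∧ |t| < a} with hS
  have hSm : MeasurableSet S := measurableSet_shell ε a
  have hint := integrableOn_shell hf x (v x) (a := a) hε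
  rw [← hS] at hint
  have hneg : ∫ t in S, f (x - t • v x) / (t : ℂ) = ∫ t in S, f (x - (-t) • v x) / ((-t : ℝ) : ℂ) := by
    rw [← integral_indicator hSm, ← integral_indicator hSm]
    rw [← integral_neg_eq_self]
    congr 1
    ext t
    by_cases ht : t ∈ S
    · have ht' : -t ∈ S := by
        simp only [hS, Set.mem_ofPred_eq, abs_neg] at ht ⊢; exact ht
      rw [indicator_of_mem ht', indicator_of_mem ht]
    · have ht' : -t ∉ S := by
        simp only [hS, Set.mem_ofPred_eq, abs_neg] at ht ⊢; exact ht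
      rw [indicator_of_notMem ht', indicator_of_notMem ht]
  have hint2 : IntegrableOn (fun t : ℝ => f (x - (-t) • v x) / ((-t : ℝ) : ℂ)) S := by
    have h := integrableOn_shell hf x (-(v x)) (a := a) hε
    have : (fun t : ℝ => f (x - (-t) • v x) / ((-t : ℝ) : ℂ)) =
        fun t : ℝ => -(f (x - t • (-(v x))) / (t : ℂ)) := by
      ext t
      rw [Complex.ofReal_neg, div_neg, neg_smul, smul_neg]
    rw [this]
    exact h.neg
  have h2 : ∫ t in S, f (x - t • v x) / (t : ℂ) =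
      (1/2 : ℂ) * ((∫ t in S, f (x - t • v x) / (t : ℂ)) + ∫ t in S, f (x - (-t) • v x) / ((-t : ℝ) : ℂ)) := by
    rw [← hneg]; ring
  rw [h2, ← integral_add hint hint2, ← integral_const_mul]
  apply setIntegral_congr_fun hSm
  intro t ht
  have ht0 : (t : ℂ) ≠ 0 := by
    have : t ≠ 0 := by
      intro h
      have h1 := ht.1
      rw [h, abs_zero] at h1; linarith only [hε, h1]
    exact_mod_cast this
  simp only [symm, Complex.ofReal_neg, neg_smul, sub_neg_eq_add]
  field_simp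
  ring

/-- The principal value as an absolutely convergent integral. -/
noncomputable def pvInt (v : Plane → Plane) (a : ℝ) (f : Plane → ℂ) (x : Plane) : ℂ :=
  ∫ t in {t : ℝ | |t| < a}, symm f x (v x) t

lemma symm_measurable {f : Plane → ℂ} (hf : Continuous f) (x w : Plane) :
    Measurable (symm f x w) := by
  unfold symm
  apply Measurable.div
  · apply Measurable.sub
    · exact (hf.comp (by fun_prop)).measurable
    · exact (hf.comp (by fun_prop)).measurable
  · fun_prop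

lemma measurableSet_ball0 (a : ℝ) : MeasurableSet {t : ℝ | |t| < a} :=
  measurableSet_lt measurable_id.abs measurable_const

lemma ball0_subset (a : ℝ) : {t : ℝ | |t| < a} ⊆ Icc (-a) a := by
  intro t ht
  have : |t| < a := ht
  rw [abs_lt] at this
  exact ⟨this.1.le, this.2.le⟩

lemma integrableOn_symm {f : Plane → ℂ} {K : NNReal} (hf : LipschitzWith K f) (x w : Plane)
    (hw : ‖w‖ = 1) (a : ℝ) : IntegrableOn (symm f x w) {t : ℝ | |t| < a} := by
  refine IntegrableOn.mono_set ?_ (ball0_subset a)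
  refine Measure.integrableOn_of_bounded (M := K) ?_ ?_ ?_
  · exact measure_Icc_lt_top.ne
  · exact (symm_measurable hf.continuous x w).aestronglyMeasurable
  · exact Eventually.of_forall (fun t => symm_bound hf x w hw t)

lemma tendsto_trunc {f : Plane → ℂ} {K : NNReal} (hf : LipschitzWith K f) (v : Plane → Plane)
    (hv : ∀ x, ‖v x‖ = 1) (x : Plane) (a : ℝ) :
    Tendsto (fun ε => truncHilbert v ε a f x) (𝓝[>] (0 : ℝ)) (𝓝 (pvInt v a f x)) := by
  have h1 : ∀ᶠ ε in 𝓝[>] (0 : ℝ), truncHilbert v ε a f x =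
      ∫ t in {t : ℝ | |t| < a}, indicator {t : ℝ | ε < |t|} (symm f x (v x)) t := by
    filter_upwards [self_mem_nhdsWithin] with ε hε
    rw [trunc_eq_symm hf.continuous v x hε]
    have hm : MeasurableSet {t : ℝ | ε < |t|} := measurableSet_lt measurable_const measurable_id.abs
    rw [setIntegral_indicator hm]
    congr 2
    ext t
    simp only [Set.mem_ofPred_eq, mem_inter_iff]
    (clear * -; tauto)
  rw [tendsto_congr' h1]
  unfold pvInt
  refine tendsto_integral_filter_of_dominated_convergence (fun _ => (K : ℝ)) ?_ ?_ ?_ ?_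
  · filter_upwards with ε
    exact ((symm_measurable hf.continuous x (v x)).indicator
      (measurableSet_lt measurable_const measurable_id.abs)).aestronglyMeasurable
  · filter_upwards with ε
    filter_upwards with t
    refine le_trans (norm_indicator_le_norm_self _ _) (symm_bound hf x (v x) (hv x) t)
  · exact integrableOn_const ((measure_mono (ball0_subset a)).trans_lt measure_Icc_lt_top).ne
  · have : ∀ᵐ t : ℝ ∂(volume.restrict {t : ℝ | |t| < a}), t ≠ 0 := by
      apply ae_restrict_of_ae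
      exact Measure.ae_ne volume 0
    filter_upwards [this] with t ht
    apply tendsto_const_nhds.congr'
    have hpos : 0 < |t| := abs_pos.mpr ht
    have : ∀ᶠ ε in 𝓝[>] (0 : ℝ), ε < |t| :=
      mem_nhdsWithin_of_mem_nhds (Iio_mem_nhds hpos)
    filter_upwards [this] with ε hε
    rw [indicator_of_mem]
    exact hε

lemma hilbert_eq {f : Plane → ℂ} {K : NNReal} (hf : LipschitzWith K f) (v : Plane → Plane)
    (hv : ∀ x, ‖v x‖ = 1) (x : Plane) (a : ℝ) : hilbert v a f x = pvInt v a f x :=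
  (tendsto_trunc hf v hv x a).limUnder_eq

/-- Schwartz functions are Lipschitz. -/
lemma schwartz_lipschitz (f : SchwartzMap Plane ℂ) : ∃ K : NNReal, LipschitzWith K f := by
  have hdiff : Differentiable ℝ f := f.differentiable
  obtain ⟨C, hC⟩ := f.decay 0 1
  have hC' : ∀ x, ‖fderiv ℝ f x‖ ≤ C := by
    intro x
    have := hC.2 x
    rw [pow_zero, one_mul, norm_iteratedFDeriv_one] at this
    exact this
  refine ⟨C.toNNReal, ?_⟩
  apply lipschitzWith_of_nnnorm_fderiv_le hdiff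
  intro x
  rw [← NNReal.coe_le_coe, Real.coe_toNNReal C hC.1.le]
  exact hC' x

end Vale.Agent.P112
end


section

/-! Task P112-FT22: the principal value as the limit of the partial sums. -/

namespace Vale.Agent.P112

open MeasureTheory Filter Topology Set
open scoped ENNReal NNReal

/-- the indicator of the truncation -/
noncomputable def pointwise_ind (a t : ℝ) : ℝ := {t : ℝ | |t| < a}.indicator (fun _ => (1 : ℝ)) t

lemma pointwise_ind_meas (a : ℝ) : Measurable (pointwise_ind a) :=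
  measurable_const.indicator (measurableSet_ball0 a)

lemma pointwise_ind_neg (a t : ℝ) : pointwise_ind a (-t) = pointwise_ind a t := by
  unfold pointwise_ind
  by_cases h : |t| < a
  · rw [indicator_of_mem (by simpa using h), indicator_of_mem (by simpa using h)]
  · rw [indicator_of_notMem (by simpa only [mem_ofPred_eq, abs_neg, not_lt] using h), indicator_of_notMem (by simpa using h)]

lemma pointwise_ind_one {a t : ℝ} (h : |t| < a) : pointwise_ind a t = 1 := by
  unfold pointwise_ind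
  rw [indicator_of_mem (by simpa using h)]

lemma pointwise_ind_zero {a t : ℝ} (h : a ≤ |t|) : pointwise_ind a t = 0 := by
  unfold pointwise_ind
  rw [indicator_of_notMem (by simpa using h)]

lemma pointwise_ind_nonneg (a t : ℝ) : 0 ≤ pointwise_ind a t := by
  by_cases h : |t| < a
  · rw [pointwise_ind_one h]; norm_num
  · rw [pointwise_ind_zero (not_lt.1 h)]

lemma pointwise_ind_le (a t : ℝ) : pointwise_ind a t ≤ 1 := by
  by_cases h : |t| < a
  · rw [pointwise_ind_one h]
  · rw [pointwise_ind_zero (not_lt.1 h)]; norm_num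

/-- the total kernel at the cutoff `c` -/
noncomputable def pointwise_k (a c t : ℝ) : ℝ := (pointwise_ind a t - chi (c * t)) / t

lemma pointwise_k_neg (a c t : ℝ) : pointwise_k a c (-t) = - pointwise_k a c t := by
  unfold pointwise_k
  rw [pointwise_ind_neg, mul_neg, chi_neg, div_neg]

lemma pointwise_k_meas (a c : ℝ) : Measurable (pointwise_k a c) := by
  unfold pointwise_k
  exact ((pointwise_ind_meas a).sub (continuous_chi.measurable.comp (by fun_prop))).div
    measurable_id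

lemma pointwise_diff_le (a c t : ℝ) : |pointwise_ind a t - chi (c * t)| ≤ 1 := by
  rw [abs_le]
  have h1 := pointwise_ind_nonneg a t
  have h2 := pointwise_ind_le a t
  have h3 := chi_nonneg (c * t)
  have h4 := chi_le_one (c * t)
  constructor <;> linarith

lemma pointwise_k_bound {a c t : ℝ} (ha : 0 < a) (hc : 0 < c) :
    |pointwise_k a c t| ≤ (min a (1 / (2 * c)))⁻¹ := by
  have hm : 0 < min a (1 / (2 * c)) := lt_min ha (by positivity)
  by_cases h : |t| < min a (1 / (2 * c))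
  · have h1 : |t| < a := h.trans_le (min_le_left _ _)
    have h2 : |t| < 1 / (2 * c) := h.trans_le (min_le_right _ _)
    have h3 : chi (c * t) = 1 := by
      apply chi_eq_one
      rw [abs_mul, abs_of_pos hc]
      rw [lt_div_iff₀ (by positivity)] at h2
      linarith only [h2]
    unfold pointwise_k
    rw [pointwise_ind_one h1, h3, sub_self, zero_div, abs_zero]
    positivity
  · push Not at h
    unfold pointwise_k
    rw [abs_div, ← one_div]
    exact div_le_div₀ (by norm_num) (pointwise_diff_le a c t) hm h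

lemma pointwise_diff_zero {a c t : ℝ} (hc : 1 ≤ c) (ht : max a 1 < |t|) :
    pointwise_ind a t - chi (c * t) = 0 := by
  have h1 : a ≤ |t| := (le_max_left a 1).trans ht.le
  have h2 : 1 ≤ |t| := (le_max_right a 1).trans ht.le
  rw [pointwise_ind_zero h1, chi_eq_zero, sub_zero]
  rw [abs_mul, abs_of_pos (by linarith only [hc])]
  nlinarith only [hc, h2]

lemma pointwise_int_of {u : ℝ → ℝ} (hu : Measurable u) {b r : ℝ} (hb : ∀ t, |u t| ≤ b)
    (hr : ∀ t, r < |t| → u t = 0) : Integrable u := by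
  have h1 : Integrable ((Icc (-r) r).indicator (fun _ : ℝ => b)) := by
    refine (integrable_indicator_iff measurableSet_Icc).2 ?_
    exact integrableOn_const (measure_Icc_lt_top.ne)
  refine h1.mono' hu.aestronglyMeasurable (Eventually.of_forall fun t => ?_)
  by_cases ht : t ∈ Icc (-r) r
  · rw [indicator_of_mem ht]
    exact hb t
  · have h2 : r < |t| := by
      by_contra hcon
      push Not at hcon
      rw [abs_le] at hcon
      exact ht hcon
    rw [hr t h2, indicator_of_notMem ht, norm_zero]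

/-- a bound of a continuous function on a symmetric interval -/
lemma pointwise_exists_bound {g : ℝ → ℝ} (hg : Continuous g) (r : ℝ) :
    ∃ b, 0 ≤ b ∧ ∀ t, |t| ≤ r → |g t| ≤ b := by
  obtain ⟨b, hb⟩ := (isCompact_Icc (a := -r) (b := r)).exists_bound_of_continuousOn
    (f := g) hg.continuousOn
  refine ⟨max b 0, le_max_right _ _, fun t ht => ?_⟩
  exact (hb t (abs_le.1 ht)).trans (le_max_left _ _)

lemma pointwise_k_int {a c : ℝ} (ha : 0 < a) (hc : 1 ≤ c) {g : ℝ → ℝ} (hg : Continuous g) :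
    Integrable (fun t => pointwise_k a c t * g t) := by
  obtain ⟨b, hb0, hb⟩ := pointwise_exists_bound hg (max a 1)
  have hz : ∀ t, max a 1 < |t| → pointwise_k a c t * g t = 0 := by
    intro t ht
    unfold pointwise_k
    rw [pointwise_diff_zero hc ht, zero_div, zero_mul]
  refine pointwise_int_of ((pointwise_k_meas a c).mul hg.measurable)
    (b := (min a (1 / (2 * c)))⁻¹ * b) (r := max a 1) ?_ hz
  intro t
  have hm : 0 < min a (1 / (2 * c)) := lt_min ha (by positivity)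
  by_cases ht : max a 1 < |t|
  · rw [hz t ht, abs_zero]
    positivity
  · rw [abs_mul]
    exact mul_le_mul (pointwise_k_bound ha (by linarith only [hc])) (hb t (not_lt.1 ht)) (abs_nonneg _)
      (by positivity)

lemma pointwise_odd {a c : ℝ} (ha : 0 < a) (hc : 1 ≤ c) {g : ℝ → ℝ} (hg : Continuous g) :
    ∫ t, pointwise_k a c t * g t =
      ∫ t, (pointwise_ind a t - chi (c * t)) * ((g t - g (-t)) / (2 * t)) := by
  have h1 := pointwise_k_int ha hc hg
  have h2 := pointwise_k_int ha hc (g := fun t => g (-t)) (by fun_prop)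
  have h3 : ∫ t, pointwise_k a c t * g (-t) = - ∫ t, pointwise_k a c t * g t := by
    rw [← integral_neg_eq_self, ← integral_neg]
    congr 1
    ext t
    rw [pointwise_k_neg, neg_neg]
    ring
  have h4 : ∫ t, (pointwise_k a c t * g t - pointwise_k a c t * g (-t)) =
      2 * ∫ t, pointwise_k a c t * g t := by
    rw [integral_sub h1 h2, h3]
    ring
  have h5 : ∫ t, pointwise_k a c t * g t = 1 / 2 *
      ∫ t, (pointwise_k a c t * g t - pointwise_k a c t * g (-t)) := by
    rw [h4]; ring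
  rw [h5, ← integral_const_mul]
  congr 1
  ext t
  unfold pointwise_k
  ring

/-- main convergence statement for real functions -/
lemma pointwise_main {g : ℝ → ℝ} (hg : Continuous g) {K : ℝ} (hK0 : 0 ≤ K)
    (hK : ∀ t, |g t - g (-t)| ≤ K * (2 * |t|)) {a : ℝ} (ha : 0 < a) (l0 : ℕ) :
    Tendsto (fun n : ℕ => (∑ l ∈ Finset.range n, ∫ t : ℝ, eta (sc (l0 + l)) t * g t) +
      ∫ t : ℝ, tailw l0 a t * g t) atTop
      (𝓝 (∫ t in {t : ℝ | |t| < a}, (g t - g (-t)) / (2 * t))) := by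
  have hpow : ∀ m : ℕ, (1 : ℝ) ≤ 2 ^ m := fun m => one_le_pow₀ (by norm_num)
  have hsum : ∀ n : ℕ, (∑ l ∈ Finset.range n, ∫ t : ℝ, eta (sc (l0 + l)) t * g t) +
      ∫ t : ℝ, tailw l0 a t * g t =
      ∫ t, (pointwise_ind a t - chi (2 ^ (l0 + n) * t)) * ((g t - g (-t)) / (2 * t)) := by
    intro n
    rw [← pointwise_odd ha (hpow _) hg]
    have he : ∀ l : ℕ, Integrable (fun t => eta (sc (l0 + l)) t * g t) := by
      intro l
      have hc : Continuous (eta (sc (l0 + l))) := continuous_eta (sc_pos _)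
      exact (hc.mul hg).integrable_of_hasCompactSupport
        ((hasCompactSupport_eta (sc_pos _)).mul_right)
    have ht : Integrable (fun t => tailw l0 a t * g t) := pointwise_k_int ha (hpow l0) hg
    rw [← integral_finsetSum _ (fun l _ => he l),
      ← integral_add (integrable_finsetSum _ (fun l _ => he l)) ht]
    congr 1
    ext t
    rw [← Finset.sum_mul]
    have h1 := sum_eta l0 n t
    unfold sc
    rw [h1]
    unfold tailw pointwise_k pointwise_ind
    ring
  simp only [hsum]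
  have hlim : ∫ t in {t : ℝ | |t| < a}, (g t - g (-t)) / (2 * t) =
      ∫ t, pointwise_ind a t * ((g t - g (-t)) / (2 * t)) := by
    rw [← integral_indicator (measurableSet_ball0 a)]
    congr 1
    ext t
    by_cases h : |t| < a
    · rw [pointwise_ind_one h, indicator_of_mem (by simpa using h), one_mul]
    · rw [pointwise_ind_zero (not_lt.1 h), indicator_of_notMem (by simpa only [mem_ofPred_eq, not_lt] using h), zero_mul]
  rw [hlim]
  have hgm : Measurable (fun t => (g t - g (-t)) / (2 * t)) := by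
    have : Measurable g := hg.measurable
    fun_prop
  have hq : ∀ t, |(g t - g (-t)) / (2 * t)| ≤ K := by
    intro t
    by_cases ht : t = 0
    · subst ht
      simpa only [neg_zero, sub_self, mul_zero, div_zero, abs_zero] using hK0
    · have h1 : 0 < 2 * |t| := by positivity
      rw [abs_div, abs_mul, abs_two, div_le_iff₀ h1]
      exact hK t
  refine tendsto_integral_of_dominated_convergence
    ((Icc (-(max a 1)) (max a 1)).indicator (fun _ => K)) ?_ ?_ ?_ ?_
  · intro n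
    exact (((pointwise_ind_meas a).sub
      (continuous_chi.measurable.comp (by fun_prop))).mul hgm).aestronglyMeasurable
  · exact (integrable_indicator_iff measurableSet_Icc).2
      (integrableOn_const measure_Icc_lt_top.ne)
  · intro n
    refine Eventually.of_forall fun t => ?_
    by_cases ht : t ∈ Icc (-(max a 1)) (max a 1)
    · rw [indicator_of_mem ht, Real.norm_eq_abs, abs_mul]
      calc _ ≤ 1 * K := mul_le_mul (pointwise_diff_le _ _ _) (hq t) (abs_nonneg _) (by norm_num)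
        _ = K := one_mul K
    · have h2 : max a 1 < |t| := by
        by_contra hcon
        push Not at hcon
        rw [abs_le] at hcon
        exact ht hcon
      rw [pointwise_diff_zero (hpow _) h2, zero_mul, indicator_of_notMem ht, norm_zero]
  · have hne : ∀ᵐ t : ℝ, t ≠ 0 := by
      rw [ae_iff]
      simp
    filter_upwards [hne] with t ht
    refine Tendsto.mul_const _ ?_
    have h0 : ∀ᶠ n : ℕ in atTop, chi (2 ^ (l0 + n) * t) = 0 := by
      have htp : 0 < |t| := abs_pos.2 ht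
      obtain ⟨N, hN⟩ := pow_unbounded_of_one_lt (1 / |t|) (by norm_num : (1 : ℝ) < 2)
      filter_upwards [eventually_ge_atTop N] with n hn
      apply chi_eq_zero
      rw [abs_mul, abs_of_pos (by positivity)]
      have h3 : (2 : ℝ) ^ N ≤ 2 ^ (l0 + n) := pow_le_pow_right₀ (by norm_num) (by omega)
      rw [div_lt_iff₀ htp] at hN
      calc (1 : ℝ) ≤ 2 ^ N * |t| := hN.le
        _ ≤ _ := by (clear * - h3 ht; gcongr)
    refine (tendsto_congr' (h0.mono fun n hn => by rw [hn, sub_zero])).2 tendsto_const_nhds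

lemma pointwise_lip {f : Plane → ℂ} {K : ℝ≥0} (hf : LipschitzWith K f) {w : Plane}
    (hw : ‖w‖ = 1) (x : Plane) (t : ℝ) :
    ‖f (x - t • w) - f (x - (-t) • w)‖ ≤ K * (2 * |t|) := by
  have := hf.dist_le_mul (x - t • w) (x - (-t) • w)
  rw [dist_eq_norm, dist_eq_norm] at this
  have h2 : x - t • w - (x - (-t) • w) = (-(2 * t)) • w := by
    rw [neg_smul, neg_smul, mul_smul, two_smul]; abel
  rw [h2, norm_smul, hw, mul_one, norm_neg, Real.norm_eq_abs, abs_mul] at this
  simpa only [neg_smul, sub_neg_eq_add, ge_iff_le, Nat.abs_ofNat] using this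

theorem tendsto_re {f : Plane → ℂ} {K : ℝ≥0} (hf : LipschitzWith K f) {v : Plane → Plane}
    (hvu : ∀ x, ‖v x‖ = 1) (x : Plane) {a : ℝ} (ha : 0 < a) (l0 : ℕ) :
    Tendsto (fun n : ℕ => (∑ l ∈ Finset.range n, Tp v (sc (l0 + l)) (fun y => (f y).re)) x +
      ∫ t : ℝ, tailw l0 a t * (f (x - t • v x)).re) atTop (𝓝 (pvInt v a f x).re) := by
  have hfc := hf.continuous
  have hg : Continuous (fun t : ℝ => (f (x - t • v x)).re) :=
    Complex.continuous_re.comp (hfc.comp (by fun_prop))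
  have hK : ∀ t : ℝ, |(f (x - t • v x)).re - (f (x - (-t) • v x)).re| ≤ K * (2 * |t|) := by
    intro t
    rw [← Complex.sub_re]
    exact (Complex.abs_re_le_norm _).trans (pointwise_lip hf (hvu x) x t)
  have h := pointwise_main hg K.2 hK ha l0
  have h1 : (pvInt v a f x).re = ∫ t in {t : ℝ | |t| < a},
      ((f (x - t • v x)).re - (f (x - (-t) • v x)).re) / (2 * t) := by
    unfold pvInt
    have h2 := integral_re (𝕜 := ℂ) (integrableOn_symm hf x (v x) (hvu x) a)
    simp only [RCLike.re_eq_complex_re] at h2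
    rw [← h2]
    refine setIntegral_congr_fun (measurableSet_ball0 a) fun t _ => ?_
    simp only [symm, neg_smul, sub_neg_eq_add]
    rw [show (2 * (t : ℂ)) = ((2 * t : ℝ) : ℂ) by push_cast; ring, Complex.div_ofReal_re,
      Complex.sub_re]
  rw [h1]
  refine h.congr fun n => ?_
  rw [Finset.sum_apply]
  rfl

theorem tendsto_im {f : Plane → ℂ} {K : ℝ≥0} (hf : LipschitzWith K f) {v : Plane → Plane}
    (hvu : ∀ x, ‖v x‖ = 1) (x : Plane) {a : ℝ} (ha : 0 < a) (l0 : ℕ) :
    Tendsto (fun n : ℕ => (∑ l ∈ Finset.range n, Tp v (sc (l0 + l)) (fun y => (f y).im)) x +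
      ∫ t : ℝ, tailw l0 a t * (f (x - t • v x)).im) atTop (𝓝 (pvInt v a f x).im) := by
  have hfc := hf.continuous
  have hg : Continuous (fun t : ℝ => (f (x - t • v x)).im) :=
    Complex.continuous_im.comp (hfc.comp (by fun_prop))
  have hK : ∀ t : ℝ, |(f (x - t • v x)).im - (f (x - (-t) • v x)).im| ≤ K * (2 * |t|) := by
    intro t
    rw [← Complex.sub_im]
    exact (Complex.abs_im_le_norm _).trans (pointwise_lip hf (hvu x) x t)
  have h := pointwise_main hg K.2 hK ha l0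
  have h1 : (pvInt v a f x).im = ∫ t in {t : ℝ | |t| < a},
      ((f (x - t • v x)).im - (f (x - (-t) • v x)).im) / (2 * t) := by
    unfold pvInt
    have h2 := integral_im (𝕜 := ℂ) (integrableOn_symm hf x (v x) (hvu x) a)
    simp only [RCLike.im_eq_complex_im] at h2
    rw [← h2]
    refine setIntegral_congr_fun (measurableSet_ball0 a) fun t _ => ?_
    simp only [symm, neg_smul, sub_neg_eq_add]
    rw [show (2 * (t : ℂ)) = ((2 * t : ℝ) : ℂ) by push_cast; ring, Complex.div_ofReal_im,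
      Complex.sub_im]
  rw [h1]
  refine h.congr fun n => ?_
  rw [Finset.sum_apply]
  rfl

end Vale.Agent.P112
end

section

/-! Task P112-FT23: the final estimate. -/

namespace Vale.Agent.P112

open MeasureTheory Filter Topology Set
open scoped ENNReal NNReal

lemma final_measurable_avg {v : Plane → Plane} (hv : Continuous v) {k : ℝ → ℝ} (hk : Measurable k)
    {g : Plane → ℝ} (hg : Continuous g) : Measurable fun x => ∫ t : ℝ, k t * g (x - t • v x) := by
  have h : Measurable (Function.uncurry fun (x : Plane) (t : ℝ) => k t * g (x - t • v x)) := by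
    refine (hk.comp measurable_snd).mul ?_
    have h2 : Continuous fun p : Plane × ℝ => g (p.1 - p.2 • v p.1) :=
      hg.comp (continuous_fst.sub (continuous_snd.smul (hv.comp continuous_fst)))
    exact h2.measurable
  exact (h.stronglyMeasurable.integral_prod_right).measurable

lemma final_measurable_eta (L : ℝ) : Measurable (eta L) := by
  have h1 : Measurable chi := continuous_chi.measurable
  have h2 : Measurable fun t : ℝ => (chi (t / L) - chi (2 * (t / L))) / t := by fun_prop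
  exact h2

lemma final_measurable_tailw (l0 : ℕ) (a : ℝ) : Measurable (tailw l0 a) := by
  have h1 : Measurable chi := continuous_chi.measurable
  have h2 : MeasurableSet {t : ℝ | |t| < a} := measurableSet_ball0 a
  have h3 : Measurable ({t : ℝ | |t| < a}.indicator (fun _ => (1 : ℝ))) :=
    measurable_const.indicator h2
  have h4 : Measurable fun t : ℝ => ({t : ℝ | |t| < a}.indicator (fun _ => (1 : ℝ)) t -
      chi (2 ^ l0 * t)) / t := by
    exact (h3.sub (h1.comp (measurable_const.mul measurable_id))).div measurable_id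
  exact h4

lemma final_measurable_sum {v : Plane → Plane} (hv : Continuous v) {g : Plane → ℝ}
    (hg : Continuous g) (l0 n : ℕ) :
    Measurable (∑ l ∈ Finset.range n, Tp v (sc (l0 + l)) g) := by
  have h : ∀ l : ℕ, Measurable (Tp v (sc (l0 + l)) g) := fun l =>
    final_measurable_avg hv (final_measurable_eta _) hg
  have h2 : (∑ l ∈ Finset.range n, Tp v (sc (l0 + l)) g) =
      fun x => ∑ l ∈ Finset.range n, Tp v (sc (l0 + l)) g x := by
    funext x
    exact Finset.sum_apply _ _ _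
  rw [h2]
  exact Finset.measurable_sum (M := ℝ) _ fun l _ => h l

lemma final_enorm_sq (a : ℝ) : ‖a‖ₑ ^ 2 = ENNReal.ofReal (a ^ 2) := by
  rw [Real.enorm_eq_ofReal_abs, ← ENNReal.ofReal_pow (abs_nonneg a), sq_abs]

lemma final_add_sq (a b : ℝ) : ‖a + b‖ₑ ^ 2 ≤ 2 * ‖a‖ₑ ^ 2 + 2 * ‖b‖ₑ ^ 2 := by
  rw [final_enorm_sq, final_enorm_sq, final_enorm_sq]
  have h2 : (2 : ℝ≥0∞) = ENNReal.ofReal 2 := by simp
  rw [h2, ← ENNReal.ofReal_mul zero_le_two, ← ENNReal.ofReal_mul zero_le_two,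
    ← ENNReal.ofReal_add (by positivity) (by positivity)]
  apply ENNReal.ofReal_le_ofReal
  linarith [sq_nonneg (a - b)]

lemma final_sqn_add {F G : Plane → ℝ} (hF : Measurable F) :
    sqn (fun x => F x + G x) ≤ 2 * sqn F + 2 * sqn G := by
  unfold sqn
  calc ∫⁻ x, ‖F x + G x‖ₑ ^ 2 ≤ ∫⁻ x, (2 * ‖F x‖ₑ ^ 2 + 2 * ‖G x‖ₑ ^ 2) :=
        lintegral_mono fun x => final_add_sq _ _
    _ = (∫⁻ x, 2 * ‖F x‖ₑ ^ 2) + ∫⁻ x, 2 * ‖G x‖ₑ ^ 2 := by
        apply lintegral_add_left
        exact (hF.enorm.pow_const 2).const_mul 2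
    _ = 2 * (∫⁻ x, ‖F x‖ₑ ^ 2) + 2 * ∫⁻ x, ‖G x‖ₑ ^ 2 := by
        rw [lintegral_const_mul' _ _ (by simp), lintegral_const_mul' _ _ (by simp)]

/-- Fatou's lemma for `sqn`. -/
lemma final_fatou {F : ℕ → Plane → ℝ} {G : Plane → ℝ} (hF : ∀ n, Measurable (F n))
    (hlim : ∀ x, Tendsto (fun n => F n x) atTop (𝓝 (G x))) {B : ℝ≥0∞}
    (hB : ∀ n, sqn (F n) ≤ B) : sqn G ≤ B := by
  unfold sqn at hB ⊢
  have h1 : ∀ x, ‖G x‖ₑ ^ 2 = liminf (fun n => ‖F n x‖ₑ ^ 2) atTop := by
    intro x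
    have h2 : Tendsto (fun n => ‖F n x‖ₑ ^ 2) atTop (𝓝 (‖G x‖ₑ ^ 2)) :=
      ((ENNReal.continuous_pow 2).tendsto _).comp ((hlim x).enorm)
    exact h2.liminf_eq.symm
  calc ∫⁻ x, ‖G x‖ₑ ^ 2 = ∫⁻ x, liminf (fun n => ‖F n x‖ₑ ^ 2) atTop :=
        lintegral_congr h1
    _ ≤ liminf (fun n => ∫⁻ x, ‖F n x‖ₑ ^ 2) atTop :=
        lintegral_liminf_le fun n => (hF n).enorm.pow_const 2
    _ ≤ liminf (fun _ => B) atTop := by
        apply liminf_le_liminf (Eventually.of_forall hB)
    _ = B := liminf_const B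

lemma final_normsq (z : ℂ) : ‖z‖ₑ ^ 2 = ‖z.re‖ₑ ^ 2 + ‖z.im‖ₑ ^ 2 := by
  rw [final_enorm_sq, final_enorm_sq, ← ENNReal.ofReal_add (sq_nonneg _) (sq_nonneg _),
    ← ofReal_norm_eq_enorm, ← ENNReal.ofReal_pow (norm_nonneg _)]
  congr 1
  rw [← Complex.normSq_eq_norm_sq, Complex.normSq_apply]
  ring

lemma final_lintegral_sq (f : SchwartzMap Plane ℂ) :
    ∫⁻ x, ‖f x‖ₑ ^ 2 = ENNReal.ofReal (∫ x, ‖f x‖ ^ 2) := by
  have hm : MemLp (fun x => f x) 2 (volume : Measure Plane) := f.memLp 2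
  have hi : Integrable (fun x => ‖f x‖ ^ 2) (volume : Measure Plane) := hm.integrable_norm_pow (by norm_num)
  rw [ofReal_integral_eq_lintegral_ofReal hi (Eventually.of_forall fun x => by positivity)]
  refine lintegral_congr fun x => ?_
  rw [← ofReal_norm_eq_enorm, ENNReal.ofReal_pow (norm_nonneg _)]

/-- the bound for the real or imaginary part -/
lemma final_part {v : Plane → Plane} (hvl : LipschitzWith 1 v) (hvu : ∀ x, ‖v x‖ = 1) {l0 : ℕ}
    (hl0 : 6 ≤ l0) {C₁ C₂ : ℝ} {a : ℝ}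
    (h1 : ∀ n : ℕ, ∀ F, CC F → sqn (∑ l ∈ Finset.range n, Tp v (sc (l0 + l)) F) ≤
      ENNReal.ofReal (C₁ ^ 2) * sqn F)
    (h2 : ∀ F : Plane → ℝ, Measurable F →
      sqn (fun x => ∫ t : ℝ, tailw l0 a t * F (x - t • v x)) ≤ ENNReal.ofReal (C₂ ^ 2) * sqn F)
    {g G : Plane → ℝ} (hg : Continuous g)
    (hlim : ∀ x, Tendsto (fun n : ℕ => (∑ l ∈ Finset.range n, Tp v (sc (l0 + l)) g) x +
      ∫ t : ℝ, tailw l0 a t * g (x - t • v x)) atTop (𝓝 (G x))) :
    Measurable G ∧ sqn G ≤ ENNReal.ofReal (2 * (C₁ ^ 2 + C₂ ^ 2)) * sqn g := by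
  have hm1 : ∀ n, Measurable (∑ l ∈ Finset.range n, Tp v (sc (l0 + l)) g) :=
    final_measurable_sum hvl.continuous hg l0
  have hm2 : Measurable fun x => ∫ t : ℝ, tailw l0 a t * g (x - t • v x) :=
    final_measurable_avg hvl.continuous (final_measurable_tailw l0 a) hg
  have hm3 : ∀ n : ℕ, Measurable fun x => (∑ l ∈ Finset.range n, Tp v (sc (l0 + l)) g) x +
      ∫ t : ℝ, tailw l0 a t * g (x - t • v x) := fun n => (hm1 n).add hm2
  refine ⟨measurable_of_tendsto_metrizable hm3 (tendsto_pi_nhds.2 hlim), ?_⟩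
  refine final_fatou hm3 hlim fun n => ?_
  refine (final_sqn_add (hm1 n)).trans ?_
  have h3 : sqn (∑ l ∈ Finset.range n, Tp v (sc (l0 + l)) g) ≤ ENNReal.ofReal (C₁ ^ 2) * sqn g :=
    sqn_ext hvl hvu hl0 (C₁ ^ 2).toNNReal (h1 n) g hg
  have h4 := h2 g hg.measurable
  have h5 : (2 : ℝ≥0∞) = ENNReal.ofReal 2 := by simp
  calc 2 * sqn (∑ l ∈ Finset.range n, Tp v (sc (l0 + l)) g) +
        2 * sqn (fun x => ∫ t : ℝ, tailw l0 a t * g (x - t • v x))
      ≤ 2 * (ENNReal.ofReal (C₁ ^ 2) * sqn g) + 2 * (ENNReal.ofReal (C₂ ^ 2) * sqn g) := by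
        (clear * - h3 h4; gcongr)
    _ = ENNReal.ofReal (2 * (C₁ ^ 2 + C₂ ^ 2)) * sqn g := by
        rw [ENNReal.ofReal_mul zero_le_two, ENNReal.ofReal_add (sq_nonneg _) (sq_nonneg _), ← h5]
        ring

theorem strong_bound (K β : ℝ) (hK : 1 ≤ K) (hβ : 0 < β) (hβ1 : β ≤ 1) : ∃ C : ℝ, 0 < C ∧
    ∀ (v : Plane → Plane), LipschitzWith 1 v → (∀ x, ‖v x‖ = 1) → FiniteType v K β →
    ∀ a : ℝ, 0 < a → a ≤ 1 → ∀ f : SchwartzMap Plane ℂ,
      ∫⁻ x, ‖hilbert v a f x‖ₑ ^ 2 ≤ ENNReal.ofReal (C * ∫ x, ‖f x‖ ^ 2) := by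
  refine (sum_bound K β hK hβ hβ1).elim fun C₁ h1 => ?_
  refine tail_bound.elim fun C₂ h2 => ?_
  have hC₁ := h1.1
  have hC₂ := h2.1
  refine ⟨2 * (C₁ ^ 2 + C₂ ^ 2), by positivity, ?_⟩
  intro v hvl hvu hft a ha ha1 f
  refine (h2.2 a ha ha1).elim fun l0 h3 => ?_
  refine (schwartz_lipschitz f).elim fun Kf hf => ?_
  have hre := final_part hvl hvu h3.1 (fun n => h1.2 v hvl hvu hft l0 n h3.1) (h3.2 v hvl hvu)
    (g := fun y => (f y).re) (G := fun x => (pvInt v a f x).re)
    (Complex.continuous_re.comp hf.continuous) (fun x => tendsto_re hf hvu x ha l0)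
  have him := final_part hvl hvu h3.1 (fun n => h1.2 v hvl hvu hft l0 n h3.1) (h3.2 v hvl hvu)
    (g := fun y => (f y).im) (G := fun x => (pvInt v a f x).im)
    (Complex.continuous_im.comp hf.continuous) (fun x => tendsto_im hf hvu x ha l0)
  have hmre : Measurable fun y => (f y).re :=
    (Complex.continuous_re.comp hf.continuous).measurable
  calc ∫⁻ x, ‖hilbert v a f x‖ₑ ^ 2
      = ∫⁻ x, (‖(pvInt v a f x).re‖ₑ ^ 2 + ‖(pvInt v a f x).im‖ₑ ^ 2) := by
        refine lintegral_congr fun x => ?_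
        rw [hilbert_eq hf v hvu x a]
        exact final_normsq _
    _ = sqn (fun x => (pvInt v a f x).re) + sqn (fun x => (pvInt v a f x).im) := by
        exact lintegral_add_left (hre.1.enorm.pow_const 2) _
    _ ≤ ENNReal.ofReal (2 * (C₁ ^ 2 + C₂ ^ 2)) * sqn (fun y => (f y).re) +
        ENNReal.ofReal (2 * (C₁ ^ 2 + C₂ ^ 2)) * sqn (fun y => (f y).im) :=
        add_le_add hre.2 him.2
    _ = ENNReal.ofReal (2 * (C₁ ^ 2 + C₂ ^ 2)) * ∫⁻ x, ‖f x‖ₑ ^ 2 := by
        rw [← mul_add]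
        congr 1
        have : ∫⁻ x, ‖f x‖ₑ ^ 2 = ∫⁻ x, (‖(f x).re‖ₑ ^ 2 + ‖(f x).im‖ₑ ^ 2) :=
          lintegral_congr fun x => final_normsq _
        rw [this]
        exact (lintegral_add_left (hmre.enorm.pow_const 2) _).symm
    _ = ENNReal.ofReal (2 * (C₁ ^ 2 + C₂ ^ 2) * ∫ x, ‖f x‖ ^ 2) := by
        rw [final_lintegral_sq, ← ENNReal.ofReal_mul (by positivity)]

lemma final_measurable_pvInt {v : Plane → Plane} (hv : Continuous v) {f : Plane → ℂ}
    (hf : Continuous f) (a : ℝ) : Measurable (pvInt v a f) := by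
  have h : Measurable (Function.uncurry fun (x : Plane) (t : ℝ) => symm f x (v x) t) := by
    unfold symm
    have h2 : Continuous fun p : Plane × ℝ => f (p.1 - p.2 • v p.1) :=
      hf.comp (continuous_fst.sub (continuous_snd.smul (hv.comp continuous_fst)))
    have h3 : Continuous fun p : Plane × ℝ => f (p.1 + p.2 • v p.1) :=
      hf.comp (continuous_fst.add (continuous_snd.smul (hv.comp continuous_fst)))
    have h4 : Continuous fun p : Plane × ℝ => (2 * (p.2 : ℂ)) :=
      continuous_const.mul (Complex.continuous_ofReal.comp continuous_snd)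
    exact (h2.measurable.sub h3.measurable).div h4.measurable
  exact (h.stronglyMeasurable.integral_prod_right).measurable

theorem weak_of_strong {v : Plane → Plane} (hvl : LipschitzWith 1 v) (hvu : ∀ x, ‖v x‖ = 1)
    {a C : ℝ} (ha : 0 < a) (hC : 0 ≤ C)
    (h : ∀ f : SchwartzMap Plane ℂ,
      ∫⁻ x, ‖hilbert v a f x‖ₑ ^ 2 ≤ ENNReal.ofReal (C * ∫ x, ‖f x‖ ^ 2)) :
    WeakTwoTwo v a C := by
  intro f lam hlam
  refine (schwartz_lipschitz f).elim fun Kf hf => ?_
  have hm : Measurable (hilbert v a f) := by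
    have h1 : hilbert v a f = pvInt v a f := funext fun x => hilbert_eq hf v hvu x a
    rw [h1]
    exact final_measurable_pvInt hvl.continuous hf.continuous a
  have hsub : {x | lam < ‖hilbert v a f x‖} ⊆
      {x | ENNReal.ofReal (lam ^ 2) ≤ ‖hilbert v a f x‖ₑ ^ 2} := by
    intro x hx
    have hx' : lam < ‖hilbert v a f x‖ := hx
    change ENNReal.ofReal (lam ^ 2) ≤ ‖hilbert v a f x‖ₑ ^ 2
    rw [← ofReal_norm_eq_enorm, ENNReal.ofReal_pow hlam.le]
    (clear * - hx'; gcongr)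
  have hpos : 0 < lam ^ 2 := by positivity
  calc volume {x | lam < ‖hilbert v a f x‖}
      ≤ volume {x | ENNReal.ofReal (lam ^ 2) ≤ ‖hilbert v a f x‖ₑ ^ 2} := measure_mono hsub
    _ ≤ (∫⁻ x, ‖hilbert v a f x‖ₑ ^ 2) / ENNReal.ofReal (lam ^ 2) :=
        meas_ge_le_lintegral_div (hm.enorm.pow_const 2).aemeasurable
          (by simpa only [ne_eq, ENNReal.ofReal_eq_zero, sq_nonpos_iff] using hlam.ne') ENNReal.ofReal_ne_top
    _ ≤ ENNReal.ofReal (C * ∫ x, ‖f x‖ ^ 2) / ENNReal.ofReal (lam ^ 2) := by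
        gcongr
        exact h f
    _ = ENNReal.ofReal (C / lam ^ 2 * ∫ x, ‖f x‖ ^ 2) := by
        rw [← ENNReal.ofReal_div_of_pos hpos]
        congr 1
        ring

end Vale.Agent.P112
end

section

open MeasureTheory Filter Topology

namespace Vale.Agent.P112

/-- Draft of the hand-in. -/
theorem result_draft (K β : ℝ) (hK : 1 ≤ K) (hβ : 0 < β) (hβ1 : β ≤ 1) :
    ∃ C : ℝ, 0 < C ∧ ∀ v : Plane → Plane, (∀ x, ‖v x‖ = 1) → LipschitzWith 1 v →
      FiniteType v K β → ∀ a : ℝ, 0 < a → a ≤ 1 →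
        (∀ f : SchwartzMap Plane ℂ,
          (∀ x, Tendsto (fun ε => truncHilbert v ε a f x) (𝓝[>] (0 : ℝ)) (𝓝 (hilbert v a f x))) ∧
          ∫⁻ x, ‖hilbert v a f x‖ₑ ^ 2 ≤ ENNReal.ofReal (C * ∫ x, ‖f x‖ ^ 2)) ∧
        WeakTwoTwo v a C := by
  refine (strong_bound K β hK hβ hβ1).elim fun C hC => ?_
  refine ⟨C, hC.1, ?_⟩
  intro v hvu hvl hft a ha ha1
  have h := hC.2 v hvl hvu hft a ha ha1
  refine ⟨fun f => ⟨fun x => ?_, h f⟩, weak_of_strong hvl hvu ha hC.1.le h⟩
  refine (schwartz_lipschitz f).elim fun Kf hf => ?_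
  rw [hilbert_eq hf v hvu x a]
  exact tendsto_trunc hf v hvu x a

end Vale.Agent.P112
end

section

namespace Vale.Agent.P112

open MeasureTheory
open scoped ENNReal

lemma l2sq_schwartz (f : SchwartzMap Plane ℂ) : l2sq f = ENNReal.ofReal (∫ x, ‖f x‖ ^ 2) := by
  have h1 : Integrable (fun x => ‖f x‖ ^ 2) := by
    have := (f.memLp 2 volume).integrable_norm_pow (p := 2) (by norm_num)
    simpa only using this
  rw [ofReal_integral_eq_lintegral_ofReal h1 (Filter.Eventually.of_forall fun x => by positivity)]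
  unfold l2sq
  apply lintegral_congr
  intro x
  rw [← ofReal_norm_eq_enorm, ENNReal.ofReal_pow (norm_nonneg _)]

lemma weakType_iff {v : Plane → Plane} {a C : ℝ} : WeakType v a C ↔ WeakTwoTwo v a C := by
  constructor
  · intro h f lam hlam
    have := h f ⟨f, rfl⟩ lam hlam
    rw [l2sq_schwartz, ← ENNReal.ofReal_mul' (integral_nonneg fun x => by positivity)] at this
    exact this
  · rintro h F ⟨f, rfl⟩ lam hlam
    have := h f lam hlam
    rw [l2sq_schwartz, ← ENNReal.ofReal_mul' (integral_nonneg fun x => by positivity)]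
    exact this

lemma steinHolds_iff {a C : ℝ} : SteinHolds a C ↔ Admissible a C := by
  unfold SteinHolds Admissible
  simp_rw [weakType_iff]

/-- The finite type theorem. -/
theorem strong_of_finiteType (K β : ℝ) (hK : 1 ≤ K) (hβ : 0 < β) (hβ1 : β ≤ 1) :
    ∃ C : ℝ, 0 < C ∧ ∀ v : Plane → Plane, (∀ x, ‖v x‖ = 1) → LipschitzWith 1 v →
      FiniteType v K β → ∀ a : ℝ, 0 < a → a ≤ 1 → StrongType v a C ∧ WeakType v a C := by
  refine (result_draft K β hK hβ hβ1).elim fun C hC => ⟨C, hC.1, fun v hvu hvl hft a ha ha1 => ?_⟩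
  have h := hC.2 v hvu hvl hft a ha ha1
  refine ⟨?_, weakType_iff.mpr h.2⟩
  rintro F ⟨f, rfl⟩
  have h2 := (h.1 f).2
  rw [l2sq_schwartz, ← ENNReal.ofReal_mul hC.1.le]
  exact h2

end Vale.Agent.P112
end
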